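import Claimed.Agent.R280.A.Basic

/-!
# Row 280, part A: elementary facts on group algebras (coefficients, centre, restriction)
-/

namespace Claimed.Agent.R280.A

open Claims.C0453

section Semi

variable {R : Type} [Semiring R] {X : Type} [Group X] [Finite X]

theorem sum_fs_univ {α : Type*} [Finite α] [Fintype α] {M : Type*} [AddCommMonoid M] (f : α → M) :
    ∑ x ∈ fs (Set.univ : Set α), f x = ∑ x, f x := by
  apply Finset.sum_congr _ (fun _ _ => rfl)
  ext x; simp

omit [Group X] [Finite X] in
theorem ext_coeff {a b : MonoidAlgebra R X} (h : ∀ g, a.coeff g = b.coeff g) : a = b :=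
  MonoidAlgebra.ext (Finsupp.ext h)

@[simp] theorem ofFun_coeff (a : MonoidAlgebra R X) : ofFun (fun g => a.coeff g) = a :=
  ext_coeff fun _ => rfl

theorem coeff_mul_sum (a b : MonoidAlgebra R X) (g : X) :
    (a * b).coeff g = ∑ x ∈ fs (Set.univ : Set X), a.coeff x * b.coeff (x⁻¹ * g) := by
  rw [MonoidAlgebra.coeff_mul_apply_left, Finsupp.sum]
  apply Finset.sum_subset (fun x _ => by simp)
  intro x _ hx
  rw [Finsupp.notMem_support_iff.1 hx, zero_mul]

theorem coeff_mul_sum' (a b : MonoidAlgebra R X) (g : X) :
    (a * b).coeff g = ∑ x ∈ fs (Set.univ : Set X), a.coeff (g * x⁻¹) * b.coeff x := by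
  rw [MonoidAlgebra.coeff_mul_apply_right, Finsupp.sum]
  apply Finset.sum_subset (fun x _ => by simp)
  intro x _ hx
  rw [Finsupp.notMem_support_iff.1 hx, mul_zero]

theorem eq_sum_single (a : MonoidAlgebra R X) :
    a = ∑ g ∈ fs (Set.univ : Set X), MonoidAlgebra.single g (a.coeff g) := by
  classical
  apply ext_coeff
  intro g
  rw [MonoidAlgebra.coeff_sum, Finsupp.finsetSum_apply, Finset.sum_eq_single g]
  · simp
  · intro b _ hb
    simp [MonoidAlgebra.coeff_single, Finsupp.single_apply, hb]
  · intro h; simp at h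

/-! ### `pull`, `resA`, `brX` are additive -/

theorem pull_add {H : Type} [Finite H] (φ : H → X) (a b : MonoidAlgebra R X) :
    pull φ (a + b) = pull φ a + pull φ b := MonoidAlgebra.ext (Finsupp.ext fun _ => rfl)

theorem pull_zero {H : Type} [Finite H] (φ : H → X) : pull φ (0 : MonoidAlgebra R X) = 0 :=
  MonoidAlgebra.ext (Finsupp.ext fun _ => rfl)

theorem resA_add (H : Subgroup X) (a b : MonoidAlgebra R X) :
    resA H (a + b) = resA H a + resA H b := ext_coeff fun _ => rfl

@[simp] theorem resA_zero (H : Subgroup X) : resA H (0 : MonoidAlgebra R X) = 0 :=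
  ext_coeff fun _ => rfl

@[simp] theorem resA_one (H : Subgroup X) : resA H (1 : MonoidAlgebra R X) = 1 := by
  classical
  apply ext_coeff
  intro h
  simp only [coeff_resA, MonoidAlgebra.one_def, MonoidAlgebra.coeff_single, Finsupp.single_apply]
  by_cases h1 : h = 1
  · simp [h1]
  · have h2 : (h : X) ≠ 1 := fun h3 => h1 (Subtype.ext h3)
    rw [if_neg (Ne.symm h2), if_neg (Ne.symm h1)]

theorem brX_add (P : Subgroup X) (a b : MonoidAlgebra R X) :
    brX P (a + b) = brX P a + brX P b := by
  classical
  apply ext_coeff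
  intro g
  by_cases hg : g ∈ Subgroup.centralizer (P : Set X)
  · simp [coeff_brX_of_mem, hg]
  · simp [coeff_brX_of_not_mem, hg]

@[simp] theorem brX_zero (P : Subgroup X) : brX P (0 : MonoidAlgebra R X) = 0 := by
  apply ext_coeff
  intro g
  simp [brX]

@[simp] theorem brX_one (P : Subgroup X) : brX P (1 : MonoidAlgebra R X) = 1 := by
  classical
  apply ext_coeff
  intro g
  by_cases hg : g ∈ Subgroup.centralizer (P : Set X)
  · simp [coeff_brX_of_mem, hg]
  · rw [coeff_brX_of_not_mem _ _ hg]
    have : g ≠ 1 := fun h => hg (h ▸ Subgroup.one_mem _)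
    simp [MonoidAlgebra.one_def, MonoidAlgebra.coeff_single, Finsupp.single_apply, this.symm]

@[simp] theorem brX_bot (a : MonoidAlgebra R X) : brX ⊥ a = a := by
  apply ext_coeff
  intro g
  apply coeff_brX_of_mem
  simp [Subgroup.mem_centralizer_iff]

theorem centralizer_sup (P Q : Subgroup X) :
    Subgroup.centralizer ((P ⊔ Q : Subgroup X) : Set X) =
      Subgroup.centralizer (P : Set X) ⊓ Subgroup.centralizer (Q : Set X) := by
  apply le_antisymm
  · exact le_inf (Subgroup.centralizer_le (SetLike.coe_subset_coe.2 le_sup_left))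
      (Subgroup.centralizer_le (SetLike.coe_subset_coe.2 le_sup_right))
  · intro g hg
    have h1 : P ≤ Subgroup.centralizer ({g} : Set X) := by
      intro x hx
      rw [Subgroup.mem_centralizer_iff]
      intro y hy
      rw [Set.mem_singleton_iff.1 hy]
      exact ((Subgroup.mem_centralizer_iff.1 hg.1) x hx).symm
    have h2 : Q ≤ Subgroup.centralizer ({g} : Set X) := by
      intro x hx
      rw [Subgroup.mem_centralizer_iff]
      intro y hy
      rw [Set.mem_singleton_iff.1 hy]
      exact ((Subgroup.mem_centralizer_iff.1 hg.2) x hx).symm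
    rw [Subgroup.mem_centralizer_iff]
    intro x hx
    exact ((Subgroup.mem_centralizer_iff.1 (sup_le h1 h2 hx)) g rfl).symm

theorem brX_brX (P Q : Subgroup X) (a : MonoidAlgebra R X) :
    brX P (brX Q a) = brX (P ⊔ Q) a := by
  apply ext_coeff
  intro g
  by_cases hP : g ∈ Subgroup.centralizer (P : Set X)
  · by_cases hQ : g ∈ Subgroup.centralizer (Q : Set X)
    · rw [coeff_brX_of_mem _ _ hP, coeff_brX_of_mem _ _ hQ, coeff_brX_of_mem]
      rw [centralizer_sup]; exact ⟨hP, hQ⟩
    · rw [coeff_brX_of_mem _ _ hP, coeff_brX_of_not_mem _ _ hQ, coeff_brX_of_not_mem]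
      rw [centralizer_sup]; exact fun h => hQ h.2
  · rw [coeff_brX_of_not_mem _ _ hP, coeff_brX_of_not_mem]
    rw [centralizer_sup]; exact fun h => hP h.1

/-- Restriction is multiplicative as soon as the left factor is supported on the subgroup. -/
theorem resA_mul_of_supp (H : Subgroup X) (a b : MonoidAlgebra R X)
    (ha : ∀ g, g ∉ H → a.coeff g = 0) : resA H (a * b) = resA H a * resA H b := by
  classical
  apply ext_coeff
  intro h
  rw [coeff_resA, coeff_mul_sum, coeff_mul_sum]
  symm
  apply Finset.sum_bij_ne_zero (fun (x : H) _ _ => (x : X))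
  · intro x _ _; simp
  · intro x _ _ y _ _ hxy; exact Subtype.ext hxy
  · intro x _ hx
    have hxH : x ∈ H := by
      by_contra hcon
      exact hx (by rw [ha x hcon, zero_mul])
    exact ⟨⟨x, hxH⟩, by simp, by simpa using hx, rfl⟩
  · intro x _ _
    simp

end Semi

section Ring

variable {R : Type} [Ring R] {X : Type} [Group X] [Finite X]

theorem resA_sub (H : Subgroup X) (a b : MonoidAlgebra R X) :
    resA H (a - b) = resA H a - resA H b := ext_coeff fun _ => rfl

theorem resA_neg (H : Subgroup X) (a : MonoidAlgebra R X) : resA H (-a) = -resA H a :=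
  ext_coeff fun _ => rfl

theorem brX_neg (P : Subgroup X) (a : MonoidAlgebra R X) : brX P (-a) = -brX P a := by
  apply ext_coeff
  intro g
  by_cases hg : g ∈ Subgroup.centralizer (P : Set X)
  · simp [coeff_brX_of_mem, hg]
  · simp [coeff_brX_of_not_mem, hg]

theorem brX_sub (P : Subgroup X) (a b : MonoidAlgebra R X) :
    brX P (a - b) = brX P a - brX P b := by
  rw [sub_eq_add_neg, brX_add, brX_neg, ← sub_eq_add_neg]

end Ring

section Comm

variable {R : Type} [CommSemiring R] {X : Type} [Group X] [Finite X]

theorem resA_smul (H : Subgroup X) (c : R) (a : MonoidAlgebra R X) :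
    resA H (c • a) = c • resA H a := ext_coeff fun _ => rfl

theorem resA_algebraMap (H : Subgroup X) (c : R) :
    resA H (algebraMap R (MonoidAlgebra R X) c) = algebraMap R (MonoidAlgebra R H) c := by
  rw [Algebra.algebraMap_eq_smul_one, Algebra.algebraMap_eq_smul_one, resA_smul, resA_one]

theorem brX_smul (P : Subgroup X) (c : R) (a : MonoidAlgebra R X) :
    brX P (c • a) = c • brX P a := by
  apply ext_coeff
  intro g
  by_cases hg : g ∈ Subgroup.centralizer (P : Set X)
  · simp [coeff_brX_of_mem, hg]
  · simp [coeff_brX_of_not_mem, hg]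

theorem brX_algebraMap (P : Subgroup X) (c : R) :
    brX P (algebraMap R (MonoidAlgebra R X) c) = algebraMap R (MonoidAlgebra R X) c := by
  rw [Algebra.algebraMap_eq_smul_one, brX_smul, brX_one]

/-- An element of a group algebra is central iff its coefficient function is a class function. -/
theorem mem_center_iff (a : MonoidAlgebra R X) :
    a ∈ Set.center (MonoidAlgebra R X) ↔ ∀ x g : X, a.coeff (x * g * x⁻¹) = a.coeff g := by
  constructor
  · intro ha x g
    have h := (Semigroup.mem_center_iff.1 ha) (MonoidAlgebra.single x (1 : R))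
    have h2 := congrArg (fun z => MonoidAlgebra.coeff z (x * g)) h
    simp only [MonoidAlgebra.coeff_single_mul_apply, MonoidAlgebra.coeff_mul_single_apply, one_mul,
      mul_one, inv_mul_cancel_left] at h2
    exact h2.symm
  · intro h
    rw [Semigroup.mem_center_iff]
    intro b
    apply ext_coeff
    intro g
    rw [coeff_mul_sum, coeff_mul_sum']
    apply Finset.sum_congr rfl
    intro x _
    rw [mul_comm]
    congr 1
    have := h x (x⁻¹ * g)
    rw [← this]
    congr 1
    group

end Comm

end Claimed.Agent.R280.A
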