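import Mathlib

/-!
# Row 280, interface between part A (block theory) and part B (covers of curves)

`Tup J n M` is the set of tuples `(x, y, u₁, …, uₙ)` of elements of the group `J` with
`[x, y] u₁ ⋯ uₙ = 1` that generate `J` and whose puncture entries `uᵢ` have the multiset `M` of
conjugacy classes.  `TupleDiv p` is the uniform divisibility theorem (Theorem 3.1 of the paper, for
actual tuples instead of tuples up to simultaneous conjugation).
-/

namespace Claimed.Agent.R280

/-- The generating tuples `(x, y, u₁, …, uₙ)` of `J` with `[x, y] u₁ ⋯ uₙ = 1` and with prescribed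
multiset `M` of conjugacy classes of the `uᵢ`. -/
def Tup (J : Type) [Group J] (n : ℕ) (M : Multiset (ConjClasses J)) :
    Set (J × J × (Fin n → J)) :=
  {t | t.1 * t.2.1 * t.1⁻¹ * t.2.1⁻¹ * (List.ofFn t.2.2).prod = 1 ∧
    Subgroup.closure ({t.1, t.2.1} ∪ Set.range t.2.2) = ⊤ ∧
    (Finset.univ.val.map fun i => ConjClasses.mk (t.2.2 i)) = M}

/-- **Uniform divisibility for generating tuples.**  For every finite group `J` without nontrivial
normal `p`-subgroup and every `h`, for all large `s` the number of generating tuples with `p ^ s`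
punctures is divisible by `p ^ h`, for every multiset of `p`-singular classes. -/
def TupleDiv (p : ℕ) : Prop :=
  ∀ (J : Type) [Group J] [Finite J],
    (∀ N : Subgroup J, N.Normal → IsPGroup p N → N = ⊥) →
    ∀ h : ℕ, ∃ s₀ : ℕ, ∀ s : ℕ, s₀ ≤ s → ∀ M : Multiset (ConjClasses J),
      (∀ c ∈ M, ∀ g : J, ConjClasses.mk g = c → p ∣ orderOf g) →
      p ^ h ∣ Nat.card (Tup J (p ^ s) M)

end Claimed.Agent.R280
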