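import Claimed.Prelude.Def_0453
import Claimed.Agent.R280.A.Defs

/-!
# Row 280, part A (block theory): basic definitions

Everything in part A is written in the following language (character free, no orbit
representatives: all sums are weighted sums over actual subgroups, chains, elements).

* `fs S`        : the finset of a set in a finite type (no `Fintype`/decidability instances occur
                  in statements);
* `ofFun f`     : the element `∑ f g • g` of a group algebra;
* `pull φ a`    : coefficients pulled back along a map `φ`; `resA H a = pull Subtype.val a` is the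
                  coefficient restriction (`= Claims.C0453.coeffRestrict`, but for every ring);
* `brX P a`     : `a` with the coefficients outside `C_X(P)` killed (Brauer map, inside `R[X]`);
* `cl`, `sec`, `cmul a` : the cocenter `R[X]/[R[X],R[X]]` in its model `ConjClasses X → R`, a section
                  and the operator induced by left multiplication with `a` (meaningful for central
                  `a`);
* `kap a`       : rank of `cmul a` (replaces the number of ordinary characters of a central
                  idempotent);
* `Vreg p k X`  : functions supported on the `p`-regular classes;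
* `zCount e`    : number of defect zero blocks `e₀` with `e * e₀ = e₀`;
* `IsPChain`, `stab`, `top`, `IsNormalChain` : chains of nontrivial `p`-subgroups as finsets;
* `lT E H P`, `kT E H P` : the universal terms `|H| · l(H, Br_P E)`, `|H| · κ(H, Br_P E)`;
* `LiftData p k` : a ring `O` with `O / p O = k` that is `p`-adically separated on integers.
-/

namespace Claimed.Agent.R280.A

open Claims.C0453

/-- The finset of the elements of a set in a finite type. -/
noncomputable def fs {α : Type*} [Finite α] (S : Set α) : Finset α := (Set.toFinite S).toFinset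

@[simp] theorem mem_fs {α : Type*} [Finite α] {S : Set α} {a : α} : a ∈ fs S ↔ a ∈ S := by
  simp [fs]

section Alg

variable {R : Type} [Semiring R] {X : Type}

/-- The element `∑ f g • g` of the monoid algebra. -/
noncomputable def ofFun [Finite X] (f : X → R) : MonoidAlgebra R X :=
  MonoidAlgebra.ofCoeff (Finsupp.equivFunOnFinite.symm f)

@[simp] theorem coeff_ofFun [Finite X] (f : X → R) (g : X) : (ofFun f).coeff g = f g := rfl

/-- Pull back of the coefficients along a map. -/
noncomputable def pull {H : Type} [Finite H] (φ : H → X) (a : MonoidAlgebra R X) :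
    MonoidAlgebra R H :=
  ofFun fun h => a.coeff (φ h)

@[simp] theorem coeff_pull {H : Type} [Finite H] (φ : H → X) (a : MonoidAlgebra R X) (h : H) :
    (pull φ a).coeff h = a.coeff (φ h) := rfl

variable [Group X] [Finite X]

/-- Restriction of the coefficients to a subgroup. -/
noncomputable def resA (H : Subgroup X) (a : MonoidAlgebra R X) : MonoidAlgebra R H :=
  pull (Subtype.val : H → X) a

@[simp] theorem coeff_resA (H : Subgroup X) (a : MonoidAlgebra R X) (h : H) :
    (resA H a).coeff h = a.coeff h.1 := rfl

open Classical in
/-- The Brauer truncation: the coefficients outside the centraliser of `P` are killed. -/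
noncomputable def brX (P : Subgroup X) (a : MonoidAlgebra R X) : MonoidAlgebra R X :=
  ofFun fun g => if g ∈ Subgroup.centralizer (P : Set X) then a.coeff g else 0

theorem coeff_brX_of_mem (P : Subgroup X) (a : MonoidAlgebra R X) {g : X}
    (hg : g ∈ Subgroup.centralizer (P : Set X)) : (brX P a).coeff g = a.coeff g := by
  simp [brX, hg]

theorem coeff_brX_of_not_mem (P : Subgroup X) (a : MonoidAlgebra R X) {g : X}
    (hg : g ∉ Subgroup.centralizer (P : Set X)) : (brX P a).coeff g = 0 := by
  simp [brX, hg]

/-- `p`-elements (the identity included). -/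
def IsPElt (p : ℕ) (u : X) : Prop := ∃ n : ℕ, u ^ p ^ n = 1

open Classical in
/-- The sum of all `p`-elements. -/
noncomputable def cX (p : ℕ) (R X : Type) [Semiring R] [Group X] [Finite X] : MonoidAlgebra R X :=
  ofFun fun g => if IsPElt p g then 1 else 0

end Alg

theorem coeffRestrict_eq_resA {k G : Type} [Field k] [Group G] [Finite G] (N : Subgroup G)
    (z : MonoidAlgebra k G) : coeffRestrict N z = resA N z := rfl

section Cocenter

variable (R : Type) [CommSemiring R] (X : Type) [Group X] [Finite X]

/-- The class map `R[X] → (ConjClasses X → R)`: sum of the coefficients over a class.  It is the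
quotient map onto the cocenter. -/
noncomputable def cl : MonoidAlgebra R X →ₗ[R] (ConjClasses X → R) where
  toFun a c := ∑ g ∈ fs {g : X | ConjClasses.mk g = c}, a.coeff g
  map_add' a b := by
    funext c
    simp [Finset.sum_add_distrib]
  map_smul' r a := by
    funext c
    simp [Finset.mul_sum]

/-- A linear section of `cl`. -/
noncomputable def sec : (ConjClasses X → R) →ₗ[R] MonoidAlgebra R X where
  toFun f := ∑ c ∈ fs (Set.univ : Set (ConjClasses X)), MonoidAlgebra.single (Quotient.out c) (f c)
  map_add' a b := by
    simp [MonoidAlgebra.single_add, Finset.sum_add_distrib]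
  map_smul' r a := by
    simp [Finset.smul_sum, MonoidAlgebra.smul_single]

variable {R X}

/-- The operator on the cocenter induced by left multiplication with `a` (used for central `a`). -/
noncomputable def cmul (a : MonoidAlgebra R X) : (ConjClasses X → R) →ₗ[R] (ConjClasses X → R) :=
  cl R X ∘ₗ LinearMap.mulLeft R a ∘ₗ sec R X

end Cocenter

section Counts

variable {k : Type} [Field k] {X : Type} [Group X] [Finite X]

/-- The rank of a central element on the cocenter. -/
noncomputable def kap (a : MonoidAlgebra k X) : ℕ := Module.finrank k (LinearMap.range (cmul a))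

/-- The span of the `p`-regular classes in the cocenter. -/
def Vreg (p : ℕ) (k : Type) [Field k] (X : Type) [Group X] : Submodule k (ConjClasses X → k) where
  carrier := {f | ∀ g : X, p ∣ orderOf g → f (ConjClasses.mk g) = 0}
  add_mem' := by
    intro a b ha hb g hg
    simp [ha g hg, hb g hg]
  zero_mem' := by
    intro g _
    rfl
  smul_mem' := by
    intro c a ha g hg
    simp [ha g hg]

/-- Central idempotents. -/
def IsCI (E : MonoidAlgebra k X) : Prop :=
  E ∈ Set.center (MonoidAlgebra k X) ∧ IsIdempotentElem E

/-- Invariance under conjugation with the elements of a subgroup. -/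
def IsInv (P : Subgroup X) (a : MonoidAlgebra k X) : Prop :=
  ∀ x ∈ P, ∀ g : X, a.coeff (x * g * x⁻¹) = a.coeff g

/-- The Jacobson radical of the group algebra (in the form of the frozen definitions). -/
noncomputable abbrev rad (k : Type) [Field k] (X : Type) [Group X] : Ideal (MonoidAlgebra k X) :=
  (⊥ : Ideal (MonoidAlgebra k X)).jacobson

/-- The number of defect zero blocks contained in `e`. -/
noncomputable def zCount (e : MonoidAlgebra k X) : ℕ :=
  Nat.card {e₀ : MonoidAlgebra k X // IsDefectZeroBlock e₀ ∧ e * e₀ = e₀}

/-- `|H| · l(H, Br_P E)`. -/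
noncomputable def lT (E : MonoidAlgebra k X) (H P : Subgroup X) : ℕ :=
  Nat.card H * numSimplesInBlock (resA H (brX P E))

/-- `|H| · κ(H, Br_P E)`. -/
noncomputable def kT (E : MonoidAlgebra k X) (H P : Subgroup X) : ℕ :=
  Nat.card H * kap (resA H (brX P E))

/-- The idempotent `\bar E_Q` of `k[N_X(Q)/Q]`. -/
noncomputable def barE (Q : Subgroup X) (E : MonoidAlgebra k X) :
    MonoidAlgebra k (Subgroup.normalizer (Q : Set X) ⧸
      Q.subgroupOf (Subgroup.normalizer (Q : Set X))) :=
  MonoidAlgebra.mapDomainRingHom k
    (QuotientGroup.mk' (Q.subgroupOf (Subgroup.normalizer (Q : Set X))))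
    (resA (Subgroup.normalizer (Q : Set X)) (brX Q E))

end Counts

section Chains

variable {X : Type} [Group X]

/-- Chains of nontrivial `p`-subgroups, as finsets (the empty chain is the chain `(1)` of the
paper). -/
def IsPChain (p : ℕ) (C : Finset (Subgroup X)) : Prop :=
  (∀ Q ∈ C, IsPGroup p Q ∧ Q ≠ ⊥) ∧ IsChain (· ≤ ·) (C : Set (Subgroup X))

/-- The stabiliser `H_C` of a chain. -/
def stab (C : Finset (Subgroup X)) : Subgroup X := ⨅ Q ∈ C, Subgroup.normalizer (Q : Set X)

/-- The largest member of a chain (`⊥` for the empty chain). -/
def top (C : Finset (Subgroup X)) : Subgroup X := C.sup id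

/-- Normal chains: every member is normal in the largest one. -/
def IsNormalChain (C : Finset (Subgroup X)) : Prop := top C ≤ stab C

end Chains

/-- A coefficient ring for lifting from characteristic `p`. -/
structure LiftData (p : ℕ) (k : Type) [Field k] where
  /-- the ring -/
  O : Type
  /-- its ring structure -/
  [ring : CommRing O]
  /-- the reduction -/
  π : O →+* k
  surj : Function.Surjective π
  ker : ∀ x : O, π x = 0 ↔ (p : O) ∣ x
  sep : ∀ m : ℤ, (∀ h : ℕ, (p : O) ^ h ∣ (m : O)) → m = 0

attribute [instance] LiftData.ring

section Tuples

variable {X : Type} [Group X] [Finite X]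

/-- The tuples `(x, y, u₁, …, uₙ)` with `[x, y] u₁ ⋯ uₙ = 1` and all entries in `H`. -/
noncomputable def tupS (n : ℕ) (H : Subgroup X) : Finset (X × X × (Fin n → X)) :=
  fs {t | t.1 * t.2.1 * t.1⁻¹ * t.2.1⁻¹ * (List.ofFn t.2.2).prod = 1 ∧
    t.1 ∈ H ∧ t.2.1 ∈ H ∧ ∀ i, t.2.2 i ∈ H}

/-- The weighted number of tuples in `H`. -/
noncomputable def tau {O : Type} [CommRing O] (α : X → O) (n : ℕ) (H : Subgroup X) : O :=
  ∑ t ∈ tupS n H, ∏ i, α (t.2.2 i)

end Tuples

end Claimed.Agent.R280.A
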