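import Claimed.Agent.R280.A.Radical

/-!
# Row 280, part A, package Blocks: the block decomposition of a finite group algebra

Everything happens in the commutative finite dimensional algebra `Z(k[X])`; no characteristic
hypothesis.  Suggested proofs (elementary, no structure theory):
* distinct blocks are orthogonal: `b * b'` is a central idempotent below both;
* every central idempotent is a sum of blocks: strong induction on `finrank (e * Z)`;
* hence the set of blocks is finite (any block occurs in a decomposition of `1`);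
* Fitting: the chain `z ^ n * b * Z` stabilises, `z ^ n * b = z ^ (2 n) * y`, `f = z ^ n * y` is a
  central idempotent below `b`, so `f = 0` (`z * b` nilpotent) or `f = b` (`z * b` invertible in
  `b * Z`);
* eigenvalue: `Module.End.exists_eigenvalue` for multiplication by `z` on `b * Z ≠ 0`.
-/

namespace Claimed.Agent.R280.A

open Claims.C0453

section Comm

variable {Z : Type*} [CommRing Z]

/-- Primitive idempotents of a commutative ring. -/
def PrimI (b : Z) : Prop :=
  IsIdempotentElem b ∧ b ≠ 0 ∧ ∀ e : Z, IsIdempotentElem e → e * b = e → e = 0 ∨ e = b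

theorem PrimI_eqns_cite : True := by
  have := @PrimI.eq_1.{0}
  trivial

theorem primI_span_lt {e f : Z} (hf : IsIdempotentElem f) (hfe : f * e = f)
    (hne : f ≠ e) : Ideal.span {f} < Ideal.span {e} := by
  refine lt_of_le_of_ne ?_ ?_
  · rw [Ideal.span_singleton_le_span_singleton]
    exact ⟨f, by rw [mul_comm, hfe]⟩
  · intro h
    have h1 : e ∈ Ideal.span {f} := by
      rw [h]; exact Ideal.mem_span_singleton_self e
    obtain ⟨a, ha⟩ := Ideal.mem_span_singleton'.1 h1
    apply hne
    have hf' : f * f = f := hf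
    calc f = f * e := hfe.symm
      _ = f * (a * f) := by rw [ha]
      _ = a * (f * f) := by ring
      _ = e := by rw [hf', ha]

theorem primI_decomp [IsArtinianRing Z] (e : Z) (he : IsIdempotentElem e) :
    ∃ S : Finset Z, (∀ b ∈ S, PrimI b ∧ e * b = b) ∧ e = ∑ b ∈ S, b := by
  classical
  suffices H : ∀ I : Ideal Z, ∀ e : Z, IsIdempotentElem e → Ideal.span {e} = I →
      ∃ S : Finset Z, (∀ b ∈ S, PrimI b ∧ e * b = b) ∧ e = ∑ b ∈ S, b from H _ e he rfl
  intro I
  induction I using WellFoundedLT.induction with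
  | _ I ih =>
    intro e he hI
    by_cases h0 : e = 0
    · exact ⟨∅, by simp, by simp [h0]⟩
    by_cases hb : PrimI e
    · exact ⟨{e}, by simpa using ⟨hb, he⟩, by simp⟩
    have hex : ∃ f : Z, IsIdempotentElem f ∧ f * e = f ∧ f ≠ 0 ∧ f ≠ e := by
      by_contra hcon
      push Not at hcon
      refine hb ⟨he, h0, fun f hf hfe => ?_⟩
      by_cases hf0 : f = 0
      · exact Or.inl hf0
      · exact Or.inr (hcon f hf hfe hf0)
    obtain ⟨f, hf, hfe, hf0, hfne⟩ := hex
    have he' : e * e = e := he
    have hf' : f * f = f := hf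
    have hg : IsIdempotentElem (e - f) := by
      show (e - f) * (e - f) = e - f
      linear_combination he' - 2 * hfe + hf'
    have hge : (e - f) * e = e - f := by
      linear_combination he' - hfe
    have hgne : e - f ≠ e := by
      intro h
      apply hf0
      linear_combination -h
    obtain ⟨S1, hS1, hsum1⟩ := ih _ (hI ▸ primI_span_lt hf hfe hfne) f hf rfl
    obtain ⟨S2, hS2, hsum2⟩ := ih _ (hI ▸ primI_span_lt hg hge hgne) (e - f) hg rfl
    have hdisj : Disjoint S1 S2 := by
      rw [Finset.disjoint_left]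
      intro b hb1 hb2
      have h1 := (hS1 b hb1).2
      have h2 := (hS2 b hb2).2
      apply (hS1 b hb1).1.2.1
      have : b = f * ((e - f) * b) := by rw [h2, h1]
      rw [this]
      linear_combination (hfe - hf') * b
    refine ⟨S1 ∪ S2, ?_, ?_⟩
    · intro b hb
      rcases Finset.mem_union.1 hb with hb | hb
      · refine ⟨(hS1 b hb).1, ?_⟩
        have h1 := (hS1 b hb).2
        calc e * b = e * (f * b) := by rw [h1]
          _ = (f * e) * b := by ring
          _ = b := by rw [hfe, h1]
      · refine ⟨(hS2 b hb).1, ?_⟩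
        have h1 := (hS2 b hb).2
        calc e * b = e * ((e - f) * b) := by rw [h1]
          _ = ((e - f) * e) * b := by ring
          _ = b := by rw [hge, h1]
    · rw [Finset.sum_union hdisj, ← hsum1, ← hsum2]
      ring

theorem primI_mul_primI {b b' : Z} (hb : PrimI b) (hb' : PrimI b') (hne : b ≠ b') :
    b * b' = 0 := by
  have hbi : b * b = b := hb.1
  have hbi' : b' * b' = b' := hb'.1
  have hi : IsIdempotentElem (b * b') := by
    show b * b' * (b * b') = b * b'
    calc b * b' * (b * b') = (b * b) * (b' * b') := by ring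
      _ = b * b' := by rw [hbi, hbi']
  have h1 := hb.2.2 (b * b') hi (by
    calc b * b' * b = (b * b) * b' := by ring
      _ = b * b' := by rw [hbi])
  have h2 := hb'.2.2 (b * b') hi (by
    calc b * b' * b' = b * (b' * b') := by ring
      _ = b * b' := by rw [hbi'])
  rcases h1 with h1 | h1
  · exact h1
  rcases h2 with h2 | h2
  · exact h2
  exact absurd (h1.symm.trans h2) hne

theorem primI_mem_of_sum {S : Finset Z} (hS : ∀ b ∈ S, PrimI b) (hsum : (1 : Z) = ∑ b ∈ S, b)
    {b : Z} (hb : PrimI b) : b ∈ S := by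
  by_contra hbS
  apply hb.2.1
  calc b = b * 1 := (mul_one b).symm
    _ = ∑ b' ∈ S, b * b' := by rw [hsum, Finset.mul_sum]
    _ = 0 := Finset.sum_eq_zero fun b' hb' =>
      primI_mul_primI hb (hS b' hb') (fun h => hbS (h ▸ hb'))

theorem primI_finite [IsArtinianRing Z] : {b : Z | PrimI b}.Finite := by
  obtain ⟨S, hS, hsum⟩ := primI_decomp (1 : Z) (IsIdempotentElem.one)
  exact S.finite_toSet.subset fun b hb => primI_mem_of_sum (fun b hb => (hS b hb).1) hsum hb

theorem primI_sum [IsArtinianRing Z] : ∑ b ∈ (primI_finite (Z := Z)).toFinset, b = 1 := by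
  obtain ⟨S, hS, hsum⟩ := primI_decomp (1 : Z) (IsIdempotentElem.one)
  have : (primI_finite (Z := Z)).toFinset = S := by
    ext b
    simp only [Set.Finite.mem_toFinset, Set.mem_ofPred_eq]
    exact ⟨fun hb => primI_mem_of_sum (fun b hb => (hS b hb).1) hsum hb, fun hb => (hS b hb).1⟩
  rw [this, ← hsum]

theorem primI_nil_or_unit [IsArtinianRing Z] {b : Z} (hb : PrimI b) (z : Z) :
    IsNilpotent (z * b) ∨ ∃ y : Z, z * y * b = b := by
  have hbi : b * b = b := hb.1
  let F : ℕ →o (Ideal Z)ᵒᵈ :=
    ⟨fun n => OrderDual.toDual (Ideal.span {z ^ n * b}), monotone_nat_of_le_succ (by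
      intro n
      show Ideal.span {z ^ (n + 1) * b} ≤ Ideal.span {z ^ n * b}
      rw [Ideal.span_singleton_le_span_singleton]
      exact ⟨z, by ring⟩)⟩
  obtain ⟨n, hn⟩ := IsArtinian.monotone_stabilizes F
  have h1 : Ideal.span {z ^ (n + 1) * b} = Ideal.span {z ^ (2 * (n + 1)) * b} := by
    have e1 : Ideal.span {z ^ n * b} = Ideal.span {z ^ (n + 1) * b} := hn (n + 1) (by omega)
    have e2 : Ideal.span {z ^ n * b} = Ideal.span {z ^ (2 * (n + 1)) * b} :=
      hn (2 * (n + 1)) (by omega)
    rw [← e1, e2]
  have h2 : z ^ (n + 1) * b ∈ Ideal.span {z ^ (2 * (n + 1)) * b} := by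
    rw [← h1]; exact Ideal.mem_span_singleton_self _
  obtain ⟨y, hy⟩ := Ideal.mem_span_singleton'.1 h2
  set w := z ^ (n + 1) * b with hw
  have hww : w * w * y = w := by
    calc w * w * y = y * (z ^ (2 * (n + 1)) * (b * b)) := by rw [hw]; ring
      _ = w := by rw [hbi, hy]
  have hwb : w * b = w := by
    rw [hw, mul_assoc, hbi]
  have hfi : IsIdempotentElem (w * y) := by
    show w * y * (w * y) = w * y
    calc w * y * (w * y) = (w * w * y) * y := by ring
      _ = w * y := by rw [hww]
  rcases hb.2.2 (w * y) hfi (by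
    calc w * y * b = (w * b) * y := by ring
      _ = w * y := by rw [hwb]) with h | h
  · left
    refine ⟨n + 1, ?_⟩
    have hw0 : w = 0 := by
      calc w = w * w * y := hww.symm
        _ = w * (w * y) := by ring
        _ = 0 := by rw [h, mul_zero]
    rw [mul_pow, hb.1.pow_succ_eq, ← hw, hw0]
  · right
    refine ⟨z ^ n * y, ?_⟩
    calc z * (z ^ n * y) * b = z ^ (n + 1) * b * y := by ring
      _ = b := h

theorem primI_exists_eigenvalue {k : Type*} [Field k] [IsAlgClosed k] [Algebra k Z]
    [Module.Finite k Z] {b : Z} (hb : PrimI b) (z : Z) :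
    ∃ μ : k, IsNilpotent ((z - algebraMap k Z μ) * b) := by
  have : IsArtinianRing Z := IsArtinianRing.of_finite k Z
  have hbi : b * b = b := hb.1
  let V : Submodule k Z :=
    { carrier := {v | b * v = v}
      add_mem' := by
        intro u v hu hv
        show b * (u + v) = u + v
        rw [mul_add, hu, hv]
      zero_mem' := mul_zero b
      smul_mem' := by
        intro c v hv
        show b * (c • v) = c • v
        rw [mul_smul_comm, hv] }
  have hV : ∀ v ∈ V, LinearMap.mulLeft k z v ∈ V := by
    intro v hv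
    show b * (z * v) = z * v
    have hv' : b * v = v := hv
    calc b * (z * v) = z * (b * v) := by ring
      _ = z * v := by rw [hv']
  have hnt : Nontrivial V := ⟨⟨⟨b, hbi⟩, 0, fun h => hb.2.1 (congrArg Subtype.val h)⟩⟩
  obtain ⟨μ, hμ⟩ := Module.End.exists_eigenvalue ((LinearMap.mulLeft k z).restrict hV)
  obtain ⟨v, hv⟩ := hμ.exists_hasEigenvector
  have h1 := hv.apply_eq_smul
  have h2 : z * v.1 = μ • v.1 := congrArg Subtype.val h1
  have hv0 : v.1 ≠ 0 := fun h => hv.2 (Subtype.ext h)
  have hbv : b * v.1 = v.1 := v.2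
  refine ⟨μ, ?_⟩
  rcases primI_nil_or_unit hb (z - algebraMap k Z μ) with h | ⟨y, hy⟩
  · exact h
  · exfalso
    apply hv0
    have h3 : (z - algebraMap k Z μ) * v.1 = 0 := by
      rw [sub_mul, h2, Algebra.smul_def, sub_self]
    calc v.1 = b * v.1 := hbv.symm
      _ = ((z - algebraMap k Z μ) * y * b) * v.1 := by rw [hy]
      _ = y * b * ((z - algebraMap k Z μ) * v.1) := by ring
      _ = 0 := by rw [h3, mul_zero]

end Comm

variable {k : Type} [Field k] {X : Type} [Group X] [Finite X]

/-- Commuting idempotents that differ by a nilpotent element are equal: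
`(e - f) ^ 3 = e - f`. -/
theorem idem_eq_of_isNilpotent_sub {A : Type*} [Ring A] {e f : A} (he : IsIdempotentElem e)
    (hf : IsIdempotentElem f) (hc : Commute e f) (hn : IsNilpotent (e - f)) : e = f := by
  have he' : e * e = e := he
  have hf' : f * f = f := hf
  have hc' : e * f = f * e := hc
  have hffe : f * (f * e) = f * e := by rw [← mul_assoc, hf']
  have h3 : (e - f) * (e - f) * (e - f) = e - f := by
    simp only [mul_sub, sub_mul, mul_assoc, he', hf', hc', hffe]
    abel
  have hodd : ∀ n : ℕ, (e - f) ^ (2 * n + 1) = e - f := by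
    intro n
    induction n with
    | zero => simp
    | succ n ih =>
      have : 2 * (n + 1) + 1 = (2 * n + 1) + 1 + 1 := by ring
      rw [this, pow_succ, pow_succ, ih, h3]
  obtain ⟨m, hm⟩ := hn
  have h0 : e - f = 0 := by
    rw [← hodd m]
    have : 2 * m + 1 = m + (m + 1) := by ring
    rw [this, pow_add, hm, zero_mul]
  exact sub_eq_zero.1 h0

theorem IsCI.of_block {b : MonoidAlgebra k X} (hb : IsBlockIdempotent b) : IsCI b :=
  ⟨hb.1, hb.2.1⟩

theorem isBlock_iff_primI (b : MonoidAlgebra k X) : IsBlockIdempotent b ↔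
    ∃ h : b ∈ Subalgebra.center k (MonoidAlgebra k X),
      PrimI (⟨b, h⟩ : Subalgebra.center k (MonoidAlgebra k X)) := by
  constructor
  · rintro ⟨hc, hi, h0, hmin⟩
    refine ⟨hc, Subtype.ext hi, fun h => h0 (congrArg Subtype.val h), fun e he heb => ?_⟩
    rcases hmin e.1 e.2 (congrArg Subtype.val he) (congrArg Subtype.val heb) with h | h
    · exact Or.inl (Subtype.ext h)
    · exact Or.inr (Subtype.ext h)
  · rintro ⟨hc, hi, h0, hmin⟩
    refine ⟨hc, congrArg Subtype.val hi, fun h => h0 (Subtype.ext h), fun e hec he heb => ?_⟩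
    rcases hmin ⟨e, hec⟩ (Subtype.ext he) (Subtype.ext heb) with h | h
    · exact Or.inl (congrArg Subtype.val h)
    · exact Or.inr (congrArg Subtype.val h)

instance instIsArtinianRingCenterGroupAlgebra :
    IsArtinianRing (Subalgebra.center k (MonoidAlgebra k X)) :=
  IsArtinianRing.of_finite k _

theorem block_mul_block {b b' : MonoidAlgebra k X} (hb : IsBlockIdempotent b)
    (hb' : IsBlockIdempotent b') (hne : b ≠ b') : b * b' = 0 := by
  obtain ⟨h, hp⟩ := (isBlock_iff_primI b).1 hb
  obtain ⟨h', hp'⟩ := (isBlock_iff_primI b').1 hb'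
  exact congrArg Subtype.val
    (primI_mul_primI hp hp' (fun he => hne (congrArg Subtype.val he)))

theorem blocks_eq_image : {b : MonoidAlgebra k X | IsBlockIdempotent b} =
    Subtype.val '' {b : Subalgebra.center k (MonoidAlgebra k X) | PrimI b} := by
  ext b
  constructor
  · intro hb
    obtain ⟨h, hp⟩ := (isBlock_iff_primI b).1 hb
    exact ⟨⟨b, h⟩, hp, rfl⟩
  · rintro ⟨b', hp, rfl⟩
    exact (isBlock_iff_primI b'.1).2 ⟨b'.2, hp⟩

theorem finite_blocks : {b : MonoidAlgebra k X | IsBlockIdempotent b}.Finite := by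
  rw [blocks_eq_image]
  exact primI_finite.image _

/-- The finset of the blocks. -/
noncomputable def blocks (k : Type) [Field k] (X : Type) [Group X] [Finite X] :
    Finset (MonoidAlgebra k X) :=
  (finite_blocks (k := k) (X := X)).toFinset

theorem blocks_eqns_cite : True := by
  have := @blocks.eq_1
  trivial

@[simp] theorem mem_blocks {b : MonoidAlgebra k X} : b ∈ blocks k X ↔ IsBlockIdempotent b := by
  simp [blocks]

theorem sum_blocks : ∑ b ∈ blocks k X, b = (1 : MonoidAlgebra k X) := by
  classical
  have h1 : blocks k X = (primI_finite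
      (Z := Subalgebra.center k (MonoidAlgebra k X))).toFinset.image Subtype.val := by
    ext b
    rw [mem_blocks]
    have := Set.ext_iff.1 (blocks_eq_image (k := k) (X := X)) b
    simp only [Finset.mem_image, Set.Finite.mem_toFinset]
    exact this
  rw [h1, Finset.sum_image (fun a _ b _ h => Subtype.ext h)]
  have h2 := congrArg (Subalgebra.center k (MonoidAlgebra k X)).val
    (primI_sum (Z := Subalgebra.center k (MonoidAlgebra k X)))
  rw [map_sum, map_one] at h2
  exact h2

theorem ci_mul_block {E b : MonoidAlgebra k X} (hE : IsCI E) (hb : IsBlockIdempotent b) :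
    E * b = b ∨ E * b = 0 := by
  have hcomm : Commute E b := (Semigroup.mem_center_iff.1 hE.1 b).symm
  have hbi : b * b = b := hb.2.1
  rcases hb.2.2.2 (E * b) (Set.mul_mem_center hE.1 hb.1)
    (hE.2.mul_of_commute hcomm hb.2.1) (by rw [mul_assoc, hbi]) with h | h
  · exact Or.inr h
  · exact Or.inl h

open Classical in
theorem ci_eq_sum_blocks {E : MonoidAlgebra k X} (hE : IsCI E) :
    E = ∑ b ∈ (blocks k X).filter (fun b => E * b = b), b := by
  calc E = E * 1 := (mul_one E).symm
    _ = ∑ b ∈ blocks k X, E * b := by rw [← sum_blocks, Finset.mul_sum]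
    _ = ∑ b ∈ blocks k X, if E * b = b then b else 0 := by
      apply Finset.sum_congr rfl
      intro b hb
      rcases ci_mul_block hE (mem_blocks.1 hb) with h | h
      · rw [if_pos h, h]
      · by_cases h' : E * b = b
        · rw [if_pos h', h']
        · rw [if_neg h', h]
    _ = ∑ b ∈ (blocks k X).filter (fun b => E * b = b), b := by
      rw [Finset.sum_filter]

/-- The centre of a block is local. -/
theorem block_nilpotent_or_unit {b : MonoidAlgebra k X} (hb : IsBlockIdempotent b)
    {z : MonoidAlgebra k X} (hz : z ∈ Set.center (MonoidAlgebra k X)) :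
    IsNilpotent (z * b) ∨ ∃ y ∈ Set.center (MonoidAlgebra k X), z * y * b = b := by
  obtain ⟨h, hp⟩ := (isBlock_iff_primI b).1 hb
  rcases primI_nil_or_unit hp (⟨z, hz⟩ : Subalgebra.center k (MonoidAlgebra k X)) with
    ⟨n, hn⟩ | ⟨y, hy⟩
  · left
    exact ⟨n, congrArg Subtype.val hn⟩
  · right
    exact ⟨y.1, y.2, congrArg Subtype.val hy⟩

/-- The central character of a block, in the language of the frozen `BrauerInducesTo`. -/
theorem block_exists_eigenvalue [IsAlgClosed k] {b : MonoidAlgebra k X} (hb : IsBlockIdempotent b)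
    {z : MonoidAlgebra k X} (hz : z ∈ Set.center (MonoidAlgebra k X)) :
    ∃ μ : k, IsNilpotent ((z - algebraMap k (MonoidAlgebra k X) μ) * b) := by
  obtain ⟨h, hp⟩ := (isBlock_iff_primI b).1 hb
  obtain ⟨μ, n, hn⟩ := primI_exists_eigenvalue (k := k) hp
    (⟨z, hz⟩ : Subalgebra.center k (MonoidAlgebra k X))
  exact ⟨μ, n, congrArg Subtype.val hn⟩

end Claimed.Agent.R280.A
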