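import Claimed.Agent.R280.A.Radical

/-!
# Row 280, part A, package PKernel: quotients by normal `p`-subgroups

`f : H → Y` surjective with `p`-group kernel `Q`, `char k = p`.  The kernel `I` of `k[H] → k[Y]` is
nilpotent.  Suggested proof: induction on `|Q|` (all finite groups `H : Type` simultaneously).
`Z = Z(Q)` is a nontrivial normal subgroup of `H`.  The kernel `I_Z` of `k[H] → k[H/Z]` is spanned by
the `(z - 1) h`; since `h (z - 1) = (h z h⁻¹ - 1) h`, a product of `n` elements of `I_Z` is a
combination of `(z₁ - 1) ⋯ (zₙ - 1) h`; the factors commute and `(z - 1) ^ |Z| = z ^ |Z| - 1 = 0`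
(`|Z|` is a power of `p`), so the product vanishes for `n > |Z| ^ 2` (pigeonhole).  Then apply the
induction hypothesis to `H/Z → Y`.
-/

namespace Claimed.Agent.R280.A

open Claims.C0453

variable {p : ℕ} [Fact p.Prime] {k : Type} [Field k] [CharP k p]
  {H Y : Type} [Group H] [Finite H] [Group Y] [Finite Y]

/-- The kernel of `k[H] → k[Y]` is spanned by the `h * (q - 1)`, `q ∈ ker f`. -/
theorem ker_mapDomain_eq_span (f : H →* Y) (hf : Function.Surjective f) :
    (RingHom.ker (MonoidAlgebra.mapDomainRingHom k f)).restrictScalars k =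
      Submodule.span k {x | ∃ h : H, ∃ q ∈ f.ker,
        x = MonoidAlgebra.single h (1 : k) * (MonoidAlgebra.single q 1 - 1)} := by
  apply le_antisymm
  · intro x hx
    have hx0 : MonoidAlgebra.mapDomainRingHom k f x = 0 := hx
    set s := Function.surjInv hf with hs
    have key : ∀ x : MonoidAlgebra k H,
        x - MonoidAlgebra.mapDomain s (MonoidAlgebra.mapDomainRingHom k f x) ∈
          Submodule.span k {x | ∃ h : H, ∃ q ∈ f.ker,
            x = MonoidAlgebra.single h (1 : k) * (MonoidAlgebra.single q 1 - 1)} := by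
      intro x
      induction x using MonoidAlgebra.induction_on with
      | of h =>
        apply Submodule.subset_span
        refine ⟨s (f h), (s (f h))⁻¹ * h, ?_, ?_⟩
        · rw [MonoidHom.mem_ker, map_mul, map_inv, hs, Function.surjInv_eq hf, inv_mul_cancel]
        · simp [mul_sub, MonoidAlgebra.single_mul_single, MonoidAlgebra.mapDomain_single]
      | add x y hx hy =>
        have : x + y - MonoidAlgebra.mapDomain s (MonoidAlgebra.mapDomainRingHom k f (x + y)) =
            (x - MonoidAlgebra.mapDomain s (MonoidAlgebra.mapDomainRingHom k f x)) +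
            (y - MonoidAlgebra.mapDomain s (MonoidAlgebra.mapDomainRingHom k f y)) := by
          rw [map_add, MonoidAlgebra.mapDomain_add]
          abel
        rw [this]
        exact Submodule.add_mem _ hx hy
      | smul r x hx =>
        have : r • x - MonoidAlgebra.mapDomain s (MonoidAlgebra.mapDomainRingHom k f (r • x)) =
            r • (x - MonoidAlgebra.mapDomain s (MonoidAlgebra.mapDomainRingHom k f x)) := by
          rw [MonoidAlgebra.mapDomainRingHom_apply, MonoidAlgebra.mapDomainRingHom_apply,
            MonoidAlgebra.mapDomain_smul, MonoidAlgebra.mapDomain_smul, smul_sub]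
        rw [this]
        exact Submodule.smul_mem _ r hx
    have := key x
    rw [hx0, MonoidAlgebra.mapDomain_zero, sub_zero] at this
    exact this
  · rw [Submodule.span_le]
    rintro x ⟨h, q, hq, rfl⟩
    change MonoidAlgebra.mapDomainRingHom k f _ = 0
    rw [map_mul, map_sub, map_one]
    have : MonoidAlgebra.mapDomainRingHom k f (MonoidAlgebra.single q 1) = 1 := by
      rw [MonoidAlgebra.mapDomainRingHom_apply, MonoidAlgebra.mapDomain_single,
        MonoidHom.mem_ker.mp hq]
      rfl
    rw [this, sub_self, mul_zero]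

/-! ### arithmetic of submodules of an algebra -/

section general
variable {k : Type} [Field k] {A : Type} [Ring A] [Algebra k A]

theorem pk_pow_top (D : Submodule k A) (h : D * ⊤ ≤ ⊤ * D) (n : ℕ) : D ^ n * ⊤ ≤ ⊤ * D ^ n := by
  induction n with
  | zero => simp
  | succ n ih =>
    calc D ^ (n + 1) * ⊤ = D ^ n * (D * ⊤) := by rw [pow_succ, mul_assoc]
      _ ≤ D ^ n * (⊤ * D) := mul_le_mul' le_rfl h
      _ = (D ^ n * ⊤) * D := by rw [mul_assoc]
      _ ≤ (⊤ * D ^ n) * D := mul_le_mul' ih le_rfl
      _ = ⊤ * D ^ (n + 1) := by rw [pow_succ, mul_assoc]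

theorem pk_top_mul_pow (D : Submodule k A) (h : D * ⊤ ≤ ⊤ * D) (n : ℕ) :
    (⊤ * D) ^ n ≤ ⊤ * D ^ n := by
  induction n with
  | zero => simp
  | succ n ih =>
    calc (⊤ * D) ^ (n + 1) = (⊤ * D) ^ n * (⊤ * D) := pow_succ _ _
      _ ≤ (⊤ * D ^ n) * (⊤ * D) := mul_le_mul' ih le_rfl
      _ = ⊤ * ((D ^ n * ⊤) * D) := by simp only [mul_assoc]
      _ ≤ ⊤ * ((⊤ * D ^ n) * D) := mul_le_mul' le_rfl (mul_le_mul' (pk_pow_top D h n) le_rfl)
      _ = (⊤ * ⊤) * D ^ (n + 1) := by rw [pow_succ]; simp only [mul_assoc]
      _ ≤ ⊤ * D ^ (n + 1) := mul_le_mul' le_top le_rfl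

theorem pk_list_prod_mem (I : Submodule k A) (l : List A) (h : ∀ x ∈ l, x ∈ I) :
    l.prod ∈ I ^ l.length := by
  induction l with
  | nil => simp [Submodule.one_le.mp le_rfl]
  | cons a l ih =>
    rw [List.prod_cons, List.length_cons, pow_succ']
    exact Submodule.mul_mem_mul (h a (by simp)) (ih fun x hx => h x (by simp [hx]))

end general

/-! ### augmentation submodules -/

/-- the augmentation submodule of a subgroup -/
noncomputable def pkAug (k : Type) [Field k] {G : Type} [Group G] (S : Subgroup G) :
    Submodule k (MonoidAlgebra k G) :=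
  Submodule.span k {x | ∃ q ∈ S, x = MonoidAlgebra.single q 1 - 1}

section aug
variable {k : Type} [Field k] {G : Type} [Group G]

theorem pk_aug_comm (S : Subgroup G) [hS : S.Normal] : pkAug k S * ⊤ ≤ ⊤ * pkAug k S := by
  rw [Submodule.mul_le]
  intro d hd a _
  induction hd using Submodule.span_induction with
  | mem x hx =>
    obtain ⟨q, hq, rfl⟩ := hx
    induction a using MonoidAlgebra.induction_on with
    | of h =>
      have : (MonoidAlgebra.single q (1 : k) - 1) * MonoidAlgebra.of k G h =
          MonoidAlgebra.of k G h * (MonoidAlgebra.single (h⁻¹ * q * h) 1 - 1) := by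
        simp [mul_sub, sub_mul, MonoidAlgebra.single_mul_single, mul_assoc]
      rw [this]
      refine Submodule.mul_mem_mul trivial (Submodule.subset_span ⟨_, ?_, rfl⟩)
      have := hS.conj_mem q hq h⁻¹
      simpa using this
    | add x y hx hy => rw [mul_add]; exact Submodule.add_mem _ (hx trivial) (hy trivial)
    | smul r x hx => rw [mul_smul_comm]; exact Submodule.smul_mem _ r (hx trivial)
  | zero => simp
  | add x y _ _ hx hy => rw [add_mul]; exact Submodule.add_mem _ hx hy
  | smul r x _ hx => rw [smul_mul_assoc]; exact Submodule.smul_mem _ r hx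

/-- a group homomorphism maps the augmentation submodule into the augmentation submodule -/
theorem pk_aug_map {G' : Type} [Group G'] (φ : G →* G') :
    Submodule.map (MonoidAlgebra.mapDomainAlgHom k k φ).toLinearMap (pkAug k (⊤ : Subgroup G)) ≤
      pkAug k (⊤ : Subgroup G') := by
  unfold pkAug
  rw [Submodule.map_span, Submodule.span_le]
  rintro _ ⟨x, ⟨q, _, rfl⟩, rfl⟩
  apply Submodule.subset_span
  refine ⟨φ q, trivial, ?_⟩
  show (MonoidAlgebra.mapDomainAlgHom k k φ) (MonoidAlgebra.single q 1 - 1) = _
  rw [map_sub, map_one, MonoidAlgebra.mapDomainAlgHom_apply, MonoidAlgebra.mapDomain_single]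

/-- the augmentation submodule of a subgroup is the image of that of the group `S` -/
theorem pk_aug_le_map (S : Subgroup G) :
    pkAug k S ≤ Submodule.map (MonoidAlgebra.mapDomainAlgHom k k S.subtype).toLinearMap
      (pkAug k (⊤ : Subgroup S)) := by
  unfold pkAug
  rw [Submodule.span_le]
  rintro _ ⟨q, hq, rfl⟩
  refine ⟨MonoidAlgebra.single (⟨q, hq⟩ : S) 1 - 1, Submodule.subset_span ⟨_, trivial, rfl⟩, ?_⟩
  show (MonoidAlgebra.mapDomainAlgHom k k S.subtype) (MonoidAlgebra.single (⟨q, hq⟩ : S) 1 - 1) = _
  rw [map_sub, map_one, MonoidAlgebra.mapDomainAlgHom_apply, MonoidAlgebra.mapDomain_single]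
  rfl

end aug

theorem pk_ker_le (f : H →* Y) (hf : Function.Surjective f) :
    (RingHom.ker (MonoidAlgebra.mapDomainRingHom k f)).restrictScalars k ≤
      ⊤ * pkAug k f.ker := by
  rw [ker_mapDomain_eq_span f hf, Submodule.span_le]
  rintro x ⟨h, q, hq, rfl⟩
  exact Submodule.mul_mem_mul trivial (Submodule.subset_span ⟨q, hq, rfl⟩)

/-- the augmentation ideal of the group algebra of a finite `p`-group is nilpotent -/
theorem pk_pgroup (k : Type) [Field k] [CharP k p] : ∀ (n : ℕ) (Q : Type) [Group Q] [Finite Q],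
    Nat.card Q = n → IsPGroup p Q → ∃ m : ℕ, pkAug k (⊤ : Subgroup Q) ^ m = ⊥ := by
  intro n
  induction n using Nat.strong_induction_on with
  | _ n ih =>
    intro Q _ _ hn hQ
    rcases subsingleton_or_nontrivial Q with hsub | hnt
    · refine ⟨1, ?_⟩
      rw [pow_one, eq_bot_iff]
      unfold pkAug
      rw [Submodule.span_le]
      rintro _ ⟨q, _, rfl⟩
      rw [Subsingleton.elim q 1]
      simp [MonoidAlgebra.one_def]
    · -- a central element of order `p`
      have hc := hQ.center_nontrivial
      obtain ⟨j, hj, hcard⟩ := ((hQ.to_subgroup (Subgroup.center Q)).nontrivial_iff_card).mp hc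
      obtain ⟨z0, hz0⟩ := exists_prime_orderOf_dvd_card' (G := Subgroup.center Q) p
        (by rw [hcard]; exact dvd_pow_self p hj.ne')
      set z : Q := (z0 : Q) with hz
      have hzc : z ∈ Subgroup.center Q := z0.2
      have hzo : orderOf z = p := by rw [hz, Subgroup.orderOf_coe, hz0]
      set C := Subgroup.zpowers z with hC
      have hCle : C ≤ Subgroup.center Q := Subgroup.zpowers_le.mpr hzc
      haveI : C.Normal := ⟨fun c hc g => by
        have := Subgroup.mem_center_iff.mp (hCle hc) g
        rw [this, mul_inv_cancel_right]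
        exact hc⟩
      have hlt : Nat.card (Q ⧸ C) < n := by
        have h1 := Subgroup.card_eq_card_quotient_mul_card_subgroup C
        rw [hC, Nat.card_zpowers, hzo, ← hC, hn] at h1
        have h2 : 0 < Nat.card (Q ⧸ C) := Nat.card_pos
        have h3 := (Fact.out : p.Prime).two_le
        nlinarith
      obtain ⟨m, hm⟩ := ih _ hlt (Q ⧸ C) rfl (hQ.to_quotient C)
      -- the central nilpotent element
      set c : MonoidAlgebra k Q := MonoidAlgebra.single z 1 - 1 with hc'
      set L : Submodule k (MonoidAlgebra k Q) := Submodule.span k {c} with hL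
      haveI : CharP (MonoidAlgebra k Q) p :=
        charP_of_injective_algebraMap (algebraMap k (MonoidAlgebra k Q)).injective p
      have hcp : c ^ p = 0 := by
        rw [hc', sub_pow_char_of_commute p (Commute.one_right _), MonoidAlgebra.single_pow, one_pow,
          one_pow, ← hzo, pow_orderOf_eq_one]
        simp [MonoidAlgebra.one_def]
      have hcomm : ∀ a : MonoidAlgebra k Q, c * a = a * c := by
        intro a
        induction a using MonoidAlgebra.induction_on with
        | of h =>
          have := Subgroup.mem_center_iff.mp hzc h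
          simp [hc', mul_sub, sub_mul, MonoidAlgebra.single_mul_single, this]
        | add x y hx hy => rw [mul_add, add_mul, hx, hy]
        | smul r x hx => rw [mul_smul_comm, smul_mul_assoc, hx]
      have hLtop : L * ⊤ ≤ ⊤ * L := by
        rw [Submodule.mul_le]
        intro d hd a _
        obtain ⟨r, rfl⟩ := Submodule.mem_span_singleton.mp hd
        rw [smul_mul_assoc, hcomm, ← mul_smul_comm]
        exact Submodule.mul_mem_mul trivial (Submodule.smul_mem _ r (Submodule.mem_span_singleton_self c))
      have hLp : L ^ p = ⊥ := by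
        rw [hL, Submodule.span_pow, Set.singleton_pow, hcp]
        simp
      have hCL : pkAug k C ≤ ⊤ * L := by
        unfold pkAug
        rw [Submodule.span_le]
        rintro _ ⟨q, hq, rfl⟩
        obtain ⟨i, rfl⟩ := (mem_powers_iff_mem_zpowers (x := z)).mpr hq
        have : MonoidAlgebra.single (z ^ i) (1 : k) - 1 =
            (∑ t ∈ Finset.range i, (MonoidAlgebra.single z (1 : k)) ^ t) * c := by
          rw [hc', geom_sum_mul, MonoidAlgebra.single_pow, one_pow]
        simp only at this ⊢
        rw [this]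
        exact Submodule.mul_mem_mul trivial (Submodule.mem_span_singleton_self c)
      have hker : pkAug k (⊤ : Subgroup Q) ^ m ≤ ⊤ * L := by
        intro x hx
        have h1 : (MonoidAlgebra.mapDomainAlgHom k k (QuotientGroup.mk' C)).toLinearMap x ∈
            Submodule.map (MonoidAlgebra.mapDomainAlgHom k k (QuotientGroup.mk' C)).toLinearMap
              (pkAug k (⊤ : Subgroup Q) ^ m) := Submodule.mem_map_of_mem hx
        rw [Submodule.map_pow] at h1
        have h2 := pow_le_pow_left' (pk_aug_map (k := k) (QuotientGroup.mk' C)) m h1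
        rw [hm] at h2
        have h3 : x ∈ (RingHom.ker (MonoidAlgebra.mapDomainRingHom k
            (QuotientGroup.mk' C))).restrictScalars k := by
          change MonoidAlgebra.mapDomainRingHom k (QuotientGroup.mk' C) x = 0
          exact (Submodule.mem_bot k).mp h2
        have h4 := pk_ker_le (k := k) (QuotientGroup.mk' C) (QuotientGroup.mk'_surjective C) h3
        rw [QuotientGroup.ker_mk'] at h4
        have h5 : (⊤ : Submodule k (MonoidAlgebra k Q)) * pkAug k C ≤ ⊤ * L :=
          calc (⊤ : Submodule k (MonoidAlgebra k Q)) * pkAug k C ≤ ⊤ * (⊤ * L) :=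
                mul_le_mul' le_rfl hCL
            _ = (⊤ * ⊤) * L := by rw [mul_assoc]
            _ ≤ ⊤ * L := mul_le_mul' le_top le_rfl
        exact h5 h4
      refine ⟨m * p, ?_⟩
      rw [pow_mul, eq_bot_iff]
      calc (pkAug k (⊤ : Subgroup Q) ^ m) ^ p ≤ (⊤ * L) ^ p := pow_le_pow_left' hker p
        _ ≤ ⊤ * L ^ p := pk_top_mul_pow L hLtop p
        _ = ⊥ := by rw [hLp, Submodule.mul_bot]

/-- nilpotency of the augmentation submodule of a `p`-subgroup -/
theorem pk_aug_subgroup (k : Type) [Field k] [CharP k p] {G : Type} [Group G] [Finite G]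
    (S : Subgroup G) (hS : IsPGroup p S) : ∃ m : ℕ, pkAug k S ^ m = ⊥ := by
  obtain ⟨m, hm⟩ := pk_pgroup (p := p) k (Nat.card S) S rfl hS
  refine ⟨m, ?_⟩
  rw [eq_bot_iff]
  calc pkAug k S ^ m ≤ (Submodule.map
        (MonoidAlgebra.mapDomainAlgHom k k S.subtype).toLinearMap
          (pkAug k (⊤ : Subgroup S))) ^ m := pow_le_pow_left' (pk_aug_le_map S) m
    _ = ⊥ := by rw [← Submodule.map_pow, hm, Submodule.map_bot]

theorem pk_ker_pow (f : H →* Y) (hf : Function.Surjective f) (hk : IsPGroup p f.ker) :
    ∃ m : ℕ, ((RingHom.ker (MonoidAlgebra.mapDomainRingHom k f)).restrictScalars k) ^ m = ⊥ := by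
  obtain ⟨m, h2⟩ := pk_aug_subgroup (p := p) k f.ker hk
  refine ⟨m, ?_⟩
  rw [eq_bot_iff]
  have hc : pkAug k f.ker * ⊤ ≤ ⊤ * pkAug k f.ker :=
    pk_aug_comm (k := k) (hS := MonoidHom.normal_ker f) f.ker
  calc ((RingHom.ker (MonoidAlgebra.mapDomainRingHom k f)).restrictScalars k) ^ m
      ≤ (⊤ * pkAug k f.ker) ^ m := pow_le_pow_left' (pk_ker_le f hf) m
    _ ≤ ⊤ * pkAug k f.ker ^ m := pk_top_mul_pow (pkAug k f.ker) hc m
    _ = ⊥ := by rw [h2, Submodule.mul_bot]

/-- The kernel of `k[H] → k[Y]` is nilpotent if `ker f` is a `p`-group. -/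
theorem ker_mapDomain_nilpotent (f : H →* Y) (hf : Function.Surjective f)
    (hk : IsPGroup p f.ker) :
    ∃ n : ℕ, ∀ l : List (MonoidAlgebra k H), l.length = n →
      (∀ x ∈ l, MonoidAlgebra.mapDomainRingHom k f x = 0) → l.prod = 0 := by
  obtain ⟨m, hm⟩ := pk_ker_pow (k := k) f hf hk
  refine ⟨m, fun l hl hx => ?_⟩
  have h1 := pk_list_prod_mem
    ((RingHom.ker (MonoidAlgebra.mapDomainRingHom k f)).restrictScalars k) l
    (fun x hxl => by
      rw [Submodule.restrictScalars_mem, RingHom.mem_ker]
      exact hx x hxl)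
  rw [hl, hm] at h1
  exact (Submodule.mem_bot k).mp h1

theorem isNilpotent_of_mapDomain_eq_zero (f : H →* Y) (hf : Function.Surjective f)
    (hk : IsPGroup p f.ker) {x : MonoidAlgebra k H}
    (hx : MonoidAlgebra.mapDomainRingHom k f x = 0) : IsNilpotent x := by
  obtain ⟨n, hn⟩ := ker_mapDomain_nilpotent (k := k) f hf hk
  refine ⟨n, ?_⟩
  have := hn (List.replicate n x) (by simp) (by
    intro y hy
    rw [List.eq_of_mem_replicate hy]; exact hx)
  simpa using this

theorem mem_rad_of_mapDomain_eq_zero (f : H →* Y) (hf : Function.Surjective f)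
    (hk : IsPGroup p f.ker) {x : MonoidAlgebra k H}
    (hx : MonoidAlgebra.mapDomainRingHom k f x = 0) : x ∈ rad k H := by
  apply mem_rad_of_forall_isNilpotent
  intro a
  exact isNilpotent_of_mapDomain_eq_zero f hf hk (by rw [map_mul, hx, mul_zero])

/-- `l` does not change under quotients by normal `p`-subgroups. -/
theorem numSimples_mapDomain_of_isPGroup (f : H →* Y) (hf : Function.Surjective f)
    (hk : IsPGroup p f.ker) (a : MonoidAlgebra k H) :
    numSimplesInBlock (MonoidAlgebra.mapDomainRingHom k f a) = numSimplesInBlock a :=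
  numSimples_mapDomain f hf (fun _ hx => mem_rad_of_mapDomain_eq_zero f hf hk hx) a

end Claimed.Agent.R280.A
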