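import Claimed.Agent.R280.A.PSum
import Claimed.Agent.R280.A.PKernel

/-!
# Row 280, part A, package Brauer: the Brauer map and the normaliser projection
(`lem:normalizer-projection`)
-/

namespace Claimed.Agent.R280.A

open Claims.C0453

variable {p : ℕ} [Fact p.Prime] {k : Type} [Field k] [CharP k p] {X : Type} [Group X] [Finite X]

theorem isInv_of_mem_center {a : MonoidAlgebra k X} (ha : a ∈ Set.center (MonoidAlgebra k X))
    (P : Subgroup X) : IsInv P a :=
  fun x _ g => (mem_center_iff a).1 ha x g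

omit [Fact p.Prime] in
theorem br_nsmul_eq_zero (m : k) : p • m = 0 := by
  rw [nsmul_eq_mul, CharP.cast_eq_zero, zero_mul]

/-- The coefficients of the image in `R[Y]` are the sums over the fibres. -/
theorem coeff_mapDomain_fiber {R : Type} [Semiring R] {H Y : Type} [Group H] [Finite H] [Group Y]
    (f : H →* Y) (a : MonoidAlgebra R H) (y : Y) :
    (MonoidAlgebra.mapDomainRingHom R f a).coeff y = ∑ h ∈ fs {h : H | f h = y}, a.coeff h := by
  classical
  conv_lhs => rw [eq_sum_single a]
  rw [map_sum, MonoidAlgebra.coeff_sum, Finsupp.finsetSum_apply]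
  have h1 : ∀ h ∈ fs (Set.univ : Set H),
      (MonoidAlgebra.mapDomainRingHom R f (MonoidAlgebra.single h (a.coeff h))).coeff y =
        if f h = y then a.coeff h else 0 := by
    intro h _
    rw [MonoidAlgebra.mapDomainRingHom_apply, MonoidAlgebra.mapDomain_single,
      MonoidAlgebra.coeff_single, Finsupp.single_apply]
  rw [Finset.sum_congr rfl h1, ← Finset.sum_filter]
  apply Finset.sum_congr _ (fun _ _ => rfl)
  ext h
  simp

omit [Finite X] in
/-- `y⁻¹` commutes with what `y` commutes with. -/
theorem br_conj_mul {g x y : X} (h2 : y * g = g * y) :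
    (y * x * y⁻¹)⁻¹ * g = y * (x⁻¹ * g) * y⁻¹ := by
  have h3 : y⁻¹ * g = g * y⁻¹ := by
    calc y⁻¹ * g = y⁻¹ * (g * y) * y⁻¹ := by group
      _ = y⁻¹ * (y * g) * y⁻¹ := by rw [h2]
      _ = g * y⁻¹ := by group
  calc (y * x * y⁻¹)⁻¹ * g = y * x⁻¹ * (y⁻¹ * g) := by group
    _ = y * x⁻¹ * (g * y⁻¹) := by rw [h3]
    _ = y * (x⁻¹ * g) * y⁻¹ := by group

/-- **The Brauer map is multiplicative on invariants.**  Coefficient of `g ∈ C(P)` in `a * b`:
`P` acts on `x ↦ a_x b_{x⁻¹ g}` by conjugation, `sum_conj_eq_sum_centralizer`. -/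
theorem brX_mul (P : Subgroup X) (hP : IsPGroup p P) {a b : MonoidAlgebra k X} (ha : IsInv P a)
    (hb : IsInv P b) : brX P (a * b) = brX P a * brX P b := by
  classical
  apply ext_coeff
  intro g
  by_cases hg : g ∈ Subgroup.centralizer (P : Set X)
  · rw [coeff_brX_of_mem _ _ hg, coeff_mul_sum, coeff_mul_sum,
      sum_conj_eq_sum_centralizer P hP (br_nsmul_eq_zero (p := p))
        (fun x => a.coeff x * b.coeff (x⁻¹ * g))]
    · symm
      rw [← Finset.sum_subset (s₁ := fs (Subgroup.centralizer (P : Set X) : Set X))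
        (fun x _ => by simp)]
      · apply Finset.sum_congr rfl
        intro x hx
        have hx' : x ∈ Subgroup.centralizer (P : Set X) := by simpa using hx
        rw [coeff_brX_of_mem _ _ hx', coeff_brX_of_mem _ _ (mul_mem (inv_mem hx') hg)]
      · intro x _ hx
        have hx' : x ∉ Subgroup.centralizer (P : Set X) := by simpa using hx
        rw [coeff_brX_of_not_mem _ _ hx', zero_mul]
    · intro y hy x
      have h1 := br_conj_mul (x := x) ((Subgroup.mem_centralizer_iff.1 hg) y hy)
      rw [h1, ha y hy x, hb y hy (x⁻¹ * g)]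
  · rw [coeff_brX_of_not_mem _ _ hg, coeff_mul_sum]
    symm
    apply Finset.sum_eq_zero
    intro x _
    by_cases hx : x ∈ Subgroup.centralizer (P : Set X)
    · have : x⁻¹ * g ∉ Subgroup.centralizer (P : Set X) := by
        intro h
        apply hg
        have := mul_mem hx h
        simpa using this
      rw [coeff_brX_of_not_mem _ _ this, mul_zero]
    · rw [coeff_brX_of_not_mem _ _ hx, zero_mul]

omit [Finite X] in
/-- The centraliser of `Q ∩ H` in `H`, for `Q ≤ H`. -/
theorem br_mem_centralizer_subgroupOf (Q H : Subgroup X) (hQH : Q ≤ H) (h : H) :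
    h ∈ Subgroup.centralizer ((Q.subgroupOf H : Subgroup H) : Set H) ↔
      (h : X) ∈ Subgroup.centralizer (Q : Set X) := by
  rw [Subgroup.mem_centralizer_iff, Subgroup.mem_centralizer_iff]
  constructor
  · intro hh x hx
    have := hh ⟨x, hQH hx⟩ (by
      show (⟨x, hQH hx⟩ : H) ∈ Q.subgroupOf H
      rw [Subgroup.mem_subgroupOf]; exact hx)
    exact congrArg Subtype.val this
  · intro hh x hx
    have hx' : (x : X) ∈ Q := by
      have : x ∈ Q.subgroupOf H := hx
      rwa [Subgroup.mem_subgroupOf] at this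
    exact Subtype.ext (hh x hx')

/-- **Orbit cancellation on cosets.**  `Q ≤ H ≤ N(Q)`, `f : H → Y` with kernel `Q`.  For a
`Q`-invariant `v` the images of `res_H v` and of `res_H (Br_Q v)` in `k[Y]` agree: each coset `h Q`
is stable under conjugation by `Q`, the fixed points are the elements of `h Q ∩ C(Q)`. -/
theorem mapDomain_resA_brX (Q H : Subgroup X) (hQ : IsPGroup p Q) (hQH : Q ≤ H)
    (hHN : H ≤ Subgroup.normalizer (Q : Set X)) {Y : Type} [Group Y] (f : H →* Y)
    (hf : f.ker = Q.subgroupOf H) {v : MonoidAlgebra k X} (hv : IsInv Q v) :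
    MonoidAlgebra.mapDomainRingHom k f (resA H (brX Q v)) =
      MonoidAlgebra.mapDomainRingHom k f (resA H v) := by
  classical
  apply ext_coeff
  intro y
  rw [coeff_mapDomain_fiber, coeff_mapDomain_fiber]
  have hQ' : IsPGroup p (Q.subgroupOf H) :=
    hQ.of_injective (Subgroup.subgroupOfEquivOfLe hQH).toMonoidHom
      (Subgroup.subgroupOfEquivOfLe hQH).injective
  have key := sum_conj_eq_sum_centralizer (Q.subgroupOf H) hQ' (br_nsmul_eq_zero (p := p))
    (fun h : H => if f h = y then v.coeff (h : X) else 0) (by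
      intro x hx g
      have hx1 : f x = 1 := by
        rw [← MonoidHom.mem_ker, hf]; exact hx
      have hx2 : (x : X) ∈ Q := by rwa [Subgroup.mem_subgroupOf] at hx
      have h1 : f (x * g * x⁻¹) = f g := by
        rw [map_mul, map_mul, map_inv, hx1]; simp
      have h2 : v.coeff ((x * g * x⁻¹ : H) : X) = v.coeff (g : X) := by
        have := hv x hx2 g
        simpa using this
      simp only [h1, h2])
  have e1 : ∑ h ∈ fs {h : H | f h = y}, (resA H v).coeff h =
      ∑ h ∈ fs (Set.univ : Set H), if f h = y then v.coeff (h : X) else 0 := by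
    rw [← Finset.sum_filter]
    apply Finset.sum_congr _ (fun _ _ => rfl)
    ext h; simp
  have e2 : ∑ h ∈ fs {h : H | f h = y}, (resA H (brX Q v)).coeff h =
      ∑ h ∈ fs (Subgroup.centralizer ((Q.subgroupOf H : Subgroup H) : Set H) : Set H),
        if f h = y then v.coeff (h : X) else 0 := by
    rw [← Finset.sum_filter]
    symm
    apply Finset.sum_subset_zero_on_sdiff
    · intro h hh
      simp only [Finset.mem_filter, mem_fs] at hh
      simpa using hh.2
    · intro h hh
      simp only [Finset.mem_sdiff, Finset.mem_filter, mem_fs, Set.mem_ofPred_eq, SetLike.mem_coe,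
        not_and] at hh
      have h3 : (h : X) ∉ Subgroup.centralizer (Q : Set X) := by
        intro hc
        exact hh.2 ((br_mem_centralizer_subgroupOf Q H hQH h).2 hc) hh.1
      rw [coeff_resA, coeff_brX_of_not_mem _ _ h3]
    · intro h hh
      simp only [Finset.mem_filter, mem_fs, SetLike.mem_coe] at hh
      rw [coeff_resA, coeff_brX_of_mem _ _ ((br_mem_centralizer_subgroupOf Q H hQH h).1 hh.1)]
  rw [e1, e2, key]

theorem resA_mem_center (H : Subgroup X) {v : MonoidAlgebra k X}
    (hv : v ∈ Set.center (MonoidAlgebra k X)) : resA H v ∈ Set.center (MonoidAlgebra k H) := by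
  rw [mem_center_iff] at hv ⊢
  intro x g
  simpa using hv x g

omit [Finite X] in
/-- Conjugation with an element of the normaliser preserves the centraliser. -/
theorem br_conj_mem_centralizer (Q : Subgroup X) {x g : X}
    (hx : x ∈ Subgroup.normalizer (Q : Set X)) (hg : g ∈ Subgroup.centralizer (Q : Set X)) :
    x * g * x⁻¹ ∈ Subgroup.centralizer (Q : Set X) := by
  rw [Subgroup.mem_centralizer_iff] at hg ⊢
  intro q hq
  have hq' : x⁻¹ * q * x ∈ Q := by
    have := (Subgroup.mem_normalizer_iff.1 (inv_mem hx) q).1 hq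
    simpa using this
  have h1 := hg _ hq'
  calc q * (x * g * x⁻¹) = x * ((x⁻¹ * q * x) * g) * x⁻¹ := by group
    _ = x * (g * (x⁻¹ * q * x)) * x⁻¹ := by rw [h1]
    _ = x * g * x⁻¹ * q := by group

theorem resA_brX_mem_center (Q H : Subgroup X) (hHN : H ≤ Subgroup.normalizer (Q : Set X))
    {v : MonoidAlgebra k X} (hv : v ∈ Set.center (MonoidAlgebra k X)) :
    resA H (brX Q v) ∈ Set.center (MonoidAlgebra k H) := by
  rw [mem_center_iff] at hv ⊢
  intro x g
  rw [coeff_resA, coeff_resA]
  by_cases hg : (g : X) ∈ Subgroup.centralizer (Q : Set X)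
  · have h1 : ((x * g * x⁻¹ : H) : X) ∈ Subgroup.centralizer (Q : Set X) := by
      have := br_conj_mem_centralizer Q (hHN x.2) hg
      simpa using this
    rw [coeff_brX_of_mem _ _ hg, coeff_brX_of_mem _ _ h1]
    simpa using hv x g
  · have h1 : ((x * g * x⁻¹ : H) : X) ∉ Subgroup.centralizer (Q : Set X) := by
      intro h
      apply hg
      have := br_conj_mem_centralizer Q (inv_mem (hHN x.2)) h
      simpa [mul_assoc] using this
    rw [coeff_brX_of_not_mem _ _ hg, coeff_brX_of_not_mem _ _ h1]

/-- `res_H v ≡ res_H (Br_Q v)` modulo nilpotent elements. -/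
theorem isNilpotent_resA_sub_resA_brX (Q H : Subgroup X) (hQ : IsPGroup p Q) (hQH : Q ≤ H)
    (hHN : H ≤ Subgroup.normalizer (Q : Set X)) {v : MonoidAlgebra k X} (hv : IsInv Q v) :
    IsNilpotent (resA H v - resA H (brX Q v)) := by
  have : (Q.subgroupOf H).Normal := (Subgroup.normal_subgroupOf_iff_le_normalizer hQH).2 hHN
  have hQ' : IsPGroup p (Q.subgroupOf H) :=
    hQ.of_injective (Subgroup.subgroupOfEquivOfLe hQH).toMonoidHom
      (Subgroup.subgroupOfEquivOfLe hQH).injective
  have hker : (QuotientGroup.mk' (Q.subgroupOf H)).ker = Q.subgroupOf H := QuotientGroup.ker_mk' _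
  apply isNilpotent_of_mapDomain_eq_zero (p := p) (QuotientGroup.mk' (Q.subgroupOf H))
    (QuotientGroup.mk'_surjective _) (by rw [hker]; exact hQ')
  rw [map_sub, mapDomain_resA_brX Q H hQ hQH hHN _ hker hv, sub_self]

/-- `res_H ∘ Br_Q` is multiplicative on `Q`-invariants if `C(Q) ≤ H`. -/
theorem resA_brX_mul (Q H : Subgroup X) (hQ : IsPGroup p Q)
    (hCH : Subgroup.centralizer (Q : Set X) ≤ H) {a b : MonoidAlgebra k X} (ha : IsInv Q a)
    (hb : IsInv Q b) : resA H (brX Q (a * b)) = resA H (brX Q a) * resA H (brX Q b) := by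
  rw [brX_mul Q hQ ha hb]
  apply resA_mul_of_supp
  intro g hg
  exact coeff_brX_of_not_mem _ _ (fun h => hg (hCH h))

theorem resA_brX_isCI (Q H : Subgroup X) (hQ : IsPGroup p Q)
    (hCH : Subgroup.centralizer (Q : Set X) ≤ H) (hHN : H ≤ Subgroup.normalizer (Q : Set X))
    {E : MonoidAlgebra k X} (hE : IsCI E) : IsCI (resA H (brX Q E)) := by
  refine ⟨resA_brX_mem_center Q H hHN hE.1, ?_⟩
  have h := resA_brX_mul Q H hQ hCH (isInv_of_mem_center hE.1 Q) (isInv_of_mem_center hE.1 Q)
  rw [hE.2.eq] at h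
  exact h.symm

theorem mapDomain_mem_center {H Y : Type} [Group H] [Finite H] [Group Y] [Finite Y] (f : H →* Y)
    (hf : Function.Surjective f) {a : MonoidAlgebra k H}
    (ha : a ∈ Set.center (MonoidAlgebra k H)) :
    MonoidAlgebra.mapDomainRingHom k f a ∈ Set.center (MonoidAlgebra k Y) := by
  rw [Semigroup.mem_center_iff] at ha ⊢
  intro b
  induction b using MonoidAlgebra.induction_on with
  | of y =>
    obtain ⟨h, rfl⟩ := hf y
    have h1 : MonoidAlgebra.of k Y (f h) =
        MonoidAlgebra.mapDomainRingHom k f (MonoidAlgebra.of k H h) := by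
      simp [MonoidAlgebra.mapDomainRingHom_apply, MonoidAlgebra.of_apply]
    rw [h1, ← map_mul, ← map_mul, ha]
  | add x y hx hy => rw [add_mul, mul_add, hx, hy]
  | smul r x hx => rw [smul_mul_assoc, mul_smul_comm, hx]

theorem barE_isCI {E : MonoidAlgebra k X} (hE : IsCI E) (Q : Subgroup X) (hQ : IsPGroup p Q) :
    IsCI (barE Q E) := by
  have h := resA_brX_isCI Q (Subgroup.normalizer (Q : Set X)) hQ
    (Subgroup.centralizer_le_normalizer _) le_rfl hE
  exact ⟨mapDomain_mem_center _ (QuotientGroup.mk'_surjective _) h.1, h.2.map _⟩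

end Claimed.Agent.R280.A
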