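import Claimed.Agent.R280.A.Basic

/-!
# Row 280, part A: elementary facts on chains
-/

namespace Claimed.Agent.R280.A

variable {p : ℕ} {X : Type} [Group X]

theorem mem_stab {C : Finset (Subgroup X)} {g : X} :
    g ∈ stab C ↔ ∀ Q ∈ C, g ∈ Subgroup.normalizer (Q : Set X) := by
  simp [stab, Subgroup.mem_iInf]

theorem le_stab {C : Finset (Subgroup X)} {J : Subgroup X} :
    J ≤ stab C ↔ ∀ Q ∈ C, J ≤ Subgroup.normalizer (Q : Set X) := by
  simp [stab]

theorem le_top_of_mem {C : Finset (Subgroup X)} {Q : Subgroup X} (hQ : Q ∈ C) : Q ≤ top C :=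
  Finset.le_sup (f := id) hQ

@[simp] theorem stab_empty : stab (∅ : Finset (Subgroup X)) = ⊤ := by simp [stab]

@[simp] theorem top_empty : top (∅ : Finset (Subgroup X)) = ⊥ := by simp [top]

/-- The largest member of a nonempty chain is a member. -/
theorem top_mem {C : Finset (Subgroup X)} (hC : IsPChain p C) (h : C ≠ ∅) : top C ∈ C := by
  have hne : C.Nonempty := Finset.nonempty_iff_ne_empty.2 h
  have h1 := Finset.sup'_mem (C : Set (Subgroup X)) (by
    intro x hx y hy
    rcases hC.2.total hx hy with hxy | hxy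
    · rw [sup_eq_right.2 hxy]; exact hy
    · rw [sup_eq_left.2 hxy]; exact hx) C hne id (fun i hi => hi)
  rw [Finset.sup'_eq_sup] at h1
  exact h1

theorem stab_le_normalizer_top {C : Finset (Subgroup X)} (hC : IsPChain p C) :
    stab C ≤ Subgroup.normalizer (top C : Set X) := by
  by_cases h : C = ∅
  · subst h
    rw [top_empty, Subgroup.normalizer_eq_top]
    exact le_top
  · exact le_stab.1 le_rfl _ (top_mem hC h)

theorem centralizer_top_le_stab (C : Finset (Subgroup X)) :
    Subgroup.centralizer (top C : Set X) ≤ stab C := by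
  rw [le_stab]
  intro Q hQ
  exact le_trans (Subgroup.centralizer_le (SetLike.coe_subset_coe.2 (le_top_of_mem hQ)))
    (Subgroup.centralizer_le_normalizer _)

theorem isPGroup_top {C : Finset (Subgroup X)} (hC : IsPChain p C) : IsPGroup p (top C) := by
  by_cases h : C = ∅
  · subst h
    rw [top_empty]
    exact IsPGroup.of_bot
  · exact (hC.1 _ (top_mem hC h)).1

theorem top_ne_bot {C : Finset (Subgroup X)} (hC : IsPChain p C) (h : C ≠ ∅) : top C ≠ ⊥ :=
  (hC.1 _ (top_mem hC h)).2

end Claimed.Agent.R280.A
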