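import Claimed.Agent.R280.A.Alg

/-!
# Row 280, part A, package Cocenter: the cocenter of a group algebra in the model
`ConjClasses X → R`
-/

namespace Claimed.Agent.R280.A

open Claims.C0453

variable {R : Type} [CommRing R] {X : Type} [Group X] [Finite X]

theorem cl_apply (a : MonoidAlgebra R X) (c : ConjClasses X) :
    cl R X a c = ∑ g ∈ fs {g : X | ConjClasses.mk g = c}, a.coeff g := rfl

open Classical in
theorem cl_single (g : X) (r : R) :
    cl R X (MonoidAlgebra.single g r) = Pi.single (ConjClasses.mk g) r := by
  funext c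
  rw [cl_apply]
  by_cases hc : ConjClasses.mk g = c
  · subst hc
    rw [Pi.single_eq_same, Finset.sum_eq_single g]
    · simp
    · intro b _ hb
      simp [MonoidAlgebra.coeff_single, Ne.symm hb]
    · intro h; simp at h
  · rw [Pi.single_eq_of_ne (Ne.symm hc)]
    apply Finset.sum_eq_zero
    intro b hb
    have hb' : ConjClasses.mk b = c := by simpa using hb
    have : g ≠ b := fun h => hc (h ▸ hb')
    simp [MonoidAlgebra.coeff_single, this]

theorem cl_single_conj (x g : X) (r : R) :
    cl R X (MonoidAlgebra.single (x * g * x⁻¹) r) = cl R X (MonoidAlgebra.single g r) := by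
  classical
  rw [cl_single, cl_single]
  congr 1
  exact ConjClasses.mk_eq_mk_iff_isConj.2 (isConj_iff.2 ⟨x, rfl⟩).symm

theorem cl_mul_comm (a b : MonoidAlgebra R X) : cl R X (a * b) = cl R X (b * a) := by
  rw [eq_sum_single a, eq_sum_single b]
  simp only [Finset.sum_mul, Finset.mul_sum, map_sum, MonoidAlgebra.single_mul_single]
  rw [Finset.sum_comm]
  apply Finset.sum_congr rfl
  intro y _
  apply Finset.sum_congr rfl
  intro x _
  rw [mul_comm (a.coeff y), ← cl_single_conj x (y * x)]
  congr 2
  group

theorem cl_sec (f : ConjClasses X → R) : cl R X (sec R X f) = f := by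
  classical
  have h : sec R X f = ∑ c ∈ fs (Set.univ : Set (ConjClasses X)),
      MonoidAlgebra.single (Quotient.out c) (f c) := rfl
  rw [h, map_sum]
  funext c
  rw [Finset.sum_apply, Finset.sum_eq_single c]
  · rw [cl_single]
    have : ConjClasses.mk (Quotient.out c) = c := Quotient.out_eq c
    rw [this, Pi.single_eq_same]
  · intro b _ hb
    rw [cl_single]
    have : ConjClasses.mk (Quotient.out b) = b := Quotient.out_eq b
    rw [this, Pi.single_eq_of_ne (Ne.symm hb)]
  · intro h; simp at h

theorem cl_surjective : Function.Surjective (cl R X) := fun f => ⟨_, cl_sec f⟩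

/-- The kernel of `cl` is the span of the commutators. -/
theorem ker_cl : LinearMap.ker (cl R X) =
    Submodule.span R {x | ∃ u v : MonoidAlgebra R X, x = u * v - v * u} := by
  classical
  apply le_antisymm
  · intro a ha
    rw [LinearMap.mem_ker] at ha
    -- `a - sec (cl a)` is a combination of `g - out (mk g)`
    have h1 : a = a - sec R X (cl R X a) := by rw [ha, map_zero, sub_zero]
    have h2 : sec R X (cl R X a) = ∑ g ∈ fs (Set.univ : Set X),
        MonoidAlgebra.single (Quotient.out (ConjClasses.mk g)) (a.coeff g) := by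
      have h : sec R X (cl R X a) = ∑ c ∈ fs (Set.univ : Set (ConjClasses X)),
          MonoidAlgebra.single (Quotient.out c) (cl R X a c) := rfl
      rw [h, ← Finset.sum_fiberwise_of_maps_to (s := fs (Set.univ : Set X))
        (t := fs (Set.univ : Set (ConjClasses X))) (g := fun g => ConjClasses.mk g)
        (fun _ _ => by simp)]
      apply Finset.sum_congr rfl
      intro c _
      rw [cl_apply]
      have : (fs (Set.univ : Set X)).filter (fun g => ConjClasses.mk g = c) =
          fs {g : X | ConjClasses.mk g = c} := by ext g; simp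
      rw [this]
      have h3 : ∀ g ∈ fs {g : X | ConjClasses.mk g = c},
          MonoidAlgebra.single (Quotient.out (ConjClasses.mk g)) (a.coeff g) =
          MonoidAlgebra.single (Quotient.out c) (a.coeff g) := by
        intro g hg
        have : ConjClasses.mk g = c := by simpa using hg
        rw [this]
      rw [Finset.sum_congr rfl h3]
      exact map_sum (MonoidAlgebra.singleAddHom (R := R) (Quotient.out c)) _ _
    have h4 : a = ∑ g ∈ fs (Set.univ : Set X), (MonoidAlgebra.single g (a.coeff g) -
        MonoidAlgebra.single (Quotient.out (ConjClasses.mk g)) (a.coeff g)) := by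
      rw [Finset.sum_sub_distrib, ← h2, ← eq_sum_single a]
      exact h1
    rw [h4]
    apply Submodule.sum_mem
    intro g _
    have hconj : IsConj g (Quotient.out (ConjClasses.mk g)) :=
      ConjClasses.mk_eq_mk_iff_isConj.1 (Quotient.out_eq (ConjClasses.mk g)).symm
    obtain ⟨x, hx⟩ := isConj_iff.1 hconj
    apply Submodule.subset_span
    refine ⟨MonoidAlgebra.single (g * x⁻¹) (a.coeff g), MonoidAlgebra.single x 1, ?_⟩
    rw [MonoidAlgebra.single_mul_single, MonoidAlgebra.single_mul_single, ← hx]
    simp [mul_assoc]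
  · rw [Submodule.span_le]
    rintro _ ⟨u, v, rfl⟩
    rw [SetLike.mem_coe, LinearMap.mem_ker, map_sub, cl_mul_comm, sub_self]

/-- `cmul a` is induced by left multiplication with the central element `a`. -/
theorem cl_central_mul (a : MonoidAlgebra R X) (ha : a ∈ Set.center (MonoidAlgebra R X))
    (x : MonoidAlgebra R X) : cl R X (a * x) = cmul a (cl R X x) := by
  have h1 : x - sec R X (cl R X x) ∈ LinearMap.ker (cl R X) := by
    rw [LinearMap.mem_ker, map_sub, cl_sec, sub_self]
  have h2 : ∀ y ∈ LinearMap.ker (cl R X), cl R X (a * y) = 0 := by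
    intro y hy
    rw [ker_cl] at hy
    induction hy using Submodule.span_induction with
    | mem y hy =>
      obtain ⟨u, v, rfl⟩ := hy
      have hc : a * v = v * a := ((Semigroup.mem_center_iff.1 ha) v).symm
      rw [mul_sub, map_sub, ← mul_assoc, ← mul_assoc, hc, mul_assoc v, cl_mul_comm v, mul_assoc,
        sub_self]
    | zero => simp
    | add y z _ _ hy hz => rw [mul_add, map_add, hy, hz, add_zero]
    | smul c y _ hy => rw [mul_smul_comm, map_smul, hy, smul_zero]
  have h3 := h2 _ h1
  rw [mul_sub, map_sub, sub_eq_zero] at h3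
  rw [h3]
  rfl

theorem cmul_mul (a b : MonoidAlgebra R X) (ha : a ∈ Set.center (MonoidAlgebra R X)) :
    cmul (a * b) = cmul a ∘ₗ cmul b := by
  apply LinearMap.ext
  intro f
  simp only [cmul, LinearMap.comp_apply, LinearMap.mulLeft_apply]
  rw [mul_assoc, cl_central_mul a ha]
  simp only [cmul, LinearMap.comp_apply, LinearMap.mulLeft_apply]

theorem cmul_one : cmul (1 : MonoidAlgebra R X) = LinearMap.id := by
  apply LinearMap.ext
  intro f
  simp [cmul, cl_sec]

theorem cmul_add (a b : MonoidAlgebra R X) : cmul (a + b) = cmul a + cmul b := by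
  apply LinearMap.ext
  intro f
  simp [cmul, add_mul]

theorem cmul_sub (a b : MonoidAlgebra R X) : cmul (a - b) = cmul a - cmul b := by
  apply LinearMap.ext
  intro f
  simp [cmul, sub_mul]

theorem cmul_zero : cmul (0 : MonoidAlgebra R X) = 0 := by
  apply LinearMap.ext
  intro f
  simp [cmul]

theorem cmul_pow (a : MonoidAlgebra R X) (ha : a ∈ Set.center (MonoidAlgebra R X)) (n : ℕ) :
    cmul (a ^ n) = (cmul a) ^ n := by
  induction n with
  | zero => simp [cmul_one, Module.End.one_eq_id]
  | succ n ih => rw [pow_succ', pow_succ', cmul_mul a _ ha, ih, Module.End.mul_eq_comp]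

/-- The range of `cmul a` is the image of the ideal generated by the central element `a`. -/
theorem range_cmul (a : MonoidAlgebra R X) (ha : a ∈ Set.center (MonoidAlgebra R X)) :
    LinearMap.range (cmul a) = (LinearMap.range (LinearMap.mulLeft R a)).map (cl R X) := by
  apply le_antisymm
  · rintro _ ⟨f, rfl⟩
    exact ⟨a * sec R X f, ⟨sec R X f, rfl⟩, rfl⟩
  · rintro _ ⟨_, ⟨x, rfl⟩, rfl⟩
    exact ⟨cl R X x, (cl_central_mul a ha x).symm⟩

/-- Naturality in the coefficient ring. -/
theorem cmul_map {O : Type} [CommRing O] (π : O →+* R) (w : MonoidAlgebra O X)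
    (f : ConjClasses X → O) :
    cmul (MonoidAlgebra.mapRingHom X π w) (fun c => π (f c)) = fun c => π (cmul w f c) := by
  have hsec : sec R X (fun c => π (f c)) = MonoidAlgebra.mapRingHom X π (sec O X f) := by
    have h1 : sec R X (fun c => π (f c)) = ∑ c ∈ fs (Set.univ : Set (ConjClasses X)),
      MonoidAlgebra.single (Quotient.out c) (π (f c)) := rfl
    have h2 : sec O X f = ∑ c ∈ fs (Set.univ : Set (ConjClasses X)),
      MonoidAlgebra.single (Quotient.out c) (f c) := rfl
    rw [h1, h2, map_sum]
    apply Finset.sum_congr rfl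
    intro c _
    rw [MonoidAlgebra.mapRingHom_single]
  have hcl : ∀ a : MonoidAlgebra O X, cl R X (MonoidAlgebra.mapRingHom X π a) =
      fun c => π (cl O X a c) := by
    intro a
    funext c
    rw [cl_apply, cl_apply, map_sum]
    apply Finset.sum_congr rfl
    intro g _
    rw [MonoidAlgebra.coeff_mapRingHom]
  simp only [cmul, LinearMap.comp_apply, LinearMap.mulLeft_apply]
  rw [hsec, ← map_mul, hcl]

/-- The pairing of the centre with the cocenter: `τ(z a)` only depends on `cl a`. -/
theorem coeff_one_central_mul (z : MonoidAlgebra R X) (hz : z ∈ Set.center (MonoidAlgebra R X))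
    (a : MonoidAlgebra R X) :
    (z * a).coeff 1 = ∑ c ∈ fs (Set.univ : Set (ConjClasses X)),
      z.coeff (Quotient.out c)⁻¹ * cl R X a c := by
  classical
  rw [coeff_mul_sum']
  rw [← Finset.sum_fiberwise_of_maps_to (s := fs (Set.univ : Set X))
        (t := fs (Set.univ : Set (ConjClasses X))) (g := fun g => ConjClasses.mk g)
        (fun _ _ => by simp)]
  apply Finset.sum_congr rfl
  intro c _
  rw [cl_apply, Finset.mul_sum]
  apply Finset.sum_congr
  · ext g; simp
  · intro g hg
    have hg' : ConjClasses.mk g = c := by simpa using hg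
    congr 1
    rw [one_mul]
    have hconj : IsConj g (Quotient.out c) :=
      ConjClasses.mk_eq_mk_iff_isConj.1 (hg'.trans (Quotient.out_eq c).symm)
    obtain ⟨x, hx⟩ := isConj_iff.1 hconj
    rw [← hx, ← (mem_center_iff z).1 hz x g⁻¹]
    congr 1
    group

end Claimed.Agent.R280.A
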