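import Claimed.Agent.R280.A.DetectC

/-!
# Row 280, part A: the detecting element `v = E (1 - c_X)` (`lem:detecting-element`), glue
-/

namespace Claimed.Agent.R280.A

open Claims.C0453

variable {p : ℕ} [Fact p.Prime] {k : Type} [Field k] [IsAlgClosed k] [CharP k p]
  {X : Type} [Group X] [Finite X]

theorem one_sub_cX_mem_center : (1 - cX p k X) ∈ Set.center (MonoidAlgebra k X) :=
  (Subring.center (MonoidAlgebra k X)).sub_mem (Subring.one_mem _) cX_mem_center

theorem v_mem_center {E : MonoidAlgebra k X} (hE : IsCI E) :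
    E * (1 - cX p k X) ∈ Set.center (MonoidAlgebra k X) :=
  (Submonoid.center (MonoidAlgebra k X)).mul_mem hE.1 one_sub_cX_mem_center

theorem support_v (E : MonoidAlgebra k X) (hE : IsCI E) (g : X) (hg : ¬ p ∣ orderOf g) :
    (E * (1 - cX p k X)).coeff g = 0 :=
  coeff_ci_mul_sing hE one_sub_cX_mem_center (fun _ h => coeff_one_sub_cX h) hg

theorem central_v (E : MonoidAlgebra k X) (hE : IsCI E) (x g : X) :
    (E * (1 - cX p k X)).coeff (x * g * x⁻¹) = (E * (1 - cX p k X)).coeff g :=
  (mem_center_iff _).1 (v_mem_center hE) x g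

theorem commute_of_mem_center {A : Type*} [Ring A] {a : A} (ha : a ∈ Set.center A) (b : A) :
    Commute a b := ((Semigroup.mem_center_iff.1 ha) b).symm

/-- Length zero: `v ≡ E (1 - ε)` modulo nilpotents. -/
theorem detect_zero {E : MonoidAlgebra k X} (hE : IsCI E) :
    ∃ e' : MonoidAlgebra k X, IsCI e' ∧ IsNilpotent (E * (1 - cX p k X) - e') ∧
      kap e' + zCount E = kap E := by
  have hεc := (eps_isCI (k := k) (X := X)).1
  have hεi : eps k X * eps k X = eps k X := (eps_isCI (k := k) (X := X)).2
  have h1ε : IsCI (1 - eps k X) :=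
    ⟨(Subring.center (MonoidAlgebra k X)).sub_mem (Subring.one_mem _) hεc,
      (eps_isCI (k := k) (X := X)).2.one_sub⟩
  have hcomm : Commute E (1 - eps k X) := commute_of_mem_center hE.1 _
  have hcomm' : Commute E (eps k X) := commute_of_mem_center hE.1 _
  have hci1 : IsCI (E * (1 - eps k X)) :=
    ⟨(Submonoid.center _).mul_mem hE.1 h1ε.1, IsIdempotentElem.mul_of_commute hcomm hE.2 h1ε.2⟩
  have hci2 : IsCI (E * eps k X) :=
    ⟨(Submonoid.center _).mul_mem hE.1 hεc,
      IsIdempotentElem.mul_of_commute hcomm' hE.2 eps_isCI.2⟩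
  refine ⟨E * (1 - eps k X), hci1, ?_, ?_⟩
  · -- `ε (1 - c) = 0`
    have h0 : eps k X * (1 - cX p k X) = 0 :=
      ci_mul_sing_eq_zero eps_isCI (fun r hr => eps_mul_rad hr) one_sub_cX_mem_center
        (fun _ h => coeff_one_sub_cX h)
    have hc : Commute (cX p k X) (1 - eps k X) := commute_of_mem_center cX_mem_center _
    have hn : IsNilpotent (cX p k X * (1 - eps k X)) := by
      have h2 : IsNilpotent (cX p k X * cX p k X * (1 - eps k X)) :=
        isNilpotent_mul_one_sub_eps
          ((Submonoid.center (MonoidAlgebra k X)).mul_mem cX_mem_center cX_mem_center)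
          (fun r hr => cX_sq_mul_rad hr)
      apply IsNilpotent.of_pow (m := 2)
      rw [hc.mul_pow, pow_two, pow_two, h1ε.2.eq]
      exact h2
    have hεc' : Commute (eps k X) (cX p k X) := commute_of_mem_center hεc _
    have heq : E * (1 - cX p k X) - E * (1 - eps k X) = -(E * (cX p k X * (1 - eps k X))) := by
      have h3 : eps k X = eps k X * cX p k X := by
        have := h0
        rw [mul_sub, mul_one, sub_eq_zero] at this
        exact this
      have h4 : cX p k X * (1 - eps k X) = cX p k X - eps k X := by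
        rw [mul_sub, mul_one, ← hεc'.eq, ← h3]
      rw [h4]
      noncomm_ring
    rw [heq]
    apply IsNilpotent.neg
    exact (commute_of_mem_center hE.1 _).isNilpotent_mul_left hn
  · rw [← kap_mul_eps hE, ← kap_add hci1 hci2]
    · congr 1
      noncomm_ring
    · calc E * (1 - eps k X) * (E * eps k X) = E * ((1 - eps k X) * E) * eps k X := by
            noncomm_ring
        _ = E * (E * (1 - eps k X)) * eps k X := by rw [hcomm.eq]
        _ = E * E * (eps k X - eps k X * eps k X) := by noncomm_ring
        _ = 0 := by rw [hεi, sub_self, mul_zero]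

/-- Positive length: `res_H v ≡ res_H (Br_Q E)` modulo nilpotents. -/
theorem detect_pos {E : MonoidAlgebra k X} (hE : IsCI E) (H Q : Subgroup X) (hQ : IsPGroup p Q)
    (hQ1 : Q ≠ ⊥) (hQH : Q ≤ H) (hHN : H ≤ Subgroup.normalizer (Q : Set X))
    (hCH : Subgroup.centralizer (Q : Set X) ≤ H) :
    IsNilpotent (resA H (E * (1 - cX p k X)) - resA H (brX Q E)) := by
  have hv := v_mem_center (p := p) hE
  have h1 : IsNilpotent (resA H (E * (1 - cX p k X)) - resA H (brX Q (E * (1 - cX p k X)))) :=
    isNilpotent_resA_sub_resA_brX Q H hQ hQH hHN (isInv_of_mem_center hv Q)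
  have h2 : resA H (brX Q (E * (1 - cX p k X))) =
      resA H (brX Q E) - resA H (brX Q E) * resA H (brX Q (cX p k X)) := by
    rw [resA_brX_mul Q H hQ hCH (isInv_of_mem_center hE.1 Q)
      (isInv_of_mem_center one_sub_cX_mem_center Q), brX_sub, brX_one, resA_sub, resA_one, mul_sub,
      mul_one]
  have h3 : resA H (brX Q (cX p k X)) * resA H (brX Q (cX p k X)) = 0 := by
    rw [← resA_mul_of_supp, brX_cX_sq Q hQ hQ1, resA_zero]
    intro g hg
    exact coeff_brX_of_not_mem _ _ (fun h => hg (hCH h))
  have hc1 := resA_brX_mem_center Q H hHN hE.1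
  have h4 : IsNilpotent (resA H (brX Q E) * resA H (brX Q (cX p k X))) := by
    apply (commute_of_mem_center hc1 _).isNilpotent_mul_left
    exact ⟨2, by rw [pow_two, h3]⟩
  have h5 : resA H (E * (1 - cX p k X)) - resA H (brX Q E) =
      (resA H (E * (1 - cX p k X)) - resA H (brX Q (E * (1 - cX p k X)))) -
        resA H (brX Q E) * resA H (brX Q (cX p k X)) := by
    rw [h2]; noncomm_ring
  rw [h5]
  apply Commute.isNilpotent_sub _ h1 h4
  apply commute_of_mem_center
  exact (Subring.center (MonoidAlgebra k H)).sub_mem (resA_mem_center H hv)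
    (resA_brX_mem_center Q H hHN hv)

end Claimed.Agent.R280.A
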