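import Claimed.Agent.R280.A.Basic

/-!
# Row 280, part A, package PParts: the `p`-part and the `p'`-part of an element of a finite group
-/

namespace Claimed.Agent.R280.A

variable {p : ℕ} [Fact p.Prime] {X : Type} [Group X] [Finite X]

/-- Existence of the decomposition: both parts are powers of `g`.
(`orderOf g = p ^ a * m`, Bezout.) -/
theorem exists_pParts (g : X) : ∃ i j : ℕ, g = g ^ i * g ^ j ∧ IsPElt p (g ^ i) ∧
    ¬ p ∣ orderOf (g ^ j) := by
  have hp : p.Prime := Fact.out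
  have hn : orderOf g ≠ 0 := (orderOf_pos g).ne'
  obtain ⟨a, m, hm, hnm⟩ := Nat.exists_eq_pow_mul_and_not_dvd hn p hp.ne_one
  have hcop : Nat.Coprime (p ^ a) m := Nat.Coprime.pow_left a ((Nat.Prime.coprime_iff_not_dvd hp).2 hm)
  obtain ⟨i, hi1, hi2⟩ := Nat.chineseRemainder hcop 1 0
  obtain ⟨j, hj1, hj2⟩ := Nat.chineseRemainder hcop 0 1
  refine ⟨i, j, ?_, ⟨a, ?_⟩, ?_⟩
  · rw [← pow_add]
    have h1 : i + j ≡ 1 [MOD orderOf g] := by
      rw [hnm]
      rw [← Nat.modEq_and_modEq_iff_modEq_mul hcop]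
      exact ⟨by simpa using hi1.add hj1, by simpa using hi2.add hj2⟩
    have := (pow_eq_pow_iff_modEq (x := g)).2 h1
    rw [this, pow_one]
  · rw [← pow_mul]
    apply orderOf_dvd_iff_pow_eq_one.1
    rw [hnm, mul_comm i]
    exact Nat.mul_dvd_mul_left _ ((Nat.modEq_zero_iff_dvd).1 hi2)
  · intro hdvd
    apply hm
    refine hdvd.trans ?_
    apply orderOf_dvd_of_pow_eq_one
    rw [← pow_mul]
    apply orderOf_dvd_iff_pow_eq_one.1
    rw [hnm]
    exact Nat.mul_dvd_mul_right ((Nat.modEq_zero_iff_dvd).1 hj1) _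

/-- The `p`-part. -/
noncomputable def pPart (p : ℕ) [Fact p.Prime] (g : X) : X :=
  g ^ (exists_pParts (p := p) g).choose

/-- The `p'`-part. -/
noncomputable def pReg (p : ℕ) [Fact p.Prime] (g : X) : X :=
  g ^ (exists_pParts (p := p) g).choose_spec.choose

theorem pPart_pReg_eqns_cite : True := by
  have := @pPart.eq_1
  have := @pReg.eq_1
  trivial

theorem pPart_mul_pReg (g : X) : pPart p g * pReg p g = g :=
  (exists_pParts (p := p) g).choose_spec.choose_spec.1.symm

theorem isPElt_pPart (g : X) : IsPElt p (pPart p g) :=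
  (exists_pParts (p := p) g).choose_spec.choose_spec.2.1

theorem not_dvd_orderOf_pReg (g : X) : ¬ p ∣ orderOf (pReg p g) :=
  (exists_pParts (p := p) g).choose_spec.choose_spec.2.2

theorem pPart_mem_zpowers (g : X) : pPart p g ∈ Subgroup.zpowers g :=
  Subgroup.npow_mem_zpowers g _

theorem pReg_mem_zpowers (g : X) : pReg p g ∈ Subgroup.zpowers g :=
  Subgroup.npow_mem_zpowers g _

/-- An element that is both a `p`-element and of order prime to `p` is trivial. -/
theorem pparts_eq_one_of_isPElt_of_not_dvd {x : X} (hx : IsPElt p x) (hx' : ¬ p ∣ orderOf x) :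
    x = 1 := by
  have hp : p.Prime := Fact.out
  obtain ⟨n, hn⟩ := hx
  have h1 : orderOf x ∣ p ^ n := orderOf_dvd_of_pow_eq_one hn
  obtain ⟨k, _, hk⟩ := (Nat.dvd_prime_pow hp).1 h1
  rcases Nat.eq_zero_or_pos k with rfl | hk0
  · simpa using hk
  · exact absurd (hk ▸ dvd_pow_self p hk0.ne') hx'

/-- Uniqueness. -/
theorem pParts_unique {u t : X} (hc : Commute u t) (hu : IsPElt p u) (ht : ¬ p ∣ orderOf t) :
    pPart p (u * t) = u ∧ pReg p (u * t) = t := by
  have hp : p.Prime := Fact.out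
  set g := u * t with hg
  have hgu : Commute g u := by
    rw [hg]; exact (Commute.refl u).mul_left hc.symm
  have hgt : Commute g t := by
    rw [hg]; exact hc.mul_left (Commute.refl t)
  have hu'u : Commute (pPart p g) u := hgu.pow_left _
  have ht't : Commute (pReg p g) t := hgt.pow_left _
  have hmul : pPart p g * pReg p g = u * t := pPart_mul_pReg g
  -- the element `x = u⁻¹ * pPart g = t * (pReg g)⁻¹`
  have hx : u⁻¹ * pPart p g = t * (pReg p g)⁻¹ := by
    rw [eq_mul_inv_iff_mul_eq, mul_assoc, hmul, inv_mul_cancel_left]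
  have h1 : IsPElt p (u⁻¹ * pPart p g) := by
    obtain ⟨n, hn⟩ := hu
    obtain ⟨m, hm⟩ := isPElt_pPart (p := p) g
    refine ⟨n + m, ?_⟩
    rw [(hu'u.symm.inv_left).mul_pow, pow_add, pow_mul, inv_pow, hn, inv_one, one_pow, one_mul,
      mul_comm (p ^ n), pow_mul, hm, one_pow]
  have h2 : ¬ p ∣ orderOf (t * (pReg p g)⁻¹) := by
    intro hd
    have h3 : orderOf (t * (pReg p g)⁻¹) ∣ orderOf t * orderOf (pReg p g) := by
      apply orderOf_dvd_of_pow_eq_one
      rw [(ht't.symm.inv_right).mul_pow, pow_mul, pow_orderOf_eq_one, one_pow, one_mul,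
        mul_comm, pow_mul, inv_pow, pow_orderOf_eq_one, inv_one, one_pow]
    rcases (Nat.Prime.dvd_mul hp).1 (hd.trans h3) with h | h
    · exact ht h
    · exact not_dvd_orderOf_pReg g h
  have h4 : u⁻¹ * pPart p g = 1 := pparts_eq_one_of_isPElt_of_not_dvd h1 (hx ▸ h2)
  have h5 : t * (pReg p g)⁻¹ = 1 := hx ▸ h4
  constructor
  · exact (inv_mul_eq_one.1 h4).symm
  · exact (mul_inv_eq_one.1 h5).symm

theorem pparts_conj_aux (x g : X) : pPart p (x * g * x⁻¹) = x * pPart p g * x⁻¹ ∧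
    pReg p (x * g * x⁻¹) = x * pReg p g * x⁻¹ := by
  have hcomm : Commute (pPart p g) (pReg p g) :=
    ((Commute.refl g).pow_left _).pow_right _
  have h := pParts_unique (p := p) (u := x * pPart p g * x⁻¹) (t := x * pReg p g * x⁻¹)
    (by
      have : x * pPart p g * x⁻¹ * (x * pReg p g * x⁻¹) = x * pReg p g * x⁻¹ * (x * pPart p g * x⁻¹) := by
        have e1 : x * pPart p g * x⁻¹ * (x * pReg p g * x⁻¹) = x * (pPart p g * pReg p g) * x⁻¹ := by
          group
        have e2 : x * pReg p g * x⁻¹ * (x * pPart p g * x⁻¹) = x * (pReg p g * pPart p g) * x⁻¹ := by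
          group
        rw [e1, e2, hcomm.eq]
      exact this)
    (by
      obtain ⟨n, hn⟩ := isPElt_pPart (p := p) g
      exact ⟨n, by rw [conj_pow, hn]; simp⟩)
    (by
      have : orderOf (x * pReg p g * x⁻¹) = orderOf (pReg p g) := by
        have := (MulAut.conj x).toMonoidHom
        exact orderOf_injective (MulAut.conj x).toMonoidHom (MulAut.conj x).injective (pReg p g)
      rw [this]
      exact not_dvd_orderOf_pReg g)
  have e : x * pPart p g * x⁻¹ * (x * pReg p g * x⁻¹) = x * g * x⁻¹ := by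
    have e1 : x * pPart p g * x⁻¹ * (x * pReg p g * x⁻¹) = x * (pPart p g * pReg p g) * x⁻¹ := by
      group
    rw [e1, pPart_mul_pReg]
  rwa [e] at h

theorem pPart_conj (x g : X) : pPart p (x * g * x⁻¹) = x * pPart p g * x⁻¹ :=
  (pparts_conj_aux x g).1

theorem pReg_conj (x g : X) : pReg p (x * g * x⁻¹) = x * pReg p g * x⁻¹ :=
  (pparts_conj_aux x g).2

theorem pPart_eq_one_iff (g : X) : pPart p g = 1 ↔ ¬ p ∣ orderOf g := by
  constructor
  · intro h
    have h1 := pPart_mul_pReg (p := p) g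
    rw [h, one_mul] at h1
    rw [← h1]
    have := not_dvd_orderOf_pReg (p := p) g
    rwa [h1] at this ⊢
  · intro h
    have := (pParts_unique (p := p) (u := 1) (t := g) (Commute.one_left g) ⟨0, by simp⟩ h).1
    rwa [one_mul] at this

theorem isPElt_iff_orderOf (u : X) : IsPElt p u ↔ ∃ n : ℕ, orderOf u = p ^ n := by
  have hp : p.Prime := Fact.out
  constructor
  · rintro ⟨n, hn⟩
    obtain ⟨k, _, hk⟩ := (Nat.dvd_prime_pow hp).1 (orderOf_dvd_of_pow_eq_one hn)
    exact ⟨k, hk⟩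
  · rintro ⟨n, hn⟩
    exact ⟨n, hn ▸ pow_orderOf_eq_one u⟩

theorem isPElt_mul {u v : X} (hc : Commute u v) (hu : IsPElt p u) (hv : IsPElt p v) :
    IsPElt p (u * v) := by
  obtain ⟨n, hn⟩ := hu
  obtain ⟨m, hm⟩ := hv
  refine ⟨n + m, ?_⟩
  rw [hc.mul_pow, pow_add, pow_mul, hn, one_pow, one_mul, mul_comm (p ^ n), pow_mul, hm, one_pow]

theorem isPElt_conj {u : X} (x : X) (hu : IsPElt p u) : IsPElt p (x * u * x⁻¹) := by
  obtain ⟨n, hn⟩ := hu
  exact ⟨n, by rw [conj_pow, hn]; simp⟩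

/-- A uniform exponent: `g ^ p ^ m = pReg p g` for all `g`, with `m` arbitrarily large.
(`p ^ m ≡ 1` modulo the `p'`-part of `|X|` and `p ^ m ≥ |X|`.) -/
theorem exists_pow_eq_pReg (m₀ : ℕ) : ∃ m : ℕ, m₀ ≤ m ∧ ∀ g : X, g ^ p ^ m = pReg p g := by
  have hp : p.Prime := Fact.out
  have hn : Nat.card X ≠ 0 := Nat.card_pos.ne'
  obtain ⟨a, m, hm, hnm⟩ := Nat.exists_eq_pow_mul_and_not_dvd hn p hp.ne_one
  have hcop : Nat.Coprime p m := (Nat.Prime.coprime_iff_not_dvd hp).2 hm
  have hm0 : 0 < m := by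
    rcases Nat.eq_zero_or_pos m with rfl | h
    · exact absurd (dvd_zero p) hm
    · exact h
  have hphi : 0 < Nat.totient m := Nat.totient_pos.2 hm0
  refine ⟨Nat.totient m * (m₀ + a), ?_, ?_⟩
  · calc m₀ ≤ 1 * (m₀ + a) := by omega
      _ ≤ Nat.totient m * (m₀ + a) := Nat.mul_le_mul_right _ hphi
  · intro g
    have haM : a ≤ Nat.totient m * (m₀ + a) :=
      calc a ≤ 1 * (m₀ + a) := by omega
        _ ≤ Nat.totient m * (m₀ + a) := Nat.mul_le_mul_right _ hphi
    set M := Nat.totient m * (m₀ + a) with hM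
    have hcomm : Commute (pPart p g) (pReg p g) :=
      ((Commute.refl g).pow_left _).pow_right _
    have h1 : p ^ M ≡ 1 [MOD m] := by
      rw [hM, pow_mul]
      simpa using (Nat.ModEq.pow_totient hcop).pow (m₀ + a)
    have hu : pPart p g ^ p ^ M = 1 := by
      obtain ⟨b, hb⟩ := (isPElt_iff_orderOf (p := p) (pPart p g)).1 (isPElt_pPart g)
      have h2 : p ^ b ∣ p ^ a * m := by
        rw [← hb, ← hnm]; exact orderOf_dvd_natCard _
      have h3 : p ^ b ∣ p ^ a := (Nat.Coprime.pow_left b hcop).dvd_of_dvd_mul_right h2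
      apply orderOf_dvd_iff_pow_eq_one.1
      rw [hb]
      exact h3.trans (pow_dvd_pow p haM)
    have ht : pReg p g ^ p ^ M = pReg p g := by
      have h2 : orderOf (pReg p g) ∣ p ^ a * m := by
        rw [← hnm]; exact orderOf_dvd_natCard _
      have hc2 : Nat.Coprime (orderOf (pReg p g)) (p ^ a) :=
        (Nat.Coprime.pow_left a ((Nat.Prime.coprime_iff_not_dvd hp).2
          (not_dvd_orderOf_pReg g))).symm
      have h3 : orderOf (pReg p g) ∣ m := hc2.dvd_of_dvd_mul_left h2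
      have h4 : p ^ M ≡ 1 [MOD orderOf (pReg p g)] := h1.of_dvd h3
      have := (pow_eq_pow_iff_modEq (x := pReg p g)).2 h4
      rw [this, pow_one]
    calc g ^ p ^ M = (pPart p g * pReg p g) ^ p ^ M := by rw [pPart_mul_pReg]
      _ = pReg p g := by rw [hcomm.mul_pow, hu, ht, one_mul]

end Claimed.Agent.R280.A
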