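import Claimed.Agent.R280.A.Brauer
import Claimed.Agent.R280.A.PParts

/-!
# Row 280, part A, package DetectA: averaging kills the radical; the sum of the `p`-elements
(`lem:defect-zero-detection`, radical annihilation, (i) and the last paragraph)
-/

namespace Claimed.Agent.R280.A

open Claims.C0453

variable {p : ℕ} [Fact p.Prime] {k : Type} [Field k] {X : Type} [Group X] [Finite X]

/-- The averaging operator `I_X`. -/
noncomputable def avg (a : MonoidAlgebra k X) : MonoidAlgebra k X :=
  ∑ x ∈ fs (Set.univ : Set X), MonoidAlgebra.single x 1 * a * MonoidAlgebra.single x⁻¹ 1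

/-- the coefficient of `1` is a symmetric form -/
theorem detA_coeff_one_mul_comm (u v : MonoidAlgebra k X) : (u * v).coeff 1 = (v * u).coeff 1 := by
  rw [coeff_mul_sum, coeff_mul_sum']
  refine Finset.sum_congr rfl fun x _ => ?_
  rw [mul_one, one_mul, mul_comm]

/-- `τ (I(a) b) = tr (x ↦ b x a)` in the group basis. -/
theorem coeff_one_avg_mul (a b : MonoidAlgebra k X) :
    (avg a * b).coeff 1 = LinearMap.trace k (MonoidAlgebra k X)
      (LinearMap.mulLeft k b ∘ₗ LinearMap.mulRight k a) := by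
  classical
  have := Fintype.ofFinite X
  rw [LinearMap.trace_eq_matrix_trace k (MonoidAlgebra.basis X k), Matrix.trace, avg, Finset.sum_mul,
    MonoidAlgebra.coeff_sum, Finsupp.finsetSum_apply, sum_fs_univ]
  refine Finset.sum_congr rfl fun g _ => ?_
  rw [Matrix.diag_apply, LinearMap.toMatrix_apply, MonoidAlgebra.basis_apply]
  show _ = (b * (MonoidAlgebra.single g 1 * a)).coeff g
  rw [detA_coeff_one_mul_comm, ← mul_assoc, ← mul_assoc, MonoidAlgebra.coeff_mul_single_apply]
  simp [mul_assoc]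

/-- **Averages kill the radical**: `L_{r c}` is nilpotent and commutes with `R_a`, so
`τ (I(a) r c) = 0` for all `c`. -/
theorem avg_mul_rad (a : MonoidAlgebra k X) {r : MonoidAlgebra k X} (hr : r ∈ rad k X) :
    avg a * r = 0 := by
  have key : ∀ c : MonoidAlgebra k X, (avg a * (r * c)).coeff 1 = 0 := by
    intro c
    rw [coeff_one_avg_mul]
    obtain ⟨n, hn⟩ := isNilpotent_of_mem_rad (rad_mul_mem hr c)
    have hc : Commute (LinearMap.mulLeft k (r * c)) (LinearMap.mulRight k a) := by
      ext x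
      simp [mul_assoc]
    have hnil : IsNilpotent (LinearMap.mulLeft k (r * c) ∘ₗ LinearMap.mulRight k a) := by
      refine ⟨n, ?_⟩
      rw [← Module.End.mul_eq_comp, hc.mul_pow, LinearMap.pow_mulLeft, hn]
      simp
    exact (LinearMap.isNilpotent_trace_of_isNilpotent hnil).eq_zero
  apply ext_coeff
  intro g
  have := key (MonoidAlgebra.single g⁻¹ 1)
  rw [← mul_assoc, MonoidAlgebra.coeff_mul_single_apply] at this
  simpa using this

theorem detA_coeff_avg (a : MonoidAlgebra k X) (h : X) :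
    (avg a).coeff h = ∑ x ∈ fs (Set.univ : Set X), a.coeff (x⁻¹ * (h * x)) := by
  rw [avg, MonoidAlgebra.coeff_sum, Finsupp.finsetSum_apply]
  refine Finset.sum_congr rfl fun x _ => ?_
  rw [MonoidAlgebra.coeff_mul_single_apply, MonoidAlgebra.coeff_single_mul_apply]
  simp

omit [Finite X] in
theorem detA_conj_iff (g₀ y x : X) :
    x⁻¹ * (y * g₀ * y⁻¹ * x) = g₀ ↔ y⁻¹ * x ∈ Subgroup.centralizer ({g₀} : Set X) := by
  rw [Subgroup.mem_centralizer_iff]
  constructor
  · intro h w hw
    rw [Set.mem_singleton_iff] at hw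
    subst hw
    calc w * (y⁻¹ * x) = y⁻¹ * x * (x⁻¹ * (y * w * y⁻¹ * x)) := by group
      _ = y⁻¹ * x * w := by rw [h]
  · intro h
    have h1 := h g₀ (Set.mem_singleton g₀)
    calc x⁻¹ * (y * g₀ * y⁻¹ * x) = (y⁻¹ * x)⁻¹ * (g₀ * (y⁻¹ * x)) := by group
      _ = g₀ := by rw [h1]; group

theorem detA_card_conj (g₀ y : X) :
    (fs {x : X | x⁻¹ * (y * g₀ * y⁻¹ * x) = g₀}).card =
      Nat.card (Subgroup.centralizer ({g₀} : Set X)) := by
  classical
  have := Fintype.ofFinite X
  have hcard : Nat.card (Subgroup.centralizer ({g₀} : Set X)) =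
      (fs ((Subgroup.centralizer ({g₀} : Set X) : Subgroup X) : Set X)).card := by
    rw [← SetLike.coe_sort_coe, Nat.card_eq_card_toFinset]
    congr 1
    ext y; simp
  rw [hcard]
  refine Finset.card_bij (fun x _ => y⁻¹ * x) ?_ ?_ ?_
  · intro x hx
    rw [mem_fs] at hx ⊢
    exact (detA_conj_iff g₀ y x).1 hx
  · intro x _ x' _ hxx
    exact mul_left_cancel hxx
  · intro w hw
    rw [mem_fs] at hw
    refine ⟨y * w, ?_, by group⟩
    rw [mem_fs]
    apply (detA_conj_iff g₀ y (y * w)).2
    rwa [inv_mul_cancel_left]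

/-- A central element supported on elements with centraliser of order prime to `p` is an average
(`I(g) = |C(g)| • class sum`), so it kills the radical. -/
theorem central_mul_rad_of_supp [CharP k p] {z : MonoidAlgebra k X}
    (hz : z ∈ Set.center (MonoidAlgebra k X))
    (h : ∀ g : X, p ∣ Nat.card (Subgroup.centralizer ({g} : Set X)) → z.coeff g = 0)
    {r : MonoidAlgebra k X} (hr : r ∈ rad k X) : z * r = 0 := by
  classical
  set a : MonoidAlgebra k X := ofFun (fun g => if g = Quotient.out (ConjClasses.mk g) then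
    z.coeff g * ((Nat.card (Subgroup.centralizer ({g} : Set X)) : k))⁻¹ else 0) with ha
  have hzc := (mem_center_iff z).1 hz
  have hza : z = avg a := by
    apply ext_coeff
    intro h'
    rw [detA_coeff_avg]
    set g₀ := Quotient.out (ConjClasses.mk h') with hg₀
    have hmk : ConjClasses.mk g₀ = ConjClasses.mk h' := Quotient.out_eq _
    obtain ⟨y, hy⟩ : ∃ y, y * g₀ * y⁻¹ = h' :=
      isConj_iff.1 (ConjClasses.mk_eq_mk_iff_isConj.1 hmk)
    have hterm : ∀ x : X, a.coeff (x⁻¹ * (h' * x)) = if x⁻¹ * (h' * x) = g₀ then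
        z.coeff g₀ * ((Nat.card (Subgroup.centralizer ({g₀} : Set X)) : k))⁻¹ else 0 := by
      intro x
      have hm : ConjClasses.mk (x⁻¹ * (h' * x)) = ConjClasses.mk h' := by
        apply ConjClasses.mk_eq_mk_iff_isConj.2
        apply isConj_iff.2
        exact ⟨x, by group⟩
      rw [ha, coeff_ofFun, hm, ← hg₀]
      by_cases hx : x⁻¹ * (h' * x) = g₀
      · rw [if_pos hx, if_pos hx, hx]
      · rw [if_neg hx, if_neg hx]
    rw [Finset.sum_congr rfl (fun x _ => hterm x), ← Finset.sum_filter, Finset.sum_const]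
    have hfil : (fs (Set.univ : Set X)).filter (fun x => x⁻¹ * (h' * x) = g₀) =
        fs {x : X | x⁻¹ * (y * g₀ * y⁻¹ * x) = g₀} := by
      ext x
      simp [hy]
    rw [hfil, detA_card_conj, ← hy, hzc y g₀, nsmul_eq_mul]
    by_cases hp : p ∣ Nat.card (Subgroup.centralizer ({g₀} : Set X))
    · rw [h g₀ hp]; simp
    · have hne : ((Nat.card (Subgroup.centralizer ({g₀} : Set X)) : ℕ) : k) ≠ 0 := by
        rwa [Ne, CharP.cast_eq_zero_iff k p]
      field_simp
  rw [hza]
  exact avg_mul_rad a hr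

theorem cX_mem_center : cX p k X ∈ Set.center (MonoidAlgebra k X) := by
  classical
  rw [mem_center_iff]
  intro x g
  have : IsPElt p (x * g * x⁻¹) ↔ IsPElt p g := by
    constructor
    · intro h
      have := isPElt_conj (p := p) x⁻¹ h
      simpa [mul_assoc] using this
    · exact isPElt_conj x
  simp [cX, this]

/-- `Br_P(c_X) ^ 2 = 0` for a nontrivial `p`-subgroup `P`: choose `z ∈ Z(P)` of order `p`; the set `S`
of the `p`-elements of `C(P)` is stable under multiplication with `z`, `s = ∑ S` satisfies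
`z s = s`; `u ↦ u * s` is invariant under the free action of `⟨z⟩` on `S`: `sum_eq_sum_fixed`. -/
theorem brX_cX_sq [CharP k p] (P : Subgroup X) (hP : IsPGroup p P) (hP1 : P ≠ ⊥) :
    brX P (cX p k X) * brX P (cX p k X) = 0 := by
  classical
  -- a nontrivial central element of `P`
  have hnt : Nontrivial P := (Subgroup.nontrivial_iff_ne_bot P).2 hP1
  have hcn : Nontrivial (Subgroup.center P) := hP.center_nontrivial
  obtain ⟨⟨z', hz'c⟩, hz'1⟩ := exists_ne (1 : Subgroup.center P)
  have hz1 : (z' : X) ≠ 1 := by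
    intro h
    apply hz'1
    ext
    exact h
  set z : X := (z' : X) with hz
  have hzP : z ∈ P := z'.2
  have hzC : z ∈ Subgroup.centralizer (P : Set X) := by
    rw [Subgroup.mem_centralizer_iff]
    intro y hy
    have := (Subgroup.mem_center_iff.1 hz'c) ⟨y, hy⟩
    exact congrArg Subtype.val this
  set Z : Subgroup X := Subgroup.zpowers z with hZ
  have hZP : Z ≤ P := Subgroup.zpowers_le.2 hzP
  have hZC : Z ≤ Subgroup.centralizer (P : Set X) := Subgroup.zpowers_le.2 hzC
  have hZp : IsPGroup p Z := hP.to_le hZP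
  have hZel : ∀ w ∈ Z, IsPElt p w := by
    intro w hw
    obtain ⟨n, hn⟩ := hZp ⟨w, hw⟩
    exact ⟨n, congrArg Subtype.val hn⟩
  set s := brX P (cX p k X) with hs
  have hcoef : ∀ u, s.coeff u =
      if u ∈ Subgroup.centralizer (P : Set X) ∧ IsPElt p u then 1 else 0 := by
    intro u
    by_cases hu : u ∈ Subgroup.centralizer (P : Set X)
    · rw [hs, coeff_brX_of_mem _ _ hu]
      simp [cX, hu]
    · rw [hs, coeff_brX_of_not_mem _ _ hu]
      simp [hu]
  -- invariance of the support
  have hmem : ∀ w ∈ Z, ∀ u, (u ∈ Subgroup.centralizer (P : Set X) ∧ IsPElt p u) →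
      (w * u ∈ Subgroup.centralizer (P : Set X) ∧ IsPElt p (w * u)) := by
    intro w hw u ⟨hu1, hu2⟩
    refine ⟨mul_mem (hZC hw) hu1, isPElt_mul ?_ (hZel w hw) hu2⟩
    exact (Subgroup.mem_centralizer_iff.1 hu1 w (hZP hw))
  have hinv : ∀ w ∈ Z, ∀ u, s.coeff (w * u) = s.coeff u := by
    intro w hw u
    rw [hcoef, hcoef]
    refine if_congr ⟨fun h => ?_, hmem w hw u⟩ rfl rfl
    have := hmem w⁻¹ (inv_mem hw) _ h
    rwa [inv_mul_cancel_left] at this
  have hws : ∀ w ∈ Z, MonoidAlgebra.single w (1 : k) * s = s := by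
    intro w hw
    apply ext_coeff
    intro g
    rw [MonoidAlgebra.coeff_single_mul_apply, one_mul, hinv _ (inv_mem hw)]
  -- the sum
  have hexp : s * s = ∑ u ∈ fs (Set.univ : Set X), s.coeff u • (MonoidAlgebra.single u (1 : k) * s) := by
    conv_lhs => rw [eq_sum_single s, Finset.sum_mul]
    refine Finset.sum_congr rfl fun u _ => ?_
    rw [← smul_mul_assoc, MonoidAlgebra.smul_single, smul_eq_mul, mul_one]
    rw [← eq_sum_single s]
  rw [hexp]
  have hM : ∀ m : MonoidAlgebra k X, p • m = 0 := by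
    intro m
    rw [← Nat.cast_smul_eq_nsmul k, CharP.cast_eq_zero, zero_smul]
  rw [sum_eq_sum_fixedPoints (P := Z) hZp hM
    (fun u => s.coeff u • (MonoidAlgebra.single u (1 : k) * s))]
  · apply Finset.sum_eq_zero
    intro u hu
    exfalso
    rw [mem_fs] at hu
    have := hu ⟨z, Subgroup.mem_zpowers z⟩
    rw [Subgroup.smul_def, smul_eq_mul] at this
    exact hz1 (mul_eq_right.1 this)
  · rintro ⟨w, hw⟩ u
    rw [Subgroup.smul_def, smul_eq_mul]
    show s.coeff (w * u) • (MonoidAlgebra.single (w * u) (1 : k) * s) = _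
    rw [hinv w hw]
    by_cases hu : u ∈ Subgroup.centralizer (P : Set X)
    · have hc : w * u = u * w := (Subgroup.mem_centralizer_iff.1 hu w (hZP hw))
      rw [hc, ← one_mul (1 : k), ← MonoidAlgebra.single_mul_single, mul_assoc, hws w hw, one_mul]
    · rw [hcoef u, if_neg (fun h => hu h.1), zero_smul, zero_smul]

/-- The coefficient of `g` in `c_X ^ 2` vanishes if `p ∣ |C(g)|` (Cauchy, `brX_mul`, `brX_cX_sq`). -/
theorem coeff_cX_sq [CharP k p] {g : X} (hg : p ∣ Nat.card (Subgroup.centralizer ({g} : Set X))) :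
    (cX p k X * cX p k X).coeff g = 0 := by
  obtain ⟨⟨y, hy⟩, hyo⟩ := exists_prime_orderOf_dvd_card' p hg
  have hyo' : orderOf y = p := by
    rw [← hyo]
    exact (Subgroup.orderOf_mk y hy).symm
  have hp : p.Prime := Fact.out
  set P : Subgroup X := Subgroup.zpowers y with hPdef
  have hP : IsPGroup p P := by
    apply IsPGroup.of_card (n := 1)
    rw [Nat.card_zpowers, hyo', pow_one]
  have hP1 : P ≠ ⊥ := by
    intro h
    rw [hPdef, Subgroup.zpowers_eq_bot] at h
    rw [h, orderOf_one] at hyo'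
    exact hp.one_lt.ne hyo'
  have hgC : g ∈ Subgroup.centralizer (P : Set X) := by
    rw [Subgroup.mem_centralizer_iff]
    intro w hw
    obtain ⟨n, rfl⟩ := Subgroup.mem_zpowers_iff.1 hw
    have h1 : Commute g y := (Subgroup.mem_centralizer_iff.1 hy g (Set.mem_singleton g))
    exact (h1.zpow_right n).symm.eq
  have h := brX_mul (k := k) P hP (isInv_of_mem_center (cX_mem_center (p := p) (k := k) (X := X)) P)
    (isInv_of_mem_center (cX_mem_center (p := p) (k := k) (X := X)) P)
  rw [brX_cX_sq P hP hP1] at h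
  rw [← coeff_brX_of_mem P _ hgC, h]
  rfl

theorem cX_sq_mul_rad [CharP k p] {r : MonoidAlgebra k X} (hr : r ∈ rad k X) :
    cX p k X * cX p k X * r = 0 :=
  central_mul_rad_of_supp (p := p)
    ((Submonoid.center (MonoidAlgebra k X)).mul_mem cX_mem_center cX_mem_center)
    (fun _ hg => coeff_cX_sq hg) hr

/-- `1 - c_X` is supported on `p`-singular elements. -/
theorem coeff_one_sub_cX {g : X} (hg : ¬ p ∣ orderOf g) : (1 - cX p k X).coeff g = 0 := by
  classical
  rw [MonoidAlgebra.coeff_sub, Finsupp.sub_apply, MonoidAlgebra.one_def, MonoidAlgebra.coeff_single]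
  by_cases h1 : g = 1
  · subst h1
    have : IsPElt p (1 : X) := ⟨0, by simp⟩
    simp [cX, this]
  · have : ¬ IsPElt p g := fun h => h1 (pparts_eq_one_of_isPElt_of_not_dvd h hg)
    simp [cX, this, Ne.symm h1]

end Claimed.Agent.R280.A
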