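import Claimed.Agent.R280.A.RegularB

/-!
# Row 280, part A, package RegularC: `l(X, e)` is the rank of `e` on the span of the `p`-regular
classes

`V = Vreg ⊕ Vrad` (`Vreg_inf_Vrad`, `Vreg_sup_Vrad`), both summands are stable under `cmul e`.
`commPlusRad k X = (cl k X)⁻¹ (Vrad k X)` by `ker_cl`, so `numSimplesInBlock e` is the dimension of
the image of `range (cmul e)` (`range_cmul`) in `V / Vrad`, which is isomorphic to
`cmul e (Vreg)`.
-/

namespace Claimed.Agent.R280.A

open Claims.C0453

variable {p : ℕ} [Fact p.Prime] {k : Type} [Field k] [CharP k p] {X : Type} [Group X] [Finite X]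

/-- The dimension of the image of a submodule under a map that is injective on it. -/
theorem regC_finrank_map_of_disjoint {V W : Type*} [AddCommGroup V] [Module k V] [AddCommGroup W]
    [Module k W] (F : V →ₗ[k] W) (S : Submodule k V) (h : S ⊓ LinearMap.ker F = ⊥) :
    Module.finrank k (S.map F) = Module.finrank k S := by
  rw [← LinearMap.range_domRestrict]
  apply LinearMap.finrank_range_of_inj
  rw [← LinearMap.ker_eq_bot, LinearMap.ker_eq_bot']
  intro x hx
  have h1 : (x : V) ∈ S ⊓ LinearMap.ker F := ⟨x.2, hx⟩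
  rw [h, Submodule.mem_bot] at h1
  exact Subtype.ext h1

theorem regC_finrank_map_mkQ {V W : Type*} [AddCommGroup V] [Module k V] [AddCommGroup W]
    [Module k W] (F : V →ₗ[k] W) (N' : Submodule k W) (S : Submodule k V) :
    Module.finrank k ((S.map F).map N'.mkQ) = Module.finrank k (S.map (N'.comap F).mkQ) := by
  let G : (V ⧸ N'.comap F) →ₗ[k] (W ⧸ N') := (N'.comap F).mapQ N' F le_rfl
  have hG : LinearMap.ker G = ⊥ := by
    rw [LinearMap.ker_eq_bot']
    intro x hx
    obtain ⟨x, rfl⟩ := (N'.comap F).mkQ_surjective x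
    have h1 : N'.mkQ (F x) = 0 := hx
    rw [Submodule.mkQ_apply, Submodule.Quotient.mk_eq_zero] at h1
    rw [Submodule.mkQ_apply, Submodule.Quotient.mk_eq_zero]
    exact h1
  have hmap : (S.map F).map N'.mkQ = (S.map (N'.comap F).mkQ).map G := by
    rw [← Submodule.map_comp, ← Submodule.map_comp]
    rfl
  rw [hmap, regC_finrank_map_of_disjoint G _ (by rw [hG, inf_bot_eq])]

theorem regC_commPlusRad_eq : commPlusRad k X = (Vrad k X).comap (cl k X) := by
  rw [Vrad, Submodule.comap_map_eq, ker_cl, sup_comm]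
  rfl

/-- **`l` is the rank on the `p`-regular classes.** -/
theorem numSimples_eq_finrank [IsAlgClosed k] {e : MonoidAlgebra k X} (he : IsCI e) :
    numSimplesInBlock e = Module.finrank k ((Vreg p k X).map (cmul e)) := by
  have : PerfectRing k p := PerfectField.toPerfectRing p
  have h1 : numSimplesInBlock e =
      Module.finrank k ((LinearMap.range (cmul e)).map (Vrad k X).mkQ) := by
    rw [range_cmul e he.1, regC_finrank_map_mkQ, ← regC_commPlusRad_eq]
    rfl
  have h2 : (LinearMap.range (cmul e)).map (Vrad k X).mkQ =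
      ((Vreg p k X).map (cmul e)).map (Vrad k X).mkQ := by
    rw [LinearMap.range_eq_map, ← Vreg_sup_Vrad (p := p), Submodule.map_sup, Submodule.map_sup]
    have h3 : ((Vrad k X).map (cmul e)).map (Vrad k X).mkQ = ⊥ := by
      rw [eq_bot_iff]
      rintro _ ⟨y, hy, rfl⟩
      rw [Submodule.mem_bot, Submodule.mkQ_apply, Submodule.Quotient.mk_eq_zero]
      exact map_cmul_Vrad_le he.1 hy
    rw [h3, sup_bot_eq]
  rw [h1, h2]
  apply regC_finrank_map_of_disjoint
  rw [Submodule.ker_mkQ, eq_bot_iff, ← Vreg_inf_Vrad (p := p)]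
  exact inf_le_inf_right _ (map_cmul_Vreg_le he)

/-- A central idempotent that kills the radical has its cocenter inside `Vreg`. -/
theorem range_cmul_le_Vreg [IsAlgClosed k] {e : MonoidAlgebra k X} (he : IsCI e)
    (h0 : ∀ r ∈ rad k X, e * r = 0) : LinearMap.range (cmul e) ≤ Vreg p k X := by
  have : PerfectRing k p := PerfectField.toPerfectRing p
  rintro _ ⟨f, rfl⟩
  have hf : f ∈ Vreg p k X ⊔ Vrad k X := by rw [Vreg_sup_Vrad]; trivial
  obtain ⟨f1, hf1, f2, ⟨r, hr, rfl⟩, rfl⟩ := Submodule.mem_sup.1 hf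
  rw [map_add, ← cl_central_mul e he.1, h0 r hr, map_zero, add_zero]
  exact map_cmul_Vreg_le he ⟨f1, hf1, rfl⟩

end Claimed.Agent.R280.A
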