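import Claimed.Agent.R280.A.DetectA
import Claimed.Agent.R280.A.Blocks
import Claimed.Agent.R280.A.Regular

/-!
# Row 280, part A, package DetectB: the defect zero part of a group algebra
(`lem:defect-zero-detection`, `lem:detecting-element`), in the language "equal modulo nilpotents"
-/

namespace Claimed.Agent.R280.A

open Claims.C0453

variable {p : ℕ} [Fact p.Prime] {k : Type} [Field k] {X : Type} [Group X] [Finite X]

open Classical in
/-- The sum of the defect zero blocks. -/
noncomputable def eps (k : Type) [Field k] (X : Type) [Group X] [Finite X] : MonoidAlgebra k X :=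
  ∑ b ∈ (blocks k X).filter (fun b => IsDefectZeroBlock b), b

theorem eps_eqns_cite : True := by
  have := @eps.eq_1
  trivial

/-- A sum of blocks is a central idempotent. -/
theorem detB_sum_isCI (S : Finset (MonoidAlgebra k X)) (hS : ∀ b ∈ S, IsBlockIdempotent b) :
    IsCI (∑ b ∈ S, b) := by
  classical
  constructor
  · exact (Subring.center (MonoidAlgebra k X)).sum_mem fun b hb => (hS b hb).1
  · show (∑ b ∈ S, b) * (∑ b ∈ S, b) = ∑ b ∈ S, b
    rw [Finset.sum_mul_sum]
    apply Finset.sum_congr rfl
    intro b hb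
    rw [Finset.sum_eq_single b]
    · exact (hS b hb).2.1
    · intro b' hb' hne
      exact block_mul_block (hS b hb) (hS b' hb') (Ne.symm hne)
    · intro h; exact absurd hb h

theorem eps_isCI : IsCI (eps k X) := by
  classical
  apply detB_sum_isCI
  intro b hb
  exact mem_blocks.1 (Finset.mem_filter.1 hb).1

theorem eps_mul_rad {r : MonoidAlgebra k X} (hr : r ∈ rad k X) : eps k X * r = 0 := by
  classical
  rw [eps, Finset.sum_mul]
  apply Finset.sum_eq_zero
  intro b hb
  exact (Finset.mem_filter.1 hb).2.2 r hr

open Classical in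
theorem detB_one_sub_eps : 1 - eps k X =
    ∑ b ∈ (blocks k X).filter (fun b => ¬ IsDefectZeroBlock b), b := by
  rw [sub_eq_iff_eq_add, eps, add_comm, Finset.sum_filter_add_sum_filter_not, sum_blocks]

/-- A central element that kills the radical is nilpotent outside the defect zero blocks: on a
block `b` with `b * rad ≠ 0` it cannot be invertible (`block_nilpotent_or_unit`); sum over the blocks
(`sum_blocks`), commuting nilpotents. -/
theorem isNilpotent_mul_one_sub_eps {z : MonoidAlgebra k X}
    (hz : z ∈ Set.center (MonoidAlgebra k X)) (h : ∀ r ∈ rad k X, z * r = 0) :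
    IsNilpotent (z * (1 - eps k X)) := by
  classical
  rw [detB_one_sub_eps, Finset.mul_sum]
  apply Commute.isNilpotent_sum
  · intro b hb
    obtain ⟨hb1, hb2⟩ := Finset.mem_filter.1 hb
    have hbb := mem_blocks.1 hb1
    rcases block_nilpotent_or_unit hbb hz with hn | ⟨y, hy, hyb⟩
    · exact hn
    · exfalso
      apply hb2
      refine ⟨hbb, fun r hr => ?_⟩
      have hzc : ∀ a, a * z = z * a := Semigroup.mem_center_iff.1 hz
      calc b * r = z * y * b * r := by rw [hyb]
        _ = y * b * (z * r) := by
          rw [← hzc y, mul_assoc y z b, ← hzc b, ← mul_assoc y b z, mul_assoc (y * b) z r]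
        _ = 0 := by rw [h r hr, mul_zero]
  · intro b b' hb hb'
    have hzb : z * b ∈ Set.center (MonoidAlgebra k X) :=
      Set.mul_mem_center hz (mem_blocks.1 (Finset.mem_filter.1 hb).1).1
    exact (Semigroup.mem_center_iff.1 hzb (z * b')).symm

/-- The pairing of a central element supported on the `p`-singular elements with an element whose
class function is supported on the `p`-regular classes vanishes. -/
theorem detB_coeff_one_sing_mul {y : MonoidAlgebra k X}
    (hy : y ∈ Set.center (MonoidAlgebra k X))
    (hys : ∀ g : X, ¬ p ∣ orderOf g → y.coeff g = 0) {a : MonoidAlgebra k X}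
    (ha : cl k X a ∈ Vreg p k X) : (y * a).coeff 1 = 0 := by
  rw [coeff_one_central_mul y hy]
  apply Finset.sum_eq_zero
  intro c _
  by_cases hc : p ∣ orderOf (Quotient.out c)
  · have h1 := ha (Quotient.out c) hc
    have h2 : ConjClasses.mk (Quotient.out c) = c := Quotient.out_eq c
    rw [h2] at h1
    rw [h1, mul_zero]
  · rw [hys _ (by rwa [orderOf_inv]), zero_mul]

theorem detB_coeff_eq (a : MonoidAlgebra k X) (g : X) :
    a.coeff g = (a * MonoidAlgebra.single g⁻¹ 1).coeff 1 := by
  rw [MonoidAlgebra.coeff_mul_single_apply]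
  simp

/-- Central idempotents preserve the `p`-singular part of the centre:
`(E y)_g = τ (y (E g⁻¹))`, `cl (E g⁻¹) ∈ Vreg` (`map_cmul_Vreg_le`), `coeff_one_central_mul`. -/
theorem coeff_ci_mul_sing [CharP k p] [IsAlgClosed k] {E : MonoidAlgebra k X} (hE : IsCI E)
    {y : MonoidAlgebra k X} (hy : y ∈ Set.center (MonoidAlgebra k X))
    (hys : ∀ g : X, ¬ p ∣ orderOf g → y.coeff g = 0) {g : X} (hg : ¬ p ∣ orderOf g) :
    (E * y).coeff g = 0 := by
  have : PerfectRing k p := PerfectField.toPerfectRing p
  rw [detB_coeff_eq, Semigroup.mem_center_iff.1 hy E, mul_assoc]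
  apply detB_coeff_one_sing_mul (p := p) hy hys
  rw [cl_central_mul E hE.1]
  apply map_cmul_Vreg_le hE
  exact ⟨_, regA_cl_single_mem_Vreg (by rwa [orderOf_inv]) 1, rfl⟩

/-- A central idempotent that kills the radical kills the `p`-singular part of the centre:
`τ (e y a) = τ (y (e a))`, `cl (e a) ∈ Vreg` (`range_cmul_le_Vreg`). -/
theorem ci_mul_sing_eq_zero [CharP k p] [IsAlgClosed k] {e : MonoidAlgebra k X} (he : IsCI e)
    (h0 : ∀ r ∈ rad k X, e * r = 0) {y : MonoidAlgebra k X}
    (hy : y ∈ Set.center (MonoidAlgebra k X))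
    (hys : ∀ g : X, ¬ p ∣ orderOf g → y.coeff g = 0) : e * y = 0 := by
  apply ext_coeff
  intro g
  rw [detB_coeff_eq, Semigroup.mem_center_iff.1 hy e, mul_assoc]
  rw [detB_coeff_one_sing_mul (p := p) hy hys]
  · simp
  · rw [cl_central_mul e he.1]
    exact range_cmul_le_Vreg he h0 ⟨_, rfl⟩

end Claimed.Agent.R280.A
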