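import Claimed.Agent.R280.A.DetectB

/-!
# Row 280, part A, package DetectC: `κ` of the defect zero part
-/

namespace Claimed.Agent.R280.A

open Claims.C0453

variable {p : ℕ} [Fact p.Prime] {k : Type} [Field k] {X : Type} [Group X] [Finite X]

theorem kap_add {e f : MonoidAlgebra k X} (he : IsCI e) (hf : IsCI f) (hef : e * f = 0) :
    kap (e + f) = kap e + kap f := by
  have hfe : f * e = 0 := by rw [Semigroup.mem_center_iff.1 he.1 f, hef]
  have hee : cmul e ∘ₗ cmul e = cmul e := by rw [← cmul_mul e e he.1, he.2.eq]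
  have hff : cmul f ∘ₗ cmul f = cmul f := by rw [← cmul_mul f f hf.1, hf.2.eq]
  have hef' : cmul e ∘ₗ cmul f = 0 := by rw [← cmul_mul e f he.1, hef, cmul_zero]
  have hfe' : cmul f ∘ₗ cmul e = 0 := by rw [← cmul_mul f e hf.1, hfe, cmul_zero]
  have hrange : LinearMap.range (cmul (e + f)) =
      LinearMap.range (cmul e) ⊔ LinearMap.range (cmul f) := by
    apply le_antisymm
    · rintro _ ⟨x, rfl⟩
      rw [cmul_add, LinearMap.add_apply]
      exact Submodule.add_mem_sup ⟨x, rfl⟩ ⟨x, rfl⟩
    · rw [sup_le_iff]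
      constructor
      · rintro _ ⟨x, rfl⟩
        refine ⟨cmul e x, ?_⟩
        rw [cmul_add, LinearMap.add_apply]
        have h1 : cmul e (cmul e x) = cmul e x := LinearMap.congr_fun hee x
        have h2 : cmul f (cmul e x) = 0 := LinearMap.congr_fun hfe' x
        rw [h1, h2, add_zero]
      · rintro _ ⟨x, rfl⟩
        refine ⟨cmul f x, ?_⟩
        rw [cmul_add, LinearMap.add_apply]
        have h1 : cmul f (cmul f x) = cmul f x := LinearMap.congr_fun hff x
        have h2 : cmul e (cmul f x) = 0 := LinearMap.congr_fun hef' x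
        rw [h1, h2, zero_add]
  have hdisj : LinearMap.range (cmul e) ⊓ LinearMap.range (cmul f) = ⊥ := by
    rw [eq_bot_iff]
    rintro v ⟨⟨x, hx⟩, ⟨y, hy⟩⟩
    rw [Submodule.mem_bot]
    have h1 : cmul e v = v := by
      rw [← hx]; exact LinearMap.congr_fun hee x
    have h2 : cmul e v = 0 := by
      rw [← hy]; exact LinearMap.congr_fun hef' y
    rw [← h1, h2]
  have h := Submodule.finrank_sup_add_finrank_inf_eq (LinearMap.range (cmul e))
    (LinearMap.range (cmul f))
  rw [hdisj, finrank_bot, add_zero] at h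
  rw [kap, kap, kap, hrange, h]

open Classical in
/-- The sum of the inverses of the elements of a class. -/
noncomputable def detC_K (k : Type) [Field k] {X : Type} [Group X] [Finite X]
    (c : ConjClasses X) : MonoidAlgebra k X :=
  ofFun fun g => if ConjClasses.mk g⁻¹ = c then 1 else 0

theorem detC_K_eqns_cite : True := by
  have := @detC_K.eq_1
  trivial

theorem detC_K_mem_center (c : ConjClasses X) :
    detC_K k c ∈ Set.center (MonoidAlgebra k X) := by
  classical
  rw [mem_center_iff]
  intro x g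
  have h : ConjClasses.mk (x * g * x⁻¹)⁻¹ = ConjClasses.mk g⁻¹ := by
    apply ConjClasses.mk_eq_mk_iff_isConj.2
    apply IsConj.symm
    rw [isConj_iff]
    exact ⟨x, by group⟩
  simp only [detC_K, coeff_ofFun, h]

theorem detC_coeff_one_K_mul (c : ConjClasses X) (a : MonoidAlgebra k X) :
    (detC_K k c * a).coeff 1 = cl k X a c := by
  classical
  rw [coeff_one_central_mul _ (detC_K_mem_center c), Finset.sum_eq_single c]
  · have h : ConjClasses.mk (Quotient.out c) = c := Quotient.out_eq c
    simp [detC_K, h]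
  · intro c' _ hne
    have h : ConjClasses.mk (Quotient.out c') = c' := Quotient.out_eq c'
    simp [detC_K, h, hne]
  · intro h; simp at h

theorem detC_cl_mk_one (a : MonoidAlgebra k X) : cl k X a (ConjClasses.mk 1) = a.coeff 1 := by
  rw [cl_apply]
  have h : fs {g : X | ConjClasses.mk g = ConjClasses.mk 1} = {1} := by
    ext g
    simp only [mem_fs, Set.mem_ofPred_eq, Finset.mem_singleton]
    rw [ConjClasses.mk_eq_mk_iff_isConj, isConj_one_left]
  rw [h, Finset.sum_singleton]

/-- On a defect zero block every central element acts as a scalar. -/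
theorem detC_central_mul_eq_smul [IsAlgClosed k] {b : MonoidAlgebra k X}
    (hb : IsDefectZeroBlock b) {z : MonoidAlgebra k X}
    (hz : z ∈ Set.center (MonoidAlgebra k X)) : ∃ μ : k, z * b = μ • b := by
  obtain ⟨μ, hμ⟩ := block_exists_eigenvalue hb.1 hz
  refine ⟨μ, ?_⟩
  have hc : (z - algebraMap k (MonoidAlgebra k X) μ) * b ∈ Set.center (MonoidAlgebra k X) := by
    apply Set.mul_mem_center _ hb.1.1
    exact (Subalgebra.center k (MonoidAlgebra k X)).sub_mem hz
      ((Subalgebra.center k (MonoidAlgebra k X)).algebraMap_mem μ)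
  have hr := mem_rad_of_central_of_isNilpotent hc hμ
  have h0 := hb.2 _ hr
  have hbb : b * b = b := hb.1.2.1
  have h1 : b * ((z - algebraMap k (MonoidAlgebra k X) μ) * b) =
      (z - algebraMap k (MonoidAlgebra k X) μ) * b := by
    rw [← mul_assoc, ← Semigroup.mem_center_iff.1 hb.1.1, mul_assoc, hbb]
  rw [h1, sub_mul, sub_eq_zero, ← Algebra.smul_def] at h0
  exact h0

/-- A defect zero block has one dimensional cocenter.  For central `z` there is `μ` with
`(z - μ) b` nilpotent, central, so in the radical, so `(z - μ) b = b (z - μ) b = 0`.  Hence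
`cl (b a) c = τ (K b a) = μ_c τ (b a)` where `K = ∑_{g ∈ c} g⁻¹`: the range of `cmul b` is spanned by
`(μ_c)_c`.  It is not zero since `τ (b a) = cl (b a) (mk 1)`. -/
theorem kap_defectZero [IsAlgClosed k] {b : MonoidAlgebra k X} (hb : IsDefectZeroBlock b) :
    kap b = 1 := by
  have hμ : ∀ c : ConjClasses X, ∃ μ : k, detC_K k c * b = μ • b := fun c =>
    detC_central_mul_eq_smul hb (detC_K_mem_center c)
  choose μ hμ using hμ
  have hcl : ∀ (a : MonoidAlgebra k X) (c : ConjClasses X),
      cl k X (b * a) c = μ c * (b * a).coeff 1 := by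
    intro a c
    rw [← detC_coeff_one_K_mul, ← mul_assoc, hμ, smul_mul_assoc]
    simp
  -- an element with nonzero trace
  obtain ⟨g, hg⟩ : ∃ g : X, b.coeff g ≠ 0 := by
    by_contra hcon
    push Not at hcon
    exact hb.1.2.2.1 (ext_coeff fun g => by rw [hcon g]; simp)
  have hτ : (b * MonoidAlgebra.single g⁻¹ 1).coeff 1 ≠ 0 := by
    rw [← detB_coeff_eq]; exact hg
  rw [kap, finrank_eq_one_iff']
  refine ⟨⟨cl k X (b * MonoidAlgebra.single g⁻¹ 1), ?_⟩, ?_, ?_⟩
  · rw [cl_central_mul b hb.1.1]; exact ⟨_, rfl⟩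
  · intro h
    have h1 : cl k X (b * MonoidAlgebra.single g⁻¹ 1) = 0 := congrArg Subtype.val h
    apply hτ
    rw [← detC_cl_mk_one, h1]
    rfl
  · rintro ⟨_, ⟨f, rfl⟩⟩
    refine ⟨(b * sec k X f).coeff 1 / (b * MonoidAlgebra.single g⁻¹ 1).coeff 1, ?_⟩
    apply Subtype.ext
    have h1 : cmul b f = cl k X (b * sec k X f) := rfl
    show _ • cl k X (b * MonoidAlgebra.single g⁻¹ 1) = cmul b f
    rw [h1]
    funext c
    rw [Pi.smul_apply, hcl, hcl, smul_eq_mul]
    field_simp

theorem detC_kap_sum [IsAlgClosed k] (S : Finset (MonoidAlgebra k X))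
    (hS : ∀ b ∈ S, IsDefectZeroBlock b) : kap (∑ b ∈ S, b) = S.card := by
  classical
  induction S using Finset.induction_on with
  | empty =>
    rw [Finset.sum_empty, kap, cmul_zero, LinearMap.range_zero, finrank_bot, Finset.card_empty]
  | insert b S hbS ih =>
    rw [Finset.sum_insert hbS, Finset.card_insert_of_notMem hbS,
      kap_add (IsCI.of_block (hS b (by simp)).1)
        (detB_sum_isCI S fun b' hb' => (hS b' (by simp [hb'])).1),
      kap_defectZero (hS b (by simp)), ih fun b' hb' => hS b' (by simp [hb']), add_comm]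
    rw [Finset.mul_sum]
    apply Finset.sum_eq_zero
    intro b' hb'
    exact block_mul_block (hS b (by simp)).1 (hS b' (by simp [hb'])).1
      (fun h => hbS (h ▸ hb'))

theorem kap_mul_eps [IsAlgClosed k] {E : MonoidAlgebra k X} (hE : IsCI E) :
    kap (E * eps k X) = zCount E := by
  classical
  have h1 : E * eps k X = ∑ b ∈ (blocks k X).filter
      (fun b => IsDefectZeroBlock b ∧ E * b = b), b := by
    rw [eps, Finset.mul_sum, ← Finset.filter_filter, Finset.sum_filter
      (s := (blocks k X).filter fun b => IsDefectZeroBlock b)]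
    apply Finset.sum_congr rfl
    intro b hb
    rcases ci_mul_block hE (mem_blocks.1 (Finset.mem_filter.1 hb).1) with h | h
    · rw [if_pos h, h]
    · by_cases h' : E * b = b
      · rw [if_pos h', h']
      · rw [if_neg h', h]
  rw [h1, detC_kap_sum _ fun b hb => (Finset.mem_filter.1 hb).2.1, zCount]
  symm
  apply Nat.subtype_card
  intro b
  rw [Finset.mem_filter, mem_blocks]
  exact ⟨fun h => h.2, fun h => ⟨h.1.1, h⟩⟩

end Claimed.Agent.R280.A
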