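import Claimed.Agent.R280.A.PSum

/-!
# Row 280, part A, package Frob: `p`-th powers modulo commutators (`lem:cocenter-ranks`, first
paragraph)

`A` a ring of characteristic `p`.  `commS A` is the additive subgroup generated by the commutators.
Expand `(∑ i ∈ s, x i) ^ p` as a sum over the words `w : Fin p → ι` (induction on the exponent:
`sum_pow_eq_sum_words`); the cyclic group `ZMod p` (or `Multiplicative (ZMod p)`) rotates the words,
the class of the product of a word modulo commutators is invariant under rotation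
(`u * v ≡ v * u`), the fixed words are the constant ones: apply `sum_eq_sum_fixed` in
`A ⧸ commS A`.
-/

namespace Claimed.Agent.R280.A

variable {p : ℕ} [Fact p.Prime]

/-- The additive subgroup generated by the commutators. -/
def commS (A : Type*) [Ring A] : AddSubgroup A :=
  AddSubgroup.closure {x | ∃ u v : A, x = u * v - v * u}

theorem commS_eqns_cite : True := by
  have := @commS.eq_1.{0}
  trivial

theorem sum_pow_eq_sum_words {A : Type*} [Ring A] {ι : Type*} (s : Finset ι) (x : ι → A) (n : ℕ) :
    (∑ i ∈ s, x i) ^ n = ∑ w ∈ Fintype.piFinset (fun _ : Fin n => s),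
      (List.ofFn fun j => x (w j)).prod := by
  classical
  induction n with
  | zero => simp
  | succ n ih =>
    rw [pow_succ', ih, Finset.sum_mul_sum, ← Finset.sum_product']
    refine Finset.sum_nbij' (fun iw => Fin.cons iw.1 iw.2) (fun w => (w 0, Fin.tail w)) ?_ ?_ ?_ ?_ ?_
    · rintro ⟨i, w⟩ h
      simp only [Finset.mem_product, Fintype.mem_piFinset] at h ⊢
      intro j
      refine Fin.cases ?_ ?_ j
      · simpa using h.1
      · intro j; simpa using h.2 j
    · intro w h
      simp only [Finset.mem_product, Fintype.mem_piFinset] at h ⊢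
      exact ⟨h 0, fun j => h j.succ⟩
    · rintro ⟨i, w⟩ _
      simp
    · intro w _
      simp
    · rintro ⟨i, w⟩ _
      rw [List.ofFn_succ]
      simp

theorem frob_rot {A : Type*} [Ring A] (n : ℕ) (y : Fin (n + 1) → A) :
    (List.ofFn (fun j => y (finRotate (n + 1) j))).prod - (List.ofFn y).prod ∈ commS A := by
  rw [List.ofFn_succ_last, List.ofFn_succ (f := y)]
  have h : ∀ i : Fin n, finRotate (n + 1) i.castSucc = i.succ := by
    intro i
    rw [finRotate_apply]
    simp
  simp only [List.prod_append, List.prod_cons, List.prod_nil, mul_one, finRotate_last, h]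
  exact AddSubgroup.subset_closure ⟨_, _, rfl⟩

/-- `(∑ x i) ^ p ≡ ∑ (x i) ^ p` modulo commutators. -/
theorem sum_pow_char_sub_mem_commS {A : Type*} [Ring A] [CharP A p] {ι : Type*} (s : Finset ι)
    (x : ι → A) : (∑ i ∈ s, x i) ^ p - ∑ i ∈ s, x i ^ p ∈ commS A := by
  classical
  have hp : p.Prime := Fact.out
  obtain ⟨n, rfl⟩ : ∃ n, p = n + 1 := ⟨p - 1, by have := hp.pos; omega⟩
  have hM : ∀ m : A ⧸ commS A, (n + 1) • m = 0 := by
    intro m
    obtain ⟨a, rfl⟩ := QuotientAddGroup.mk_surjective m
    have h0 : (n + 1) • a = 0 := by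
      rw [nsmul_eq_mul, CharP.cast_eq_zero, zero_mul]
    have h1 : ((n + 1) • (QuotientAddGroup.mk' (commS A) a)) = 0 := by
      rw [← map_nsmul, h0, map_zero]
    exact h1
  let f : (Fin (n + 1) → ↥s) → A ⧸ commS A :=
    fun w => QuotientAddGroup.mk' (commS A) (List.ofFn fun j => x (w j)).prod
  have hinv1 : ∀ w : Fin (n + 1) → ↥s, f (fun j => w (finRotate (n + 1) j)) = f w := by
    intro w
    exact (QuotientAddGroup.eq_iff_sub_mem).2 (frob_rot n (fun j => x (w j)))
  let H : Subgroup (Equiv.Perm (Fin (n + 1))) :=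
    { carrier := {g | ∀ w : Fin (n + 1) → ↥s, f (fun j => w (g j)) = f w}
      one_mem' := fun w => rfl
      mul_mem' := by
        intro a b ha hb w
        have h1 := hb (fun j => w (a j))
        exact h1.trans (ha w)
      inv_mem' := by
        intro a ha w
        have h1 := ha (fun j => w (a⁻¹ j))
        have h2 : (fun j => w (a⁻¹ (a j))) = w := by
          funext j; simp
        rw [h2] at h1
        exact h1.symm }
  have hH : Subgroup.zpowers (finRotate (n + 1)) ≤ H := by
    rw [Subgroup.zpowers_le]
    exact hinv1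
  let _ : MulAction (Subgroup.zpowers (finRotate (n + 1))) (Fin (n + 1) → ↥s) := arrowAction
  have hsm : ∀ (g : Subgroup.zpowers (finRotate (n + 1))) (w : Fin (n + 1) → ↥s),
      g • w = fun j => w ((g⁻¹ : Subgroup.zpowers (finRotate (n + 1))).1 j) := fun g w => rfl
  have hP : IsPGroup (n + 1) (Subgroup.zpowers (finRotate (n + 1))) := by
    apply IsPGroup.of_card (n := 1)
    rw [Nat.card_zpowers, (isCycle_finRotate_of_le hp.two_le).orderOf,
      support_finRotate_of_le hp.two_le]
    simp
  have key := sum_eq_sum_fixedPoints hP hM f (by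
    intro g w
    rw [hsm]
    exact hH (g⁻¹).2 w)
  have hfix : ∀ w : Fin (n + 1) → ↥s,
      w ∈ MulAction.fixedPoints (Subgroup.zpowers (finRotate (n + 1))) (Fin (n + 1) → ↥s) ↔
        w = fun _ => w 0 := by
    intro w
    constructor
    · intro hw
      have h1 := hw (⟨finRotate (n + 1), Subgroup.mem_zpowers _⟩⁻¹)
      rw [hsm] at h1
      simp only [inv_inv] at h1
      funext j
      induction j using Fin.induction with
      | zero => rfl
      | succ j ih =>
        have h2 := congrFun h1 j.castSucc
        have h3 : finRotate (n + 1) j.castSucc = j.succ := by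
          rw [finRotate_apply]; simp
        simp only [h3] at h2
        rw [h2, ih]
    · intro hw g
      rw [hsm, hw]
  have hsumfix : ∑ w ∈ fs (MulAction.fixedPoints (Subgroup.zpowers (finRotate (n + 1)))
      (Fin (n + 1) → ↥s)), f w = ∑ i : ↥s, QuotientAddGroup.mk' (commS A) (x i ^ (n + 1)) := by
    refine Finset.sum_nbij' (fun w => w 0) (fun i => fun _ => i) ?_ ?_ ?_ ?_ ?_
    · intro w _; exact Finset.mem_univ _
    · intro i _
      rw [mem_fs, hfix]
    · intro w hw
      rw [mem_fs, hfix] at hw
      exact hw.symm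
    · intro i _; rfl
    · intro w hw
      rw [mem_fs, hfix] at hw
      rw [hw]
      simp only [f]
      rw [List.ofFn_const, List.prod_replicate]
  have hall : ∑ w ∈ fs (Set.univ : Set (Fin (n + 1) → ↥s)), f w =
      QuotientAddGroup.mk' (commS A) ((∑ i ∈ s, x i) ^ (n + 1)) := by
    rw [← Finset.sum_coe_sort s x, sum_pow_eq_sum_words, map_sum, Fintype.piFinset_univ]
    apply Finset.sum_congr _ (fun _ _ => rfl)
    ext w; simp
  rw [hall, hsumfix, ← map_sum, Finset.sum_coe_sort s (fun i => x i ^ (n + 1))] at key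
  exact (QuotientAddGroup.eq_iff_sub_mem).1 key

theorem add_pow_char_sub_mem_commS {A : Type*} [Ring A] [CharP A p] (a b : A) :
    (a + b) ^ p - (a ^ p + b ^ p) ∈ commS A := by
  have := sum_pow_char_sub_mem_commS (p := p) (Finset.univ : Finset (Fin 2)) ![a, b]
  simpa [Fin.sum_univ_two] using this

theorem frob_sub_pow_mem {A : Type*} [Ring A] [CharP A p] {a b : A}
    (h : (a - b) ^ p ∈ commS A) : a ^ p - b ^ p ∈ commS A := by
  have h1 := add_pow_char_sub_mem_commS (p := p) (a - b) b
  rw [sub_add_cancel] at h1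
  have h2 := (commS A).add_mem h1 h
  have e : a ^ p - ((a - b) ^ p + b ^ p) + (a - b) ^ p = a ^ p - b ^ p := by abel
  rwa [e] at h2

/-- `(u v) ^ p ≡ (v u) ^ p`, hence the `p`-th power of an element of `commS A` is in `commS A`. -/
theorem pow_char_mem_commS {A : Type*} [Ring A] [CharP A p] {a : A} (ha : a ∈ commS A) :
    a ^ p ∈ commS A := by
  have hp : p.Prime := Fact.out
  induction ha using AddSubgroup.closure_induction with
  | mem c hc =>
    obtain ⟨u, v, rfl⟩ := hc
    -- `(u v) ^ p - (v u) ^ p` is a commutator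
    have h1 : (u * v) ^ p - (v * u) ^ p ∈ commS A := by
      obtain ⟨n, hn⟩ : ∃ n, p = n + 1 := ⟨p - 1, by have := hp.pos; omega⟩
      refine AddSubgroup.subset_closure ⟨u, v * (u * v) ^ n, ?_⟩
      have e1 : (u * v) ^ p = u * (v * (u * v) ^ n) := by
        rw [hn, pow_succ', mul_assoc]
      have e2 : ∀ m : ℕ, v * (u * v) ^ m * u = (v * u) ^ (m + 1) := by
        intro m
        induction m with
        | zero => simp
        | succ m ih =>
          rw [pow_succ (v * u) (m + 1), ← ih, pow_succ (u * v) m]
          simp only [mul_assoc]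
      rw [e1, e2 n, hn]
    have h2 := add_pow_char_sub_mem_commS (p := p) (u * v - v * u) (v * u)
    rw [sub_add_cancel] at h2
    have h3 := (commS A).sub_mem h1 h2
    have e : (u * v) ^ p - (v * u) ^ p - ((u * v) ^ p - ((u * v - v * u) ^ p + (v * u) ^ p)) =
        (u * v - v * u) ^ p := by abel
    rwa [e] at h3
  | zero => rw [zero_pow hp.ne_zero]; exact (commS A).zero_mem
  | add a b _ _ iha ihb =>
    have h1 := add_pow_char_sub_mem_commS (p := p) a b
    have h2 := (commS A).add_mem h1 ((commS A).add_mem iha ihb)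
    rwa [sub_add_cancel] at h2
  | neg a _ iha =>
    have h1 := add_pow_char_sub_mem_commS (p := p) a (-a)
    rw [add_neg_cancel, zero_pow hp.ne_zero] at h1
    have h2 := (commS A).neg_mem ((commS A).add_mem h1 iha)
    have e : -(0 - (a ^ p + (-a) ^ p) + a ^ p) = (-a) ^ p := by abel
    rwa [e] at h2

theorem frob_sub_pow_mem' {A : Type*} [Ring A] [CharP A p] {a b : A}
    (h : a - b ∈ commS A) : a ^ p - b ^ p ∈ commS A :=
  frob_sub_pow_mem (pow_char_mem_commS h)

/-- Iterated version. -/
theorem sum_pow_char_pow_sub_mem_commS {A : Type*} [Ring A] [CharP A p] {ι : Type*}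
    (s : Finset ι) (x : ι → A) (m : ℕ) :
    (∑ i ∈ s, x i) ^ p ^ m - ∑ i ∈ s, x i ^ p ^ m ∈ commS A := by
  induction m with
  | zero => simp [(commS A).zero_mem]
  | succ m ih =>
    have h1 := frob_sub_pow_mem' (p := p) ih
    have h2 := sum_pow_char_sub_mem_commS (p := p) s (fun i => x i ^ p ^ m)
    have h3 := (commS A).add_mem h1 h2
    rw [sub_add_sub_cancel] at h3
    simpa only [pow_succ, pow_mul] using h3

theorem pow_char_pow_sub_mem_commS {A : Type*} [Ring A] [CharP A p] {a b : A}
    (h : a - b ∈ commS A) (m : ℕ) : a ^ p ^ m - b ^ p ^ m ∈ commS A := by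
  induction m with
  | zero => simpa using h
  | succ m ih =>
    have h1 := frob_sub_pow_mem' (p := p) ih
    simpa only [pow_succ, pow_mul] using h1

end Claimed.Agent.R280.A
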