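import Claimed.Agent.R280.A.Cocenter

/-!
# Row 280, part A, package TraceMat: the trace limit as linear algebra (`lem:trace-limit`)

`O / p O = k`.  Let `T` be an endomorphism of `O ^ ι` whose reduction `Tb` satisfies
`Tb ^ p ^ r = e` with `e` idempotent.  Then `tr (T ^ p ^ (r + j)) ≡ rank e` modulo `p ^ (j + 1)`.

Proof.  `N = T ^ p ^ r`; `N ^ 2 - N` has all entries in `p O`.  For commuting `a, b` in a ring `A`
with `a - b ∈ p A` one has `a ^ p ^ j - b ^ p ^ j ∈ p ^ (j + 1) A`
(`a ^ p - b ^ p = (a - b) ∑ a ^ i b ^ (p - 1 - i)` and the second factor is `≡ p b ^ (p - 1)`).  So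
`F = N ^ p ^ j` is idempotent modulo `p ^ (j + 1)`.  `O' = O / p ^ (j + 1)` is a local ring with
residue field `k` (`p` is nilpotent, `O' / p = k`).  The image and the kernel of the idempotent `F'`
on `O' ^ ι` are finite projective, hence free (`Module.free_of_flat_of_isLocalRing`), so
`tr F' = rank (im F')` (`LinearMap.IsProj.trace`), and the rank can be computed after reduction to
`k`, where `F'` becomes `e ^ p ^ j = e`.
-/

namespace Claimed.Agent.R280.A

/-- noncommutative `p`-power congruence, one step -/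
theorem tm_pow_step {B : Type*} [Ring B] (p s : ℕ) (hs : 1 ≤ s) (a b : B) (hab : Commute a b)
    (h : ∃ c, a - b = (p ^ s) • c) : ∃ c, a ^ p - b ^ p = (p ^ (s + 1)) • c := by
  obtain ⟨c, hc⟩ := h
  have h1 : ∀ i : ℕ, ∃ d, a ^ i = b ^ i + p • d := by
    intro i
    refine ⟨(p ^ (s - 1)) • (c * ∑ l ∈ Finset.range i, a ^ l * b ^ (i - 1 - l)), ?_⟩
    have := hab.mul_geom_sum₂ i
    rw [hc] at this
    rw [smul_smul, ← pow_succ', Nat.sub_add_cancel hs, ← smul_mul_assoc, this]
    abel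
  choose d hd using h1
  refine ⟨c * (b ^ (p - 1) + ∑ i ∈ Finset.range p, d i * b ^ (p - 1 - i)), ?_⟩
  rw [← hab.mul_geom_sum₂ p, hc]
  have h2 : ∑ i ∈ Finset.range p, a ^ i * b ^ (p - 1 - i)
      = p • (b ^ (p - 1) + ∑ i ∈ Finset.range p, d i * b ^ (p - 1 - i)) := by
    calc ∑ i ∈ Finset.range p, a ^ i * b ^ (p - 1 - i)
        = ∑ i ∈ Finset.range p, (b ^ (p - 1) + p • (d i * b ^ (p - 1 - i))) := by
          refine Finset.sum_congr rfl fun i hi => ?_
          rw [hd i, add_mul, smul_mul_assoc, ← pow_add]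
          congr 2
          have := Finset.mem_range.1 hi
          omega
      _ = p • (b ^ (p - 1) + ∑ i ∈ Finset.range p, d i * b ^ (p - 1 - i)) := by
          rw [Finset.sum_add_distrib, Finset.sum_const, Finset.card_range, ← Finset.smul_sum,
            smul_add]
  rw [h2, smul_mul_smul_comm, ← pow_succ]

theorem tm_pow_iter {B : Type*} [Ring B] (p : ℕ) (a b : B) (hab : Commute a b)
    (h : ∃ c, a - b = p • c) (j : ℕ) : ∃ c, a ^ p ^ j - b ^ p ^ j = (p ^ (j + 1)) • c := by
  induction j with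
  | zero => simpa using h
  | succ j ih =>
    have := tm_pow_step p (j + 1) (by omega) (a ^ p ^ j) (b ^ p ^ j) (hab.pow_pow _ _) ih
    rwa [← pow_mul, ← pow_mul, ← pow_succ] at this

section abs

variable {R k : Type*} [CommRing R] [Field k] (φ : R →+* k) (p m : ℕ)

/-- a matrix which vanishes after reduction is divisible by `p` -/
theorem tm_exists_smul (hker : ∀ x, φ x = 0 → ∃ y, x = (p : R) * y)
    {α β : Type*} (X : Matrix α β R) (hX : X.map φ = 0) : ∃ Y : Matrix α β R, X = p • Y := by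
  have h : ∀ i j, ∃ y, X i j = (p : R) * y := fun i j => hker _ (by
    have := congrFun (congrFun hX i) j
    simpa using this)
  choose Y hY using h
  refine ⟨Matrix.of Y, ?_⟩
  ext i j
  rw [hY i j]
  simp

theorem tm_pow_eq_zero (hker : ∀ x, φ x = 0 → ∃ y, x = (p : R) * y) (hp : (p : R) ^ m = 0)
    {α : Type*} [Fintype α] [DecidableEq α] (X : Matrix α α R) (hX : X.map φ = 0) : X ^ m = 0 := by
  obtain ⟨Y, rfl⟩ := tm_exists_smul φ p hker X hX
  rw [smul_pow]
  ext i j
  have : ((p ^ m : ℕ) : R) = 0 := by exact_mod_cast hp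
  simp [this]

theorem tm_idem_eq_zero (hker : ∀ x, φ x = 0 → ∃ y, x = (p : R) * y) (hp : (p : R) ^ m = 0)
    (hm : 1 ≤ m) {α : Type*} [Fintype α] [DecidableEq α] (X : Matrix α α R) (hX : X.map φ = 0)
    (hi : X * X = X) : X = 0 := by
  have h1 := tm_pow_eq_zero φ p m hker hp X hX
  obtain ⟨n, rfl⟩ : ∃ n, m = n + 1 := ⟨m - 1, by omega⟩
  have h2 : IsIdempotentElem X := hi
  rwa [h2.pow_succ_eq] at h1

theorem tm_isUnit (hker : ∀ x, φ x = 0 → ∃ y, x = (p : R) * y) (hp : (p : R) ^ m = 0)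
    {α : Type*} [Fintype α] [DecidableEq α] (w : Matrix α α R) (hw : w.map φ = 1) : IsUnit w := by
  have h0 : (w - 1).map φ = 0 := by
    rw [Matrix.map_sub φ (map_sub φ), hw, Matrix.map_one φ (map_zero φ) (map_one φ), sub_self]
  have h1 : IsNilpotent (w - 1) := ⟨m, tm_pow_eq_zero φ p m hker hp _ h0⟩
  have := h1.isUnit_add_one
  rwa [sub_add_cancel] at this

/-- the trace of an idempotent over `R` is the rank of its reduction -/
theorem tm_trace_idem (hφ : Function.Surjective φ)
    (hker : ∀ x, φ x = 0 → ∃ y, x = (p : R) * y) (hp : (p : R) ^ m = 0) (hm : 1 ≤ m)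
    {ι κ : Type*} [Fintype ι] [DecidableEq ι] [Fintype κ] [DecidableEq κ]
    (F : Matrix ι ι R) (hF : F * F = F) (P : Matrix ι κ k) (Q : Matrix κ ι k)
    (hPQ : P * Q = F.map φ) (hQP : Q * P = 1) : F.trace = (Fintype.card κ : R) := by
  choose g hg using hφ
  set P' : Matrix ι κ R := P.map g with hP'
  set Q' : Matrix κ ι R := Q.map g with hQ'
  have eP : P'.map φ = P := by
    ext i j
    simp [hP', hg]
  have eQ : Q'.map φ = Q := by
    ext i j
    simp [hQ', hg]
  set w : Matrix κ κ R := Q' * F * P' with hw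
  have ew : w.map φ = 1 := by
    rw [hw, Matrix.map_mul, Matrix.map_mul, eP, eQ, ← hPQ, ← Matrix.mul_assoc, hQP, Matrix.one_mul,
      hQP]
  obtain ⟨u, hu⟩ := tm_isUnit φ p m hker hp w ew
  set w' : Matrix κ κ R := ((u⁻¹ : (Matrix κ κ R)ˣ) : Matrix κ κ R) with hw'
  have h1 : w' * w = 1 := by rw [hw', ← hu]; exact u.inv_mul
  have ew' : w'.map φ = 1 := by
    have := congrArg (fun X : Matrix κ κ R => X.map φ) h1
    simp only [Matrix.map_mul, ew, Matrix.mul_one] at this
    rw [this, Matrix.map_one φ (map_zero φ) (map_one φ)]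
  set G : Matrix ι ι R := F * P' * w' * Q' * F with hG
  have hFG : F * G = G := by
    rw [hG]
    simp only [← Matrix.mul_assoc, hF]
  have hGF : G * F = G := by
    rw [hG]
    simp only [Matrix.mul_assoc, hF]
  have hGG : G * G = G := by
    have e : G * G = F * P' * (w' * (Q' * (F * F) * P') * w') * Q' * F := by
      rw [hG]
      simp only [Matrix.mul_assoc]
    rw [e, hF, ← hw, h1, Matrix.one_mul]
  have hH : F - G = 0 := by
    apply tm_idem_eq_zero φ p m hker hp hm
    · rw [Matrix.map_sub φ (map_sub φ), hG]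
      simp only [Matrix.map_mul, eP, eQ, ew', ← hPQ, Matrix.mul_one]
      have e : P * Q * P * Q * (P * Q) = P * (Q * P) * (Q * P) * Q := by
        simp only [Matrix.mul_assoc]
      rw [e, hQP, Matrix.mul_one, Matrix.mul_one, sub_self]
    · rw [sub_mul, mul_sub, mul_sub, hF, hFG, hGF, hGG]
      abel
  have hFe : F = G := sub_eq_zero.1 hH
  calc F.trace = (F * P' * w' * Q' * F).trace := by rw [← hG, ← hFe]
    _ = ((F * P') * (w' * Q' * F)).trace := by simp only [Matrix.mul_assoc]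
    _ = ((w' * Q' * F) * (F * P')).trace := Matrix.trace_mul_comm _ _
    _ = (w' * (Q' * (F * F) * P')).trace := by simp only [Matrix.mul_assoc]
    _ = (Fintype.card κ : R) := by rw [hF, ← hw, h1, Matrix.trace_one]

end abs

theorem tm_map_pow {R S : Type*} [Semiring R] [Semiring S] (f : R →+* S) {α : Type*} [Fintype α]
    [DecidableEq α] (X : Matrix α α R) (n : ℕ) : (X ^ n).map f = (X.map f) ^ n :=
  map_pow f.mapMatrix X n

/-- rank factorisation of an idempotent endomorphism of `k ^ ι` -/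
theorem tm_rank_fact {k : Type*} [Field k] {ι : Type*} [Fintype ι] [DecidableEq ι]
    (e : (ι → k) →ₗ[k] (ι → k)) (hee : IsIdempotentElem e) :
    ∃ (P : Matrix ι (Fin (Module.finrank k (LinearMap.range e))) k)
      (Q : Matrix (Fin (Module.finrank k (LinearMap.range e))) ι k),
      P * Q = LinearMap.toMatrix' e ∧ Q * P = 1 := by
  set V := LinearMap.range e with hV
  let b : Module.Basis (Fin (Module.finrank k V)) k V := Module.finBasis k V
  refine ⟨LinearMap.toMatrix b (Pi.basisFun k ι) V.subtype,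
    LinearMap.toMatrix (Pi.basisFun k ι) b e.rangeRestrict, ?_, ?_⟩
  · rw [← LinearMap.toMatrix_comp, ← LinearMap.toMatrix_eq_toMatrix']
    congr 1
  · rw [← LinearMap.toMatrix_comp]
    have : e.rangeRestrict ∘ₗ V.subtype = LinearMap.id := by
      ext ⟨v, hv⟩ : 1
      obtain ⟨u, rfl⟩ := hv
      apply Subtype.ext
      show e (e u) = e u
      have := congrArg (fun f : (ι → k) →ₗ[k] (ι → k) => f u) hee.eq
      exact this
    rw [this, LinearMap.toMatrix_id]

variable {p : ℕ} [Fact p.Prime] {k : Type} [Field k]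

theorem trace_pow_sub_rank_dvd (L : LiftData p k) {ι : Type} [Finite ι]
    (T : (ι → L.O) →ₗ[L.O] (ι → L.O)) (Tb e : (ι → k) →ₗ[k] (ι → k))
    (hT : ∀ f : ι → L.O, Tb (fun i => L.π (f i)) = fun i => L.π (T f i)) (r : ℕ)
    (he : Tb ^ p ^ r = e) (hee : IsIdempotentElem e) (j : ℕ) :
    (p : L.O) ^ (j + 1) ∣ LinearMap.trace L.O (ι → L.O) (T ^ p ^ (r + j)) -
      (Module.finrank k (LinearMap.range e) : L.O) := by
  classical
  have := Fintype.ofFinite ι
  have hp0 : 0 < p := (Fact.out : p.Prime).pos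
  set I : Ideal L.O := Ideal.span {(p : L.O) ^ (j + 1)} with hI
  let mk : L.O →+* (L.O ⧸ I) := Ideal.Quotient.mk I
  have hπI : ∀ a ∈ I, L.π a = 0 := by
    intro a ha
    rw [hI, Ideal.mem_span_singleton] at ha
    rw [L.ker]
    exact (dvd_pow_self _ (Nat.succ_ne_zero j)).trans ha
  let φ : (L.O ⧸ I) →+* k := Ideal.Quotient.lift I L.π hπI
  have hφmk : ∀ a, φ (mk a) = L.π a := fun a => Ideal.Quotient.lift_mk I L.π hπI
  have hφ : Function.Surjective φ := fun y => by
    obtain ⟨a, ha⟩ := L.surj y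
    exact ⟨mk a, by rw [hφmk, ha]⟩
  have hker : ∀ x, φ x = 0 → ∃ y, x = (p : L.O ⧸ I) * y := by
    intro x hx
    obtain ⟨a, rfl⟩ := Ideal.Quotient.mk_surjective x
    have hx' : L.π a = 0 := by rw [← hφmk]; exact hx
    rw [L.ker] at hx'
    obtain ⟨b, rfl⟩ := hx'
    exact ⟨mk b, by rw [map_mul, map_natCast]⟩
  have hp : (p : L.O ⧸ I) ^ (j + 1) = 0 := by
    have : mk ((p : L.O) ^ (j + 1)) = 0 :=
      Ideal.Quotient.eq_zero_iff_mem.2 (Ideal.mem_span_singleton_self _)
    rwa [map_pow, map_natCast] at this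
  -- matrices
  set A : Matrix ι ι L.O := LinearMap.toMatrix' T with hAdef
  have hA : A.map L.π = LinearMap.toMatrix' Tb := by
    ext i j'
    rw [Matrix.map_apply, hAdef, LinearMap.toMatrix'_apply, LinearMap.toMatrix'_apply]
    have h1 := congrFun (hT (Pi.single j' 1)) i
    rw [← h1]
    have h2 : (fun i' => L.π ((Pi.single j' 1 : ι → L.O) i')) = (Pi.single j' 1 : ι → k) := by
      funext i'
      by_cases h : i' = j'
      · subst h
        simp
      · simp [Pi.single_eq_of_ne h]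
    rw [h2]
  set A' : Matrix ι ι (L.O ⧸ I) := A.map mk with hA'def
  have hA' : A'.map φ = LinearMap.toMatrix' Tb := by
    rw [← hA]
    ext i j'
    simp only [hA'def, Matrix.map_apply, hφmk]
  set E : Matrix ι ι k := LinearMap.toMatrix' e with hE
  have hpowM : ∀ (f : (ι → k) →ₗ[k] (ι → k)) (n : ℕ),
      LinearMap.toMatrix' (f ^ n) = (LinearMap.toMatrix' f) ^ n := by
    intro f n
    rw [← LinearMap.toMatrix_eq_toMatrix', LinearMap.toMatrix_pow]
  have hpowO : ∀ (f : (ι → L.O) →ₗ[L.O] (ι → L.O)) (n : ℕ),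
      LinearMap.toMatrix' (f ^ n) = (LinearMap.toMatrix' f) ^ n := by
    intro f n
    rw [← LinearMap.toMatrix_eq_toMatrix', LinearMap.toMatrix_pow]
  have hEE : E * E = E := by
    rw [hE, ← LinearMap.toMatrix'_mul, hee.eq]
  set N : Matrix ι ι (L.O ⧸ I) := A' ^ p ^ r with hN
  have hNφ : N.map φ = E := by
    rw [hN, tm_map_pow, hA', ← hpowM, he]
  obtain ⟨C, hC⟩ := tm_exists_smul φ p hker (N * N - N) (by
    rw [Matrix.map_sub φ (map_sub φ), Matrix.map_mul, hNφ, hEE, sub_self])
  have hcomm : Commute (N * N) N := (Commute.refl N).mul_left (Commute.refl N)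
  obtain ⟨C', hC'⟩ := tm_pow_iter p (N * N) N hcomm ⟨C, hC⟩ j
  set F : Matrix ι ι (L.O ⧸ I) := N ^ p ^ j with hFdef
  have hF : F * F = F := by
    have h0 : (p ^ (j + 1)) • C' = 0 := by
      ext a b
      have : ((p ^ (j + 1) : ℕ) : L.O ⧸ I) = 0 := by exact_mod_cast hp
      simp [this]
    rw [h0, (Commute.refl N).mul_pow, sub_eq_zero] at hC'
    exact hC'
  have hFφ : F.map φ = E := by
    rw [hFdef, tm_map_pow, hNφ]
    obtain ⟨n, hn⟩ : ∃ n, p ^ j = n + 1 := ⟨p ^ j - 1, by have := Nat.pow_pos (n := j) hp0; omega⟩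
    rw [hn]
    exact IsIdempotentElem.pow_succ_eq n hEE
  obtain ⟨P, Q, hPQ, hQP⟩ := tm_rank_fact e hee
  have htr := tm_trace_idem φ p (j + 1) hφ hker hp (by omega) F hF P Q (by rw [hPQ, hFφ]) hQP
  rw [Fintype.card_fin] at htr
  -- back to `O`
  have hFA : F = (A ^ p ^ (r + j)).map mk := by
    rw [tm_map_pow, hFdef, hN, ← pow_mul, ← pow_add]
  have htrO : LinearMap.trace L.O (ι → L.O) (T ^ p ^ (r + j)) = (A ^ p ^ (r + j)).trace := by
    rw [LinearMap.trace_eq_matrix_trace L.O (Pi.basisFun L.O ι), LinearMap.toMatrix_eq_toMatrix',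
      hpowO]
  rw [htrO, ← Ideal.mem_span_singleton, ← hI, ← Ideal.Quotient.eq_zero_iff_mem, map_sub,
    map_natCast, AddMonoidHom.map_trace, sub_eq_zero]
  rw [hFA] at htr
  exact htr

/-- The group algebra version. -/
theorem trace_limit (L : LiftData p k) {H : Type} [Group H] [Finite H] (w : MonoidAlgebra L.O H)
    (hw : w ∈ Set.center (MonoidAlgebra L.O H)) (e : MonoidAlgebra k H)
    (he : IsIdempotentElem e) (r : ℕ) (hr : (MonoidAlgebra.mapRingHom H L.π w) ^ p ^ r = e)
    (j : ℕ) :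
    (p : L.O) ^ (j + 1) ∣ LinearMap.trace L.O (ConjClasses H → L.O) (cmul (w ^ p ^ (r + j))) -
      (kap e : L.O) := by
  have hwb : MonoidAlgebra.mapRingHom H L.π w ∈ Set.center (MonoidAlgebra k H) := by
    rw [mem_center_iff] at hw ⊢
    intro x g
    simp [hw x g]
  have hec : e ∈ Set.center (MonoidAlgebra k H) := by
    rw [← hr]; exact (Submonoid.center (MonoidAlgebra k H)).pow_mem hwb _
  rw [cmul_pow w hw]
  apply trace_pow_sub_rank_dvd L (cmul w) (cmul (MonoidAlgebra.mapRingHom H L.π w)) (cmul e)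
    (fun f => cmul_map L.π w f) r
  · rw [← cmul_pow _ hwb, hr]
  · unfold IsIdempotentElem
    rw [Module.End.mul_eq_comp, ← cmul_mul e e hec, he.eq]

end Claimed.Agent.R280.A
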