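import Claimed.Agent.R280.A.Alg

/-!
# Row 280, part A, package Radical: the Jacobson radical of a finite group algebra and the
invariance of `numSimplesInBlock` under surjections with kernel in the radical

`rad k X = (⊥ : Ideal k[X]).jacobson` (`= Ring.jacobson _` by `Ideal.jacobson_bot`); `k[X]` is a
finite dimensional algebra, hence Artinian, hence semiprimary (`IsSemiprimaryRing`).
No hypothesis on the characteristic.
-/

namespace Claimed.Agent.R280.A

open Claims.C0453

variable {k : Type} [Field k] {X : Type} [Group X] [Finite X]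

instance instIsArtinianRingGroupAlgebra : IsArtinianRing (MonoidAlgebra k X) :=
  IsArtinianRing.of_finite k _

instance instCharPGroupAlgebra (p : ℕ) [CharP k p] : CharP (MonoidAlgebra k X) p :=
  charP_of_injective_algebraMap (algebraMap k (MonoidAlgebra k X)).injective p

theorem rad_mul_mem {r : MonoidAlgebra k X} (hr : r ∈ rad k X) (a : MonoidAlgebra k X) :
    r * a ∈ rad k X := by
  rw [rad, Ideal.jacobson_bot] at hr ⊢
  exact Ideal.mul_mem_right _ _ hr

theorem list_prod_mem_pow {A : Type*} [Ring A] (J : Ideal A) [J.IsTwoSided] :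
    ∀ l : List A, (∀ x ∈ l, x ∈ J) → l.prod ∈ J ^ l.length := by
  intro l
  induction l with
  | nil =>
    intro _
    rw [List.length_nil, Submodule.pow_zero, Ideal.one_eq_top]
    exact Submodule.mem_top
  | cons x l ih =>
    intro h
    rw [List.prod_cons, List.length_cons, Ideal.IsTwoSided.pow_succ]
    exact Ideal.mul_mem_mul (h x (by simp)) (ih fun y hy => h y (by simp [hy]))

/-- The radical is nilpotent. -/
theorem rad_nilpotent : ∃ n : ℕ, ∀ l : List (MonoidAlgebra k X), l.length = n →
    (∀ x ∈ l, x ∈ rad k X) → l.prod = 0 := by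
  obtain ⟨n, hn⟩ := IsSemiprimaryRing.isNilpotent (R := MonoidAlgebra k X)
  refine ⟨n, fun l hl h => ?_⟩
  have h1 := list_prod_mem_pow (Ring.jacobson (MonoidAlgebra k X)) l (by
    intro x hx
    have := h x hx
    rwa [rad, Ideal.jacobson_bot] at this)
  rw [hl, hn] at h1
  simpa using h1

theorem isNilpotent_of_mem_rad {r : MonoidAlgebra k X} (hr : r ∈ rad k X) : IsNilpotent r := by
  obtain ⟨n, hn⟩ := rad_nilpotent (k := k) (X := X)
  refine ⟨n, ?_⟩
  have := hn (List.replicate n r) (by simp) (by
    intro x hx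
    rw [List.eq_of_mem_replicate hx]; exact hr)
  simpa using this

/-- A left ideal of nilpotent elements lies in the radical. -/
theorem mem_rad_of_forall_isNilpotent {x : MonoidAlgebra k X}
    (h : ∀ a : MonoidAlgebra k X, IsNilpotent (a * x)) : x ∈ rad k X := by
  rw [rad, Ideal.mem_jacobson_iff]
  intro y
  have hu : IsUnit (y * x + 1) := by
    have := (h y).isUnit_add_one
    exact this
  obtain ⟨u, hu⟩ := hu
  refine ⟨(u⁻¹ : (MonoidAlgebra k X)ˣ), ?_⟩
  have h1 : ((u⁻¹ : (MonoidAlgebra k X)ˣ) : MonoidAlgebra k X) * (y * x + 1) = 1 := by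
    rw [← hu]; simp
  rw [Ideal.mem_bot, mul_assoc, sub_eq_zero, ← h1, mul_add, mul_one]

theorem mem_rad_of_central_of_isNilpotent {z : MonoidAlgebra k X}
    (hz : z ∈ Set.center (MonoidAlgebra k X)) (hn : IsNilpotent z) : z ∈ rad k X := by
  apply mem_rad_of_forall_isNilpotent
  intro a
  have hc : Commute a z := ((Semigroup.mem_center_iff.1 hz) a)
  exact hc.isNilpotent_mul_left hn

theorem finrank_image_eq {A A' : Type*} [Ring A] [Ring A'] [Algebra k A] [Algebra k A']
    (F : A →ₐ[k] A') (hF : Function.Surjective F) (N : Submodule k A) (N' : Submodule k A')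
    (hN : N'.comap F.toLinearMap = N) (a : A) :
    Module.finrank k ((LinearMap.range (LinearMap.mulLeft k (F a))).map N'.mkQ) =
      Module.finrank k ((LinearMap.range (LinearMap.mulLeft k a)).map N.mkQ) := by
  let G : (A ⧸ N) →ₗ[k] (A' ⧸ N') := N.mapQ N' F.toLinearMap (hN ▸ le_rfl)
  have hGinj : Function.Injective G := by
    rw [← LinearMap.ker_eq_bot, LinearMap.ker_eq_bot']
    intro x hx
    obtain ⟨x, rfl⟩ := N.mkQ_surjective x
    have h1 : N'.mkQ (F x) = 0 := hx
    rw [Submodule.mkQ_apply, Submodule.Quotient.mk_eq_zero] at h1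
    rw [Submodule.mkQ_apply, Submodule.Quotient.mk_eq_zero, ← hN]
    exact h1
  have hGsurj : Function.Surjective G := by
    intro y
    obtain ⟨y, rfl⟩ := N'.mkQ_surjective y
    obtain ⟨x, rfl⟩ := hF y
    exact ⟨N.mkQ x, rfl⟩
  let e := LinearEquiv.ofBijective G ⟨hGinj, hGsurj⟩
  have hmap : (LinearMap.range (LinearMap.mulLeft k (F a))).map N'.mkQ =
      ((LinearMap.range (LinearMap.mulLeft k a)).map N.mkQ).map (e : (A ⧸ N) →ₗ[k] (A' ⧸ N')) := by
    ext y
    constructor
    · rintro ⟨_, ⟨z, rfl⟩, rfl⟩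
      obtain ⟨x, rfl⟩ := hF z
      refine ⟨N.mkQ (a * x), ⟨a * x, ⟨x, rfl⟩, rfl⟩, ?_⟩
      show N'.mkQ (F (a * x)) = N'.mkQ (F a * F x)
      rw [map_mul F]
    · rintro ⟨_, ⟨_, ⟨x, rfl⟩, rfl⟩, rfl⟩
      refine ⟨F a * F x, ⟨F x, rfl⟩, ?_⟩
      show N'.mkQ (F a * F x) = N'.mkQ (F (a * x))
      rw [map_mul F]
  rw [hmap, LinearEquiv.finrank_map_eq e]

theorem comap_commPlusRad {H Y : Type} [Group H] [Group Y] (f : H →* Y)
    (hf : Function.Surjective f)
    (hker : ∀ x : MonoidAlgebra k H, MonoidAlgebra.mapDomainRingHom k f x = 0 → x ∈ rad k H) :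
    (commPlusRad k Y).comap (MonoidAlgebra.mapDomainAlgHom k k f).toLinearMap =
      commPlusRad k H := by
  set F := MonoidAlgebra.mapDomainAlgHom k k f with hFdef
  have hF : Function.Surjective F := by
    intro y
    induction y using MonoidAlgebra.induction_linear with
    | zero => exact ⟨0, map_zero _⟩
    | add a b ha hb =>
      obtain ⟨x, rfl⟩ := ha
      obtain ⟨y, rfl⟩ := hb
      exact ⟨x + y, map_add _ _ _⟩
    | single g r =>
      obtain ⟨h, rfl⟩ := hf g
      exact ⟨MonoidAlgebra.single h r, by simp [hFdef, MonoidAlgebra.mapDomainAlgHom]⟩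
  have hkerF : LinearMap.ker F.toLinearMap ≤ commPlusRad k H := by
    intro x hx
    exact Submodule.mem_sup_right (hker x hx)
  have h1 : (Submodule.span k {x | ∃ u v : MonoidAlgebra k H, x = u * v - v * u}).map
      F.toLinearMap = Submodule.span k {x | ∃ u v : MonoidAlgebra k Y, x = u * v - v * u} := by
    rw [Submodule.map_span]
    congr 1
    ext y
    constructor
    · rintro ⟨_, ⟨u, v, rfl⟩, rfl⟩
      exact ⟨F u, F v, by simp⟩
    · rintro ⟨u, v, rfl⟩
      obtain ⟨u, rfl⟩ := hF u
      obtain ⟨v, rfl⟩ := hF v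
      exact ⟨u * v - v * u, ⟨u, v, rfl⟩, by simp⟩
  have h2 : ((rad k H).restrictScalars k).map F.toLinearMap = (rad k Y).restrictScalars k := by
    have : RingHomSurjective (F : MonoidAlgebra k H →+* MonoidAlgebra k Y) := ⟨hF⟩
    have h3 := Ring.map_jacobson_of_ker_le (f := (F : MonoidAlgebra k H →+* MonoidAlgebra k Y)) (by
      intro x hx
      have := hker x hx
      rwa [rad, Ideal.jacobson_bot] at this)
    ext y
    have h4 := SetLike.ext_iff.1 h3 y
    simp only [rad, Ideal.jacobson_bot]
    constructor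
    · rintro ⟨x, hx, rfl⟩
      exact h4.1 ⟨x, hx, rfl⟩
    · intro hy
      obtain ⟨x, hx, rfl⟩ := h4.2 hy
      exact ⟨x, hx, rfl⟩
  have h5 : (commPlusRad k H).map F.toLinearMap = commPlusRad k Y := by
    unfold commPlusRad
    rw [Submodule.map_sup, h1]
    congr 1
  rw [← h5, Submodule.comap_map_eq, sup_eq_left.2 hkerF]

/-- **Invariance of `l`.**  Let `f : H → Y` be a surjective homomorphism of finite groups such that
the kernel of `k[H] → k[Y]` lies in the radical.  Then `l(Y, f a) = l(H, a)`. -/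
theorem numSimples_mapDomain {H Y : Type} [Group H] [Finite H] [Group Y] [Finite Y] (f : H →* Y)
    (hf : Function.Surjective f)
    (hker : ∀ x : MonoidAlgebra k H, MonoidAlgebra.mapDomainRingHom k f x = 0 → x ∈ rad k H)
    (a : MonoidAlgebra k H) :
    numSimplesInBlock (MonoidAlgebra.mapDomainRingHom k f a) = numSimplesInBlock a := by
  have hF : Function.Surjective (MonoidAlgebra.mapDomainAlgHom k k f) := by
    intro y
    induction y using MonoidAlgebra.induction_linear with
    | zero => exact ⟨0, map_zero _⟩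
    | add a b ha hb =>
      obtain ⟨x, rfl⟩ := ha
      obtain ⟨y, rfl⟩ := hb
      exact ⟨x + y, map_add _ _ _⟩
    | single g r =>
      obtain ⟨h, rfl⟩ := hf g
      exact ⟨MonoidAlgebra.single h r, by simp [MonoidAlgebra.mapDomainAlgHom]⟩
  exact finrank_image_eq (MonoidAlgebra.mapDomainAlgHom k k f) hF _ _
    (comap_commPlusRad f hf hker) a

theorem pull_mulEquiv {R : Type} [Semiring R] {H : Type} [Group H] [Finite H] (φ : H ≃* X)
    (a : MonoidAlgebra R X) :
    pull φ a = MonoidAlgebra.mapDomainRingHom R φ.symm.toMonoidHom a := by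
  apply MonoidAlgebra.ext
  apply Finsupp.ext
  intro h
  have h1 : (MonoidAlgebra.mapDomainRingHom R φ.symm.toMonoidHom a).coeff h =
      (Finsupp.mapDomain φ.symm a.coeff) h := rfl
  rw [h1, coeff_pull]
  have h2 : h = φ.symm (φ h) := (φ.symm_apply_apply h).symm
  conv_rhs => rw [h2]
  rw [Finsupp.mapDomain_apply φ.symm.injective]

/-- Invariance of `l` under isomorphisms. -/
theorem numSimples_pull {H : Type} [Group H] [Finite H] (φ : H ≃* X) (a : MonoidAlgebra k X) :
    numSimplesInBlock (pull φ a) = numSimplesInBlock a := by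
  rw [pull_mulEquiv]
  apply numSimples_mapDomain _ φ.symm.surjective
  intro x hx
  have : x = 0 := by
    have hinj : Function.Injective (MonoidAlgebra.mapDomainRingHom k φ.symm.toMonoidHom) :=
      MonoidAlgebra.mapDomain_injective φ.symm.injective
    exact hinj (by rw [hx, map_zero])
  rw [this]; exact Submodule.zero_mem _

end Claimed.Agent.R280.A
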