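import Claimed.Agent.R280.A.Cocenter
import Claimed.Agent.R280.A.Radical

/-!
# Row 280, part A, package Transport: subgroups of subgroups, `⊤`, isomorphisms
-/

namespace Claimed.Agent.R280.A

open Claims.C0453

variable {k : Type} [Field k] {X : Type} [Group X] [Finite X]

/-- the image of a subspace under a linear map and under the quotient by its kernel -/
theorem transport_finrank_map {M V : Type*} [AddCommGroup M] [Module k M] [AddCommGroup V] [Module k V]
    (f : M →ₗ[k] V) (S : Submodule k M) :
    Module.finrank k (S.map f) = Module.finrank k (S.map (LinearMap.ker f).mkQ) := by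
  have hinj : Function.Injective ((LinearMap.ker f).liftQ f le_rfl) :=
    LinearMap.ker_eq_bot.1 (Submodule.ker_liftQ_eq_bot _ f le_rfl le_rfl)
  have h1 : S.map f = (S.map (LinearMap.ker f).mkQ).map ((LinearMap.ker f).liftQ f le_rfl) := by
    rw [← Submodule.map_comp, Submodule.liftQ_mkQ]
  rw [h1]
  exact (LinearEquiv.finrank_eq (Submodule.equivMapOfInjective _ hinj _)).symm

theorem transport_pull_mem_center {H : Type} [Group H] [Finite H] (φ : H ≃* X) {a : MonoidAlgebra k X}
    (ha : a ∈ Set.center (MonoidAlgebra k X)) : pull φ a ∈ Set.center (MonoidAlgebra k H) := by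
  rw [mem_center_iff] at ha ⊢
  intro x g
  rw [coeff_pull, coeff_pull]
  have h : φ (x * g * x⁻¹) = φ x * φ g * (φ x)⁻¹ := by rw [map_mul φ, map_mul φ, map_inv φ]
  rw [h]
  exact ha _ _

/-- `κ` is invariant under isomorphisms (for central elements; use `range_cmul` and `ker_cl`:
`kap a` is the dimension of the image of `a k[X]` in `k[X]` modulo commutators). -/
theorem kap_pull {H : Type} [Group H] [Finite H] (φ : H ≃* X) {a : MonoidAlgebra k X}
    (ha : a ∈ Set.center (MonoidAlgebra k X)) : kap (pull φ a) = kap a := by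
  unfold kap
  rw [range_cmul _ (transport_pull_mem_center φ ha), range_cmul _ ha, transport_finrank_map (cl k H),
    transport_finrank_map (cl k X), pull_mulEquiv]
  set F := MonoidAlgebra.mapDomainAlgHom k k φ.symm.toMonoidHom with hFdef
  have hFinj : Function.Injective F := MonoidAlgebra.mapDomain_injective φ.symm.injective
  have hF : Function.Surjective F := by
    intro y
    induction y using MonoidAlgebra.induction_linear with
    | zero => exact ⟨0, map_zero _⟩
    | add a b ha hb =>
      obtain ⟨x, rfl⟩ := ha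
      obtain ⟨y, rfl⟩ := hb
      exact ⟨x + y, map_add _ _ _⟩
    | single g r =>
      obtain ⟨h, rfl⟩ := φ.symm.surjective g
      exact ⟨MonoidAlgebra.single h r, by simp [hFdef, MonoidAlgebra.mapDomainAlgHom]⟩
  have h1 : (Submodule.span k {x | ∃ u v : MonoidAlgebra k X, x = u * v - v * u}).map
      F.toLinearMap = Submodule.span k {x | ∃ u v : MonoidAlgebra k H, x = u * v - v * u} := by
    rw [Submodule.map_span]
    congr 1
    ext y
    constructor
    · rintro ⟨_, ⟨u, v, rfl⟩, rfl⟩
      exact ⟨F u, F v, by simp⟩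
    · rintro ⟨u, v, rfl⟩
      obtain ⟨u, rfl⟩ := hF u
      obtain ⟨v, rfl⟩ := hF v
      exact ⟨u * v - v * u, ⟨u, v, rfl⟩, by simp⟩
  have hN : (LinearMap.ker (cl k H)).comap F.toLinearMap = LinearMap.ker (cl k X) := by
    rw [ker_cl, ker_cl, ← h1]
    exact Submodule.comap_map_eq_of_injective hFinj _
  exact finrank_image_eq F hF _ _ hN a

theorem resA_top_eq_pull {R : Type} [Semiring R] (a : MonoidAlgebra R X) :
    resA (⊤ : Subgroup X) a = pull (Subgroup.topEquiv : (⊤ : Subgroup X) ≃* X) a := rfl

theorem lT_top_bot (E : MonoidAlgebra k X) : lT E ⊤ ⊥ = Nat.card X * numSimplesInBlock E := by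
  unfold lT
  rw [brX_bot, resA_top_eq_pull, numSimples_pull, Nat.card_congr Subgroup.topEquiv.toEquiv]

theorem kT_top_bot {E : MonoidAlgebra k X} (hE : E ∈ Set.center (MonoidAlgebra k X)) :
    kT E ⊤ ⊥ = Nat.card X * kap E := by
  unfold kT
  rw [brX_bot, resA_top_eq_pull, kap_pull _ hE, Nat.card_congr Subgroup.topEquiv.toEquiv]

/-- Restriction in two steps. -/
theorem numSimples_resA_resA (H : Subgroup X) (K' : Subgroup H) (K : Subgroup X)
    (hK : K'.map H.subtype = K) (a : MonoidAlgebra k X) :
    numSimplesInBlock (resA K' (resA H a)) = numSimplesInBlock (resA K a) := by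
  subst hK
  have h : resA K' (resA H a) =
      pull (K'.equivMapOfInjective H.subtype H.subtype_injective) (resA (K'.map H.subtype) a) := by
    apply ext_coeff
    intro y
    rw [coeff_resA, coeff_resA, coeff_pull, coeff_resA, Subgroup.coe_equivMapOfInjective_apply]
    rfl
  rw [h, numSimples_pull]

theorem card_of_map_subtype (H : Subgroup X) (K' : Subgroup H) (K : Subgroup X)
    (hK : K'.map H.subtype = K) : Nat.card K' = Nat.card K := by
  subst hK
  exact Nat.card_congr (K'.equivMapOfInjective H.subtype H.subtype_injective).toEquiv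

/-- The Brauer truncation commutes with restriction. -/
theorem brX_resA {R : Type} [Semiring R] (H : Subgroup X) (P' : Subgroup H)
    (a : MonoidAlgebra R X) : brX P' (resA H a) = resA H (brX (P'.map H.subtype) a) := by
  apply ext_coeff
  intro h
  have hiff : h ∈ Subgroup.centralizer (P' : Set H) ↔
      (h : X) ∈ Subgroup.centralizer ((P'.map H.subtype : Subgroup X) : Set X) := by
    rw [Subgroup.mem_centralizer_iff, Subgroup.mem_centralizer_iff]
    constructor
    · rintro hh _ ⟨y, hy, rfl⟩
      exact congrArg Subtype.val (hh y hy)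
    · intro hh y hy
      exact Subtype.ext (hh (y : X) ⟨y, hy, rfl⟩)
  rw [coeff_resA]
  by_cases hc : h ∈ Subgroup.centralizer (P' : Set H)
  · rw [coeff_brX_of_mem _ _ hc, coeff_brX_of_mem _ _ (hiff.1 hc), coeff_resA]
  · rw [coeff_brX_of_not_mem _ _ hc, coeff_brX_of_not_mem _ _ (fun h' => hc (hiff.2 h'))]

theorem centralizer_map_subtype (H : Subgroup X) (u : H) :
    (Subgroup.centralizer ({u} : Set H)).map H.subtype =
      H ⊓ Subgroup.centralizer ({(u : X)} : Set X) := by
  ext x
  rw [Subgroup.mem_inf, Subgroup.mem_centralizer_singleton_iff]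
  constructor
  · rintro ⟨y, hy, rfl⟩
    have hy' := Subgroup.mem_centralizer_singleton_iff.1 hy
    exact ⟨y.2, congrArg Subtype.val hy'⟩
  · rintro ⟨hxH, hx⟩
    exact ⟨⟨x, hxH⟩, Subgroup.mem_centralizer_singleton_iff.2 (Subtype.ext hx), rfl⟩

theorem zpowers_map_subtype (H : Subgroup X) (u : H) :
    (Subgroup.zpowers u).map H.subtype = Subgroup.zpowers (u : X) := by
  rw [MonoidHom.map_zpowers]; rfl

end Claimed.Agent.R280.A
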