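import Claimed.Agent.R280.A.Cocenter

/-!
# Row 280, part A, package TupleTrace: central traces count tuples (`lem:tuple-trace`)

No characters.  `I(a) = ∑_x x a x⁻¹`.  `tr (L_z ∘ I | O[H]) = ∑_{g, x} z_{g x g⁻¹ x⁻¹}` in the group
basis.  On the other hand `I = I ∘ sec ∘ cl` (`I` kills commutators `= ker cl`), so by
`LinearMap.trace_comp_comm'`
`tr (L_z ∘ I ∘ sec ∘ cl) = tr (cl ∘ L_z ∘ I ∘ sec) = tr (cmul z ∘ cl ∘ I ∘ sec) = |H| tr (cmul z)`
because `cl (I a) = |H| cl a`.
-/

namespace Claimed.Agent.R280.A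

variable {O : Type} [CommRing O]

/-- the averaging operator `I(a) = ∑_x x a x⁻¹`. -/
noncomputable def ttI (O : Type) [CommRing O] (H : Type) [Group H] [Finite H] :
    MonoidAlgebra O H →ₗ[O] MonoidAlgebra O H :=
  ∑ x ∈ fs (Set.univ : Set H),
    LinearMap.mulLeft O (MonoidAlgebra.single x (1 : O)) ∘ₗ LinearMap.mulRight O (MonoidAlgebra.single x⁻¹ (1 : O))

theorem ttI_apply {H : Type} [Group H] [Finite H] (a : MonoidAlgebra O H) :
    ttI O H a = ∑ x ∈ fs (Set.univ : Set H),
      MonoidAlgebra.single x (1 : O) * (a * MonoidAlgebra.single x⁻¹ (1 : O)) := by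
  simp [ttI, LinearMap.sum_apply]

theorem ttI_single {H : Type} [Group H] [Finite H] (g : H) (r : O) :
    ttI O H (MonoidAlgebra.single g r) = ∑ x ∈ fs (Set.univ : Set H), MonoidAlgebra.single (x * g * x⁻¹) r := by
  rw [ttI_apply]
  refine Finset.sum_congr rfl fun x _ => ?_
  rw [MonoidAlgebra.single_mul_single, MonoidAlgebra.single_mul_single, mul_one, one_mul, mul_assoc]

theorem ttI_single_conj {H : Type} [Group H] [Finite H] (w g : H) (r : O) :
    ttI O H (MonoidAlgebra.single (w * g * w⁻¹) r) = ttI O H (MonoidAlgebra.single g r) := by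
  rw [ttI_single, ttI_single]
  refine Finset.sum_nbij' (fun x => x * w) (fun x => x * w⁻¹) (by simp) (by simp) (by simp) (by simp) ?_
  intro x _
  congr 1
  group

theorem cl_ttI {H : Type} [Group H] [Finite H] (a : MonoidAlgebra O H) :
    cl O H (ttI O H a) = (Nat.card H : O) • cl O H a := by
  rw [ttI_apply, map_sum]
  have h : ∀ x ∈ fs (Set.univ : Set H),
      cl O H (MonoidAlgebra.single x (1 : O) * (a * MonoidAlgebra.single x⁻¹ (1 : O))) = cl O H a := by
    intro x _
    rw [cl_mul_comm, mul_assoc, MonoidAlgebra.single_mul_single]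
    simp [← MonoidAlgebra.one_def]
  rw [Finset.sum_congr rfl h, Finset.sum_const, ← Nat.cast_smul_eq_nsmul O]
  congr 2
  have : Fintype H := Fintype.ofFinite H
  rw [Nat.card_eq_fintype_card, ← Finset.card_univ]
  congr 1
  ext x
  simp

theorem sec_cl_single {H : Type} [Group H] [Finite H] (g : H) (r : O) :
    sec O H (cl O H (MonoidAlgebra.single g r)) =
      MonoidAlgebra.single (Quotient.out (ConjClasses.mk g)) r := by
  classical
  have h : sec O H (cl O H (MonoidAlgebra.single g r)) = ∑ c ∈ fs (Set.univ : Set (ConjClasses H)),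
      MonoidAlgebra.single (Quotient.out c) (cl O H (MonoidAlgebra.single g r) c) := rfl
  rw [h, Finset.sum_eq_single (ConjClasses.mk g)]
  · rw [cl_single, Pi.single_eq_same]
  · intro c _ hc
    rw [cl_single, Pi.single_eq_of_ne hc, MonoidAlgebra.single_zero]
  · intro h
    simp at h

theorem ttI_sec_cl {H : Type} [Group H] [Finite H] :
    ttI O H ∘ₗ sec O H ∘ₗ cl O H = ttI O H := by
  apply MonoidAlgebra.lhom_ext'
  intro g
  apply LinearMap.ext
  intro r
  simp only [LinearMap.comp_apply, MonoidAlgebra.lsingle_apply]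
  rw [sec_cl_single]
  have hconj : IsConj g (Quotient.out (ConjClasses.mk g)) :=
    ConjClasses.mk_eq_mk_iff_isConj.1 (Quotient.out_eq (ConjClasses.mk g)).symm
  obtain ⟨x, hx⟩ := isConj_iff.1 hconj
  rw [← hx, ttI_single_conj]

theorem trace_eq_sum_coeff {H : Type} [Group H] [Finite H] (f : MonoidAlgebra O H →ₗ[O] MonoidAlgebra O H) :
    LinearMap.trace O (MonoidAlgebra O H) f =
      ∑ g ∈ fs (Set.univ : Set H), (f (MonoidAlgebra.single g 1)).coeff g := by
  classical
  have : Fintype H := Fintype.ofFinite H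
  rw [LinearMap.trace_eq_matrix_trace O (MonoidAlgebra.basis H O), Matrix.trace, sum_fs_univ]
  refine Finset.sum_congr rfl fun g _ => ?_
  rw [Matrix.diag_apply, LinearMap.toMatrix_apply, MonoidAlgebra.basis_apply]
  rfl

theorem card_mul_trace_cmul {H : Type} [Group H] [Finite H] (z : MonoidAlgebra O H)
    (hz : z ∈ Set.center (MonoidAlgebra O H)) :
    (Nat.card H : O) * LinearMap.trace O (ConjClasses H → O) (cmul z) =
      ∑ t ∈ fs (Set.univ : Set (H × H)), z.coeff (t.1 * t.2 * t.1⁻¹ * t.2⁻¹) := by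
  classical
  have h1 : cl O H ∘ₗ (LinearMap.mulLeft O z ∘ₗ ttI O H ∘ₗ sec O H) = (Nat.card H : O) • cmul z := by
    apply LinearMap.ext
    intro f
    simp only [LinearMap.comp_apply, LinearMap.mulLeft_apply, LinearMap.smul_apply]
    rw [cl_central_mul z hz, cl_ttI, cl_sec, map_smul]
  have h2 : LinearMap.trace O (MonoidAlgebra O H) (LinearMap.mulLeft O z ∘ₗ ttI O H) =
      (Nat.card H : O) * LinearMap.trace O (ConjClasses H → O) (cmul z) := by
    have e : LinearMap.mulLeft O z ∘ₗ ttI O H =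
        (LinearMap.mulLeft O z ∘ₗ ttI O H ∘ₗ sec O H) ∘ₗ cl O H := by
      conv_lhs => rw [← ttI_sec_cl]
      rfl
    rw [e, LinearMap.trace_comp_comm', h1, map_smul, smul_eq_mul]
  rw [← h2, trace_eq_sum_coeff]
  have : Fintype H := Fintype.ofFinite H
  rw [sum_fs_univ, sum_fs_univ, Fintype.sum_prod_type]
  refine Finset.sum_congr rfl fun g _ => ?_
  rw [LinearMap.comp_apply, LinearMap.mulLeft_apply, ttI_single, Finset.mul_sum, MonoidAlgebra.coeff_sum,
    Finsupp.finsetSum_apply, sum_fs_univ]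
  refine Finset.sum_congr rfl fun x _ => ?_
  rw [MonoidAlgebra.coeff_mul_single_apply, mul_one]
  congr 1
  group

theorem coeff_ofFun_pow {H : Type} [Group H] [Finite H] (α : H → O) (n : ℕ) (g : H) :
    ((ofFun α) ^ n).coeff g =
      ∑ u ∈ fs {u : Fin n → H | (List.ofFn u).prod = g}, ∏ i, α (u i) := by
  classical
  have : Fintype H := Fintype.ofFinite H
  have hconv : ∀ (m : ℕ) (g : H), ∑ u ∈ fs {u : Fin m → H | (List.ofFn u).prod = g}, ∏ i, α (u i) =
      ∑ u : Fin m → H, if (List.ofFn u).prod = g then ∏ i, α (u i) else 0 := by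
    intro m g
    rw [← Finset.sum_filter]
    refine Finset.sum_congr ?_ fun _ _ => rfl
    ext u
    simp
  induction n generalizing g with
  | zero =>
    rw [hconv, pow_zero, MonoidAlgebra.one_def, MonoidAlgebra.coeff_single, Finsupp.single_apply]
    simp
  | succ n ih =>
    rw [hconv, pow_succ', coeff_mul_sum, sum_fs_univ, ← (Fin.consEquiv fun _ => H).sum_comp,
      Fintype.sum_prod_type]
    refine Finset.sum_congr rfl fun x _ => ?_
    rw [ih, hconv, coeff_ofFun, Finset.mul_sum]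
    refine Finset.sum_congr rfl fun u _ => ?_
    have e1 : (List.ofFn ((Fin.consEquiv fun _ => H) (x, u))).prod = x * (List.ofFn u).prod := by
      rw [List.ofFn_succ, List.prod_cons]
      rfl
    have e2 : ∏ i, α ((Fin.consEquiv fun _ => H) (x, u) i) = α x * ∏ i, α (u i) := by
      rw [Fin.prod_univ_succ]
      rfl
    rw [e1, e2]
    by_cases h : (List.ofFn u).prod = x⁻¹ * g
    · rw [if_pos h, if_pos (by rw [h]; group)]
    · rw [if_neg h, if_neg (fun h' => h (by rw [← h']; group)), mul_zero]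

theorem ofFun_mem_center {H : Type} [Group H] [Finite H] (α : H → O)
    (hα : ∀ x g, α (x * g * x⁻¹) = α g) : ofFun α ∈ Set.center (MonoidAlgebra O H) :=
  (mem_center_iff _).2 fun x g => by simpa using hα x g

theorem ofFun_pow_mem_center {H : Type} [Group H] [Finite H] (α : H → O)
    (hα : ∀ x g, α (x * g * x⁻¹) = α g) (n : ℕ) : (ofFun α) ^ n ∈ Set.center (MonoidAlgebra O H) :=
  (Submonoid.center (MonoidAlgebra O H)).pow_mem (ofFun_mem_center α hα) n

theorem card_mul_trace_pow_abs {H : Type} [Group H] [Finite H] (α : H → O)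
    (hα : ∀ x g, α (x * g * x⁻¹) = α g) (n : ℕ) :
    (Nat.card H : O) * LinearMap.trace O (ConjClasses H → O) (cmul ((ofFun α) ^ n)) =
      tau α n ⊤ := by
  classical
  have : Fintype H := Fintype.ofFinite H
  rw [card_mul_trace_cmul _ (ofFun_pow_mem_center α hα n), tau, sum_fs_univ]
  simp only [coeff_ofFun_pow]
  rw [Finset.sum_sigma']
  refine Finset.sum_nbij' (fun s => (s.1.2, s.1.1, s.2)) (fun t => ⟨(t.2.1, t.1), t.2.2⟩) ?_ ?_ ?_ ?_ ?_
  · rintro ⟨⟨x, y⟩, u⟩ hs
    simp only [Finset.mem_sigma, Finset.mem_univ, mem_fs, Set.mem_ofPred_eq, true_and] at hs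
    simp only [tupS, mem_fs, Set.mem_ofPred_eq, Subgroup.mem_top, implies_true, and_true]
    rw [hs]
    group
  · rintro ⟨x, y, u⟩ ht
    simp only [tupS, mem_fs, Set.mem_ofPred_eq, Subgroup.mem_top, implies_true, and_true] at ht
    simp only [Finset.mem_sigma, Finset.mem_univ, mem_fs, Set.mem_ofPred_eq, true_and]
    have := eq_inv_of_mul_eq_one_right ht
    rw [this]
    group
  · rintro ⟨⟨x, y⟩, u⟩ _
    rfl
  · rintro ⟨x, y, u⟩ _
    rfl
  · rintro ⟨⟨x, y⟩, u⟩ _
    rfl

theorem tt_coe_prod_ofFn {X : Type} [Group X] (H : Subgroup X) {n : ℕ} (u : Fin n → H) :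
    (((List.ofFn u).prod : H) : X) = (List.ofFn fun i => (u i : X)).prod := by
  rw [SubmonoidClass.coe_list_prod, List.map_ofFn]
  rfl

theorem tau_subgroup {X : Type} [Group X] [Finite X] (α : X → O) (H : Subgroup X) (n : ℕ) :
    tau (fun h : H => α h.1) n ⊤ = tau α n H := by
  classical
  unfold tau
  refine Finset.sum_bij (fun t _ => ((t.1 : X), (t.2.1 : X), fun i => (t.2.2 i : X))) ?_ ?_ ?_ ?_
  · rintro ⟨x, y, u⟩ ht
    simp only [tupS, mem_fs, Set.mem_ofPred_eq, Subgroup.mem_top, implies_true, and_true] at ht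
    simp only [tupS, mem_fs, Set.mem_ofPred_eq, SetLike.coe_mem, implies_true, and_true]
    have h1 := congrArg (Subtype.val : H → X) ht
    simp only [Subgroup.coe_mul, Subgroup.coe_inv, Subgroup.coe_one, tt_coe_prod_ofFn] at h1
    exact h1
  · rintro ⟨x, y, u⟩ _ ⟨x', y', u'⟩ _ h
    simp only [Prod.mk.injEq] at h
    obtain ⟨h1, h2, h3⟩ := h
    have h4 : u = u' := by
      funext i
      exact Subtype.ext (congrFun h3 i)
    rw [Subtype.ext h1, Subtype.ext h2, h4]
  · rintro ⟨x, y, u⟩ ht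
    simp only [tupS, mem_fs, Set.mem_ofPred_eq] at ht
    obtain ⟨h0, hx, hy, hu⟩ := ht
    refine ⟨(⟨x, hx⟩, ⟨y, hy⟩, fun i => ⟨u i, hu i⟩), ?_, rfl⟩
    simp only [tupS, mem_fs, Set.mem_ofPred_eq, Subgroup.mem_top, implies_true, and_true]
    apply Subtype.ext
    simp only [Subgroup.coe_mul, Subgroup.coe_inv, Subgroup.coe_one, tt_coe_prod_ofFn]
    exact h0
  · rintro ⟨x, y, u⟩ _
    rfl

theorem card_mul_trace_pow_rel {X : Type} [Group X] [Finite X] (α : X → O)
    (hα : ∀ x g, α (x * g * x⁻¹) = α g) (H : Subgroup X) (n : ℕ) :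
    (Nat.card H : O) * LinearMap.trace O (ConjClasses H → O) (cmul ((resA H (ofFun α)) ^ n)) =
      tau α n H := by
  have e : resA H (ofFun α) = ofFun (fun h : H => α h.1) := ext_coeff fun _ => rfl
  rw [e, card_mul_trace_pow_abs (fun h : H => α h.1) (fun x g => by simpa using hα x.1 g.1), tau_subgroup]

end Claimed.Agent.R280.A
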