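import Claimed.Agent.R280.A.Detect
import Claimed.Agent.R280.A.TraceMat
import Claimed.Agent.R280.A.TupleTrace
import Claimed.Agent.R280.A.Transport

/-!
# Row 280, part A: the trace limits for the single chains (`lem:trace-limit`), glue
-/

namespace Claimed.Agent.R280.A

open Claims.C0453

variable {p : ℕ} [Fact p.Prime] {k : Type} [Field k] [IsAlgClosed k] [CharP k p]
  {X : Type} [Group X] [Finite X]

/-- In characteristic `p` an element that differs from a commuting idempotent by a nilpotent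
element has a `p`-power equal to the idempotent. -/
theorem exists_pow_char_pow_eq {A : Type*} [Ring A] [CharP A p] {a e : A}
    (he : IsIdempotentElem e) (hc : Commute a e) (hn : IsNilpotent (a - e)) :
    ∃ r : ℕ, a ^ p ^ r = e := by
  obtain ⟨n, hn⟩ := hn
  refine ⟨n + 1, ?_⟩
  have h1 : a = (a - e) + e := by abel
  have hc' : Commute (a - e) e := hc.sub_left (Commute.refl e)
  have hlt : n ≤ p ^ (n + 1) :=
    le_trans (Nat.le_succ n) (Nat.lt_pow_self (Fact.out : p.Prime).one_lt).le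
  conv_lhs => rw [h1]
  rw [add_pow_char_pow_of_commute p _ hc', pow_eq_zero_of_le hlt hn, zero_add]
  exact he.pow_eq (pow_ne_zero _ (Fact.out : p.Prime).ne_zero)

theorem limit_pos (L : LiftData p k) (E : MonoidAlgebra k X) (hE : IsCI E) (α : X → L.O)
    (hα : ∀ g, L.π (α g) = (E * (1 - cX p k X)).coeff g)
    (hαc : ∀ x g, α (x * g * x⁻¹) = α g) (H Q : Subgroup X) (hQ : IsPGroup p Q) (hQ1 : Q ≠ ⊥)
    (hQH : Q ≤ H) (hHN : H ≤ Subgroup.normalizer (Q : Set X))
    (hCH : Subgroup.centralizer (Q : Set X) ≤ H) :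
    ∃ r : ℕ, ∀ j : ℕ, (p : L.O) ^ (j + 1) ∣ tau α (p ^ (r + j)) H - (kT E H Q : L.O) := by
  have hci := resA_brX_isCI Q H hQ hCH hHN hE
  have hw : resA H (ofFun α) ∈ Set.center (MonoidAlgebra L.O H) := by
    rw [mem_center_iff]
    intro x g
    simpa using hαc x g
  have hmap : MonoidAlgebra.mapRingHom H L.π (resA H (ofFun α)) =
      resA H (E * (1 - cX p k X)) := by
    apply ext_coeff
    intro h
    simp [hα]
  obtain ⟨r, hr⟩ := exists_pow_char_pow_eq (p := p) hci.2
    (commute_of_mem_center (resA_mem_center H (v_mem_center (p := p) hE)) _)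
    (detect_pos hE H Q hQ hQ1 hQH hHN hCH)
  refine ⟨r, fun j => ?_⟩
  have h1 := trace_limit L (resA H (ofFun α)) hw _ hci.2 r (by rw [hmap, hr]) j
  have h2 := Dvd.dvd.mul_left h1 (Nat.card H : L.O)
  rw [mul_sub, card_mul_trace_pow_rel α hαc H] at h2
  simpa [kT] using h2

theorem limit_zero (L : LiftData p k) (E : MonoidAlgebra k X) (hE : IsCI E) (α : X → L.O)
    (hα : ∀ g, L.π (α g) = (E * (1 - cX p k X)).coeff g)
    (hαc : ∀ x g, α (x * g * x⁻¹) = α g) :
    ∃ r : ℕ, ∀ j : ℕ, (p : L.O) ^ (j + 1) ∣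
      tau α (p ^ (r + j)) ⊤ - ((kT E ⊤ ⊥ : L.O) - ((Nat.card X * zCount E : ℕ) : L.O)) := by
  obtain ⟨e', hci, hnil, hk⟩ := detect_zero (p := p) hE
  have hw : ofFun α ∈ Set.center (MonoidAlgebra L.O X) := by
    rw [mem_center_iff]
    intro x g
    simpa using hαc x g
  have hmap : MonoidAlgebra.mapRingHom X L.π (ofFun α) = E * (1 - cX p k X) := by
    apply ext_coeff
    intro h
    simp [hα]
  obtain ⟨r, hr⟩ := exists_pow_char_pow_eq (p := p) hci.2
    (commute_of_mem_center (v_mem_center (p := p) hE) _) hnil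
  refine ⟨r, fun j => ?_⟩
  have h1 := trace_limit L (ofFun α) hw _ hci.2 r (by rw [hmap, hr]) j
  have h2 := Dvd.dvd.mul_left h1 (Nat.card X : L.O)
  rw [mul_sub, card_mul_trace_pow_abs α hαc] at h2
  rw [kT_top_bot hE.1, ← hk]
  push_cast
  have h3 : (Nat.card X : L.O) * ((kap e' : L.O) + (zCount E : L.O)) -
      (Nat.card X : L.O) * (zCount E : L.O) = (Nat.card X : L.O) * (kap e' : L.O) := by ring
  rw [h3]
  exact h2

end Claimed.Agent.R280.A
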