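import Claimed.Agent.R280.A.TransferChains
import Claimed.Agent.R280.A.Blocks
import Claimed.Agent.R280.A.Brauer

/-!
# Row 280, part A, package TransferTerm: the terms of the chain sum of `N(Q)/Q`
(`lem:chain-transform`, the idempotent at the next step)

Notation: `N = N(Q)`, `Y = N/Q`, `f : N → Y`, `S_P ≤ S_H ≤ Y`, `P̃ = liftS Q S_P`, `H̃ = liftS Q S_H`,
`f_H : H̃ → S_H` the restriction of `f` (surjective, kernel `≅ Q`).
* `P̃ ≤ H̃ ≤ N_X(P̃)` and `C_X(P̃) ≤ H̃` (`C_X(P̃) ≤ C_X(Q) ≤ N`, its image centralises `S_P`).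
* `e₁ = f_H (res_{H̃} Br_{P̃} E)` and `e₂ = res_{S_H} Br_{S_P} (barE Q E)` are central idempotents of
  `k[S_H]`; with `m = f_H (res_{H̃} E)`:
  `e₁ - m` is nilpotent (`isNilpotent_resA_sub_resA_brX` in `X`),
  `e₂ - res_{S_H} (barE Q E)` is nilpotent (the same in `Y`),
  `barE Q E = f (res_N E)` (`mapDomain_resA_brX`), and `res_{S_H} (f (res_N E)) = m` (coefficients:
  sums over the cosets of `Q` contained in `H̃`).  So `e₁ = e₂` (`idem_eq_of_isNilpotent_sub`).
* `l(S_H, e₁) = l(H̃, res Br_{P̃} E)` (`numSimples_mapDomain_of_isPGroup`), `|H̃| = |Q| |S_H|`.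
-/

namespace Claimed.Agent.R280.A

open Claims.C0453

variable {p : ℕ} [Fact p.Prime] {k : Type} [Field k] [IsAlgClosed k] [CharP k p]
  {X : Type} [Group X] [Finite X]

theorem coeff_mapDomain {R : Type} [Semiring R] {H Y : Type} [Group H] [Finite H] [Group Y]
    (f : H →* Y) (a : MonoidAlgebra R H) (y : Y) :
    (MonoidAlgebra.mapDomainRingHom R f a).coeff y = ∑ h ∈ fs {h : H | f h = y}, a.coeff h := by
  classical
  have h : (MonoidAlgebra.mapDomainRingHom R f a).coeff y = (Finsupp.mapDomain f a.coeff) y := rfl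
  rw [h, Finsupp.mapDomain, Finsupp.sum_apply, Finsupp.sum]
  simp only [Finsupp.single_apply]
  rw [← Finset.sum_filter]
  apply Finset.sum_subset
  · intro x hx
    rw [mem_fs]
    exact (Finset.mem_filter.1 hx).2
  · intro x hx hx'
    rw [mem_fs] at hx
    by_contra hne
    exact hx' (Finset.mem_filter.2 ⟨Finsupp.mem_support_iff.2 hne, hx⟩)

/-- The restriction `liftS Q S → S` of the quotient map `N(Q) → N(Q)/Q`. -/
noncomputable def ttF (Q : Subgroup X) (S : Subgroup (Subgroup.normalizer (Q : Set X) ⧸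
    Q.subgroupOf (Subgroup.normalizer (Q : Set X)))) : liftS Q S →* S :=
  ((QuotientGroup.mk' (Q.subgroupOf (Subgroup.normalizer (Q : Set X)))).comp
    (Subgroup.inclusion (tc_liftS_le Q S))).codRestrict S
    (fun h => ((mem_liftS Q).1 h.2).2)

theorem ttF_coe (Q : Subgroup X) (S : Subgroup (Subgroup.normalizer (Q : Set X) ⧸
    Q.subgroupOf (Subgroup.normalizer (Q : Set X)))) (h : liftS Q S) :
    ((ttF Q S h : S) : Subgroup.normalizer (Q : Set X) ⧸
      Q.subgroupOf (Subgroup.normalizer (Q : Set X))) =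
      QuotientGroup.mk' (Q.subgroupOf (Subgroup.normalizer (Q : Set X)))
        ⟨h.1, tc_liftS_le Q S h.2⟩ := rfl

theorem ttF_surjective (Q : Subgroup X) (S : Subgroup (Subgroup.normalizer (Q : Set X) ⧸
    Q.subgroupOf (Subgroup.normalizer (Q : Set X)))) : Function.Surjective (ttF Q S) := by
  rintro ⟨y, hy⟩
  obtain ⟨n, rfl⟩ := QuotientGroup.mk'_surjective _ y
  exact ⟨⟨n.1, (mem_liftS Q).2 ⟨n.2, hy⟩⟩, Subtype.ext rfl⟩

theorem ttF_ker (Q : Subgroup X) (S : Subgroup (Subgroup.normalizer (Q : Set X) ⧸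
    Q.subgroupOf (Subgroup.normalizer (Q : Set X)))) :
    (ttF Q S).ker = Q.subgroupOf (liftS Q S) := by
  ext h
  rw [MonoidHom.mem_ker, Subgroup.mem_subgroupOf, ← Subtype.coe_inj, ttF_coe, Subgroup.coe_one,
    QuotientGroup.mk'_apply, QuotientGroup.eq_one_iff, Subgroup.mem_subgroupOf]

/-- Restriction to `S` after the quotient map is the quotient map after the restriction to the
preimage of `S`. -/
theorem tt_resA_mapDomain {R : Type} [Semiring R] (Q : Subgroup X)
    (S : Subgroup (Subgroup.normalizer (Q : Set X) ⧸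
      Q.subgroupOf (Subgroup.normalizer (Q : Set X)))) (v : MonoidAlgebra R X) :
    resA S (MonoidAlgebra.mapDomainRingHom R
      (QuotientGroup.mk' (Q.subgroupOf (Subgroup.normalizer (Q : Set X))))
      (resA (Subgroup.normalizer (Q : Set X)) v)) =
      MonoidAlgebra.mapDomainRingHom R (ttF Q S) (resA (liftS Q S) v) := by
  apply ext_coeff
  intro y
  rw [coeff_resA, coeff_mapDomain, coeff_mapDomain]
  symm
  refine Finset.sum_bij
    (fun h _ => (⟨h.1, tc_liftS_le Q S h.2⟩ : Subgroup.normalizer (Q : Set X))) ?_ ?_ ?_ ?_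
  · intro h hh
    rw [mem_fs] at hh ⊢
    show QuotientGroup.mk' _ _ = _
    rw [← ttF_coe, show ttF Q S h = y from hh]
  · intro a _ b _ hab
    exact Subtype.ext (congrArg (fun z : Subgroup.normalizer (Q : Set X) => (z : X)) hab)
  · intro n hn
    rw [mem_fs] at hn
    have hn' : QuotientGroup.mk' (Q.subgroupOf (Subgroup.normalizer (Q : Set X))) n = y.1 := hn
    refine ⟨⟨n.1, (mem_liftS Q).2 ⟨n.2, by rw [hn']; exact y.2⟩⟩, ?_, rfl⟩
    rw [mem_fs]
    exact Subtype.ext hn'
  · intro h _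
    rfl

theorem lT_barE {E : MonoidAlgebra k X} (hE : IsCI E) (Q : Subgroup X) (hQ : IsPGroup p Q)
    (SH SP : Subgroup (Subgroup.normalizer (Q : Set X) ⧸
      Q.subgroupOf (Subgroup.normalizer (Q : Set X))))
    (hP : IsPGroup p SP) (h1 : SP ≤ SH) (h2 : SH ≤ Subgroup.normalizer (SP : Set _))
    (h3 : Subgroup.centralizer (SP : Set _) ≤ SH) :
    Nat.card Q * lT (barE Q E) SH SP = lT E (liftS Q SH) (liftS Q SP) := by
  have hPt : IsPGroup p (liftS Q SP) := (isPGroup_liftS_iff Q hQ).2 hP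
  have hPH : liftS Q SP ≤ liftS Q SH := (liftS_le_iff Q).2 h1
  have hHN : liftS Q SH ≤ Subgroup.normalizer (liftS Q SP : Set X) := by
    have h := (liftS_le_iff Q).2 h2
    rw [liftS_normalizer] at h
    exact h.trans inf_le_left
  have hCH : Subgroup.centralizer (liftS Q SP : Set X) ≤ liftS Q SH := by
    intro x hx
    have hxQ : x ∈ Subgroup.centralizer (Q : Set X) :=
      Subgroup.centralizer_le (SetLike.coe_subset_coe.2 (tc_le_liftS Q SP)) hx
    have hxN : x ∈ Subgroup.normalizer (Q : Set X) := Subgroup.centralizer_le_normalizer _ hxQ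
    refine (mem_liftS Q).2 ⟨hxN, h3 ?_⟩
    rw [Subgroup.mem_centralizer_iff]
    intro s hs
    obtain ⟨n, rfl⟩ := QuotientGroup.mk'_surjective _ s
    have hn : (n : X) ∈ liftS Q SP := (mem_liftS Q).2 ⟨n.2, hs⟩
    have hc := (Subgroup.mem_centralizer_iff.1 hx) n hn
    rw [← map_mul, ← map_mul]
    congr 1
    exact Subtype.ext hc
  have hsurj := ttF_surjective Q SH
  have hker : IsPGroup p (ttF Q SH).ker := by
    rw [ttF_ker]
    exact hQ.comap_subtype
  have hbar : IsCI (barE Q E) := barE_isCI hE Q hQ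
  have he1 : IsCI (MonoidAlgebra.mapDomainRingHom k (ttF Q SH)
      (resA (liftS Q SH) (brX (liftS Q SP) E))) := by
    have h := resA_brX_isCI (liftS Q SP) (liftS Q SH) hPt hCH hHN hE
    exact ⟨mapDomain_mem_center _ hsurj h.1, h.2.map _⟩
  have he2 : IsCI (resA SH (brX SP (barE Q E))) := resA_brX_isCI SP SH hP h3 h2 hbar
  have hm : MonoidAlgebra.mapDomainRingHom k (ttF Q SH) (resA (liftS Q SH) E) ∈
      Set.center (MonoidAlgebra k SH) :=
    mapDomain_mem_center _ hsurj (resA_mem_center _ hE.1)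
  have hn1 : IsNilpotent (MonoidAlgebra.mapDomainRingHom k (ttF Q SH) (resA (liftS Q SH) E) -
      MonoidAlgebra.mapDomainRingHom k (ttF Q SH)
        (resA (liftS Q SH) (brX (liftS Q SP) E))) := by
    have h := isNilpotent_resA_sub_resA_brX (liftS Q SP) (liftS Q SH) hPt hPH hHN
      (isInv_of_mem_center hE.1 _)
    have h' := h.map (MonoidAlgebra.mapDomainRingHom k (ttF Q SH))
    rwa [map_sub] at h'
  have hbarE : barE Q E = MonoidAlgebra.mapDomainRingHom k
      (QuotientGroup.mk' (Q.subgroupOf (Subgroup.normalizer (Q : Set X))))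
      (resA (Subgroup.normalizer (Q : Set X)) E) :=
    mapDomain_resA_brX Q (Subgroup.normalizer (Q : Set X)) hQ Subgroup.le_normalizer le_rfl _
      (QuotientGroup.ker_mk' _) (isInv_of_mem_center hE.1 Q)
  have hm2 : resA SH (barE Q E) =
      MonoidAlgebra.mapDomainRingHom k (ttF Q SH) (resA (liftS Q SH) E) := by
    rw [hbarE]
    exact tt_resA_mapDomain Q SH E
  have hn2 : IsNilpotent (MonoidAlgebra.mapDomainRingHom k (ttF Q SH) (resA (liftS Q SH) E) -
      resA SH (brX SP (barE Q E))) := by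
    have h := isNilpotent_resA_sub_resA_brX SP SH hP h1 h2 (isInv_of_mem_center hbar.1 SP)
    rwa [hm2] at h
  have hcomm : Commute
      (MonoidAlgebra.mapDomainRingHom k (ttF Q SH) (resA (liftS Q SH) E) -
        resA SH (brX SP (barE Q E)))
      (MonoidAlgebra.mapDomainRingHom k (ttF Q SH) (resA (liftS Q SH) E) -
        MonoidAlgebra.mapDomainRingHom k (ttF Q SH)
          (resA (liftS Q SH) (brX (liftS Q SP) E))) := by
    exact Commute.sub_left (((Semigroup.mem_center_iff.1 hm) _).symm)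
      (((Semigroup.mem_center_iff.1 he2.1) _).symm)
  have hnil : IsNilpotent (MonoidAlgebra.mapDomainRingHom k (ttF Q SH)
      (resA (liftS Q SH) (brX (liftS Q SP) E)) - resA SH (brX SP (barE Q E))) := by
    have h := Commute.isNilpotent_sub hcomm hn2 hn1
    rwa [sub_sub_sub_cancel_left] at h
  have heq : MonoidAlgebra.mapDomainRingHom k (ttF Q SH)
      (resA (liftS Q SH) (brX (liftS Q SP) E)) = resA SH (brX SP (barE Q E)) :=
    idem_eq_of_isNilpotent_sub he1.2 he2.2 (((Semigroup.mem_center_iff.1 he1.1) _).symm) hnil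
  unfold lT
  rw [card_liftS, ← heq, numSimples_mapDomain_of_isPGroup (ttF Q SH) hsurj hker, mul_assoc]

end Claimed.Agent.R280.A
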