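import Claimed.Agent.R280.A.Blocks
import Claimed.Agent.R280.A.Brauer

/-!
# Row 280, part A: the frozen weight count is `zCount (barE Q B)` (glue, sorry free)
-/

namespace Claimed.Agent.R280.A

open Claims.C0453

variable {p : ℕ} [Fact p.Prime] {k : Type} [Field k] [IsAlgClosed k] [CharP k p]
  {X : Type} [Group X] [Finite X]

theorem commute_of_center {A : Type*} [Ring A] {a : A} (ha : a ∈ Set.center A) (b : A) :
    Commute a b := ((Semigroup.mem_center_iff.1 ha) b).symm

theorem eq_zero_of_idem_of_isNilpotent {A : Type*} [Ring A] {e : A} (he : IsIdempotentElem e)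
    (hn : IsNilpotent e) : e = 0 := by
  obtain ⟨n, hn⟩ := hn
  cases n with
  | zero =>
    have h1 : (1 : A) = 0 := by simpa using hn
    rw [← mul_one e, h1, mul_zero]
  | succ n => rwa [he.pow_succ_eq] at hn

/-- The frozen block induction in terms of the Brauer map. -/
theorem brauerInducesTo_iff {B : MonoidAlgebra k X} (hB : IsBlockIdempotent B) (Q N : Subgroup X)
    (hQ : IsPGroup p Q) (hQN : Q ≤ N) (hNN : N ≤ Subgroup.normalizer (Q : Set X))
    (hCN : Subgroup.centralizer (Q : Set X) ≤ N) {b : MonoidAlgebra k N}
    (hb : IsBlockIdempotent b) :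
    BrauerInducesTo N b B ↔ resA N (brX Q B) * b = b := by
  have hBci : IsCI B := IsCI.of_block hB
  have hβ : IsCI (resA N (brX Q B)) := resA_brX_isCI Q N hQ hCN hNN hBci
  have hnil : ∀ z ∈ Set.center (MonoidAlgebra k X),
      IsNilpotent (resA N z - resA N (brX Q z)) := fun z hz =>
    isNilpotent_resA_sub_resA_brX Q N hQ hQN hNN (isInv_of_mem_center hz Q)
  constructor
  · intro h
    obtain ⟨μ, h1, h2⟩ := h B hB.1
    -- `μ = 1`
    have hμ : μ = 1 := by
      by_contra hne
      have h3 : (B - algebraMap k (MonoidAlgebra k X) μ) * B = (1 - μ) • B := by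
        rw [sub_mul, hB.2.1.eq, Algebra.algebraMap_eq_smul_one, smul_mul_assoc, one_mul, sub_smul,
          one_smul]
      rw [h3] at h1
      have h4 : IsNilpotent B := by
        have := h1.smul (1 - μ)⁻¹
        rwa [smul_smul, inv_mul_cancel₀ (sub_ne_zero.2 (Ne.symm hne)), one_smul] at this
      exact hB.2.2.1 (eq_zero_of_idem_of_isNilpotent hB.2.1 h4)
    subst hμ
    rw [map_one, coeffRestrict_eq_resA] at h2
    -- `(β - 1) b` is nilpotent
    have h5 : IsNilpotent ((resA N (brX Q B) - 1) * b) := by
      have h6 : (resA N (brX Q B) - 1) * b =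
          (resA N B - 1) * b - (resA N B - resA N (brX Q B)) * b := by noncomm_ring
      rw [h6]
      have hc1 : (resA N B - resA N (brX Q B)) ∈ Set.center (MonoidAlgebra k N) :=
        (Subring.center _).sub_mem (resA_mem_center N hB.1) hβ.1
      apply Commute.isNilpotent_sub _ h2
      · exact (commute_of_center hc1 b).isNilpotent_mul_right (hnil B hB.1)
      · apply Commute.symm
        apply commute_of_center
        exact (Submonoid.center _).mul_mem hc1 hb.1
    have h7 : IsIdempotentElem ((1 - resA N (brX Q B)) * b) :=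
      IsIdempotentElem.mul_of_commute
        (commute_of_center ((Subring.center _).sub_mem (Subring.one_mem _) hβ.1) b)
        hβ.2.one_sub hb.2.1
    have h8 : (1 - resA N (brX Q B)) * b = 0 := by
      apply eq_zero_of_idem_of_isNilpotent h7
      have : (1 - resA N (brX Q B)) * b = -((resA N (brX Q B) - 1) * b) := by noncomm_ring
      rw [this]; exact h5.neg
    rw [sub_mul, one_mul, sub_eq_zero] at h8
    exact h8.symm
  · intro h z hz
    obtain ⟨μ, hμ⟩ := block_exists_eigenvalue hB hz
    refine ⟨μ, hμ, ?_⟩
    rw [coeffRestrict_eq_resA]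
    have hzμ : z - algebraMap k (MonoidAlgebra k X) μ ∈ Set.center (MonoidAlgebra k X) :=
      (Subring.center _).sub_mem hz (Subalgebra.algebraMap_mem (Subalgebra.center k _) μ)
    -- apply the ring homomorphism `σ = res ∘ Br`
    have h1 : resA N (brX Q ((z - algebraMap k (MonoidAlgebra k X) μ) * B)) =
        (resA N (brX Q z) - algebraMap k (MonoidAlgebra k N) μ) * resA N (brX Q B) := by
      rw [resA_brX_mul Q N hQ hCN (isInv_of_mem_center hzμ Q)
        (isInv_of_mem_center hB.1 Q), brX_sub, resA_sub]
      rw [brX_algebraMap, resA_algebraMap]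
    have hσ : ∀ n : ℕ, resA N (brX Q (((z - algebraMap k (MonoidAlgebra k X) μ) * B) ^ n)) =
        (resA N (brX Q ((z - algebraMap k (MonoidAlgebra k X) μ) * B))) ^ n := by
      have hc : (z - algebraMap k (MonoidAlgebra k X) μ) * B ∈ Set.center (MonoidAlgebra k X) :=
        (Submonoid.center _).mul_mem hzμ hB.1
      intro n
      induction n with
      | zero => simp
      | succ n ih =>
        rw [pow_succ, pow_succ, resA_brX_mul Q N hQ hCN
          (isInv_of_mem_center ((Submonoid.center _).pow_mem hc n) Q) (isInv_of_mem_center hc Q), ih]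
    have h2 : IsNilpotent ((resA N (brX Q z) - algebraMap k (MonoidAlgebra k N) μ) *
        resA N (brX Q B)) := by
      obtain ⟨n, hn⟩ := hμ
      refine ⟨n, ?_⟩
      rw [← h1, ← hσ, hn, brX_zero, resA_zero]
    have hzc : resA N (brX Q z) - algebraMap k (MonoidAlgebra k N) μ ∈
        Set.center (MonoidAlgebra k N) :=
      (Subring.center _).sub_mem (resA_brX_mem_center Q N hNN hz)
        (Subalgebra.algebraMap_mem (Subalgebra.center k _) μ)
    have h3 : IsNilpotent ((resA N (brX Q z) - algebraMap k (MonoidAlgebra k N) μ) * b) := by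
      have : (resA N (brX Q z) - algebraMap k (MonoidAlgebra k N) μ) * b =
          ((resA N (brX Q z) - algebraMap k (MonoidAlgebra k N) μ) * resA N (brX Q B)) * b := by
        rw [mul_assoc, h]
      rw [this]
      exact (commute_of_center ((Submonoid.center _).mul_mem hzc hβ.1) b).isNilpotent_mul_right h2
    have hc1 : (resA N z - resA N (brX Q z)) ∈ Set.center (MonoidAlgebra k N) :=
      (Subring.center _).sub_mem (resA_mem_center N hz) (resA_brX_mem_center Q N hNN hz)
    have h4 : (resA N z - algebraMap k (MonoidAlgebra k N) μ) * b =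
        (resA N (brX Q z) - algebraMap k (MonoidAlgebra k N) μ) * b +
          (resA N z - resA N (brX Q z)) * b := by noncomm_ring
    rw [h4]
    apply Commute.isNilpotent_add _ h3
    · exact (commute_of_center hc1 b).isNilpotent_mul_right (hnil z hz)
    · apply commute_of_center
      exact (Submonoid.center _).mul_mem hzc hb.1

/-- **The frozen weight count.** -/
theorem weightsAt_eq_zCount (B : MonoidAlgebra k X) (hB : IsBlockIdempotent B) (Q : Subgroup X)
    (hQ : IsPGroup p Q) : weightsAt Q B = zCount (barE Q B) := by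
  unfold weightsAt zCount
  apply Nat.card_congr
  apply Equiv.subtypeEquivRight
  intro e
  apply and_congr_right
  intro he
  have hβ : IsCI (resA (Subgroup.normalizer (Q : Set X)) (brX Q B)) :=
    resA_brX_isCI Q _ hQ (Subgroup.centralizer_le_normalizer _) le_rfl (IsCI.of_block hB)
  have hiff := fun (b : MonoidAlgebra k (Subgroup.normalizer (Q : Set X)))
    (hb : IsBlockIdempotent b) => brauerInducesTo_iff hB Q (Subgroup.normalizer (Q : Set X)) hQ
      Subgroup.le_normalizer le_rfl (Subgroup.centralizer_le_normalizer _) hb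
  constructor
  · rintro ⟨b, hb, h1, h2⟩
    rw [hiff b hb] at h2
    unfold barE
    rw [← h1, ← mul_assoc, ← map_mul, h2]
  · intro h
    unfold barE at h
    -- some block `b` of `N` acts as the identity on `e`
    have hex : ∃ b : MonoidAlgebra k (Subgroup.normalizer (Q : Set X)), IsBlockIdempotent b ∧
        MonoidAlgebra.mapDomainRingHom k
          (QuotientGroup.mk' (Q.subgroupOf (Subgroup.normalizer (Q : Set X)))) b * e ≠ 0 := by
      by_contra hcon
      push Not at hcon
      have h1 : e = 0 := by
        calc e = MonoidAlgebra.mapDomainRingHom k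
              (QuotientGroup.mk' (Q.subgroupOf (Subgroup.normalizer (Q : Set X)))) 1 * e := by
                rw [map_one, one_mul]
          _ = 0 := by
                rw [← sum_blocks, map_sum, Finset.sum_mul]
                exact Finset.sum_eq_zero fun b hb => hcon b (mem_blocks.1 hb)
      exact he.1.2.2.1 h1
    obtain ⟨b, hb, hne⟩ := hex
    have hπb : IsCI (MonoidAlgebra.mapDomainRingHom k
        (QuotientGroup.mk' (Q.subgroupOf (Subgroup.normalizer (Q : Set X)))) b) :=
      ⟨mapDomain_mem_center _ (QuotientGroup.mk'_surjective _) hb.1, hb.2.1.map _⟩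
    have h1 := (ci_mul_block hπb he.1).resolve_right hne
    refine ⟨b, hb, h1, (hiff b hb).2 ?_⟩
    refine (ci_mul_block hβ hb).resolve_right ?_
    intro h0
    apply he.1.2.2.1
    rw [← h, ← h1, ← mul_assoc, ← map_mul, h0, map_zero, zero_mul]

end Claimed.Agent.R280.A
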