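import Claimed.Agent.R280.A.Star
import Claimed.Agent.R280.A.TransferTerm
import Claimed.Agent.R280.A.Weights

/-!
# Row 280, part A: the frozen statement of S0525 from `TupleDiv p` (glue, sorry free)
-/

set_option maxHeartbeats 400000

namespace Claimed.Agent.R280.A

open Claims.C0453

variable {p : ℕ} [Fact p.Prime] {k : Type} [Field k] [IsAlgClosed k] [CharP k p]
  {X : Type} [Group X] [Finite X]

theorem transfer (E : MonoidAlgebra k X) (hE : IsCI E) (Q : Subgroup X) (hQ : IsPGroup p Q) :
    (Nat.card Q : ℤ) * ∑ C ∈ fs {C : Finset (Subgroup (Subgroup.normalizer (Q : Set X) ⧸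
        Q.subgroupOf (Subgroup.normalizer (Q : Set X)))) | IsPChain p C ∧ IsNormalChain C},
      (-1 : ℤ) ^ C.card * (lT (barE Q E) (stab C) (top C) : ℤ) =
    ∑ D ∈ fs (chainsAbove p Q), (-1 : ℤ) ^ D.card *
      (lT E (stab D ⊓ Subgroup.normalizer (Q : Set X)) (top D ⊔ Q) : ℤ) := by
  rw [← sum_chains_quotient Q hQ (fun H P => (lT E H P : ℤ)), Finset.mul_sum]
  apply Finset.sum_congr rfl
  intro C hC
  have hC' : IsPChain p C ∧ IsNormalChain C := by simpa using hC
  rw [← lT_barE hE Q hQ (stab C) (top C) (isPGroup_top hC'.1) hC'.2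
    (stab_le_normalizer_top hC'.1) (centralizer_top_le_stab C)]
  push_cast
  ring

/-- **The weighted form of the weight equality**, for central idempotents. -/
theorem main_identity (hT : TupleDiv p) (E : MonoidAlgebra k X) (hE : IsCI E) :
    Nat.card X * numSimplesInBlock E =
    ∑ Q ∈ fs {Q : Subgroup X | IsPGroup p Q},
      Nat.card (Subgroup.normalizer (Q : Set X)) * zCount (barE Q E) := by
  have h := telescope (p := p) (X := X) (fun H P => (lT E H P : ℤ))
  rw [lT_top_bot] at h
  have : ((Nat.card X * numSimplesInBlock E : ℕ) : ℤ) =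
      ((∑ Q ∈ fs {Q : Subgroup X | IsPGroup p Q},
      Nat.card (Subgroup.normalizer (Q : Set X)) * zCount (barE Q E) : ℕ) : ℤ) := by
    rw [← h, Nat.cast_sum]
    apply Finset.sum_congr rfl
    intro Q hQ
    have hQ' : IsPGroup p Q := by simpa using hQ
    rw [← transfer E hE Q hQ', ← star hT (barE Q E) (barE_isCI hE Q hQ')]
    have hc : Nat.card (Subgroup.normalizer (Q : Set X)) =
        Nat.card (Subgroup.normalizer (Q : Set X) ⧸ Q.subgroupOf (Subgroup.normalizer (Q : Set X)))
          * Nat.card Q := by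
      rw [Subgroup.card_eq_card_quotient_mul_card_subgroup
        (Q.subgroupOf (Subgroup.normalizer (Q : Set X)))]
      congr 1
      exact Nat.card_congr (Subgroup.subgroupOfEquivOfLe Subgroup.le_normalizer).toEquiv
    rw [hc]
    push_cast
    ring
  exact_mod_cast this

/-- Part A: the frozen statement of S0525 follows from uniform tuple divisibility. -/
theorem S0525_of_tupleDiv (hT : TupleDiv p) (B : MonoidAlgebra k X) (hB : IsBlockIdempotent B) :
    (numSimplesInBlock B : ℚ) = numWeightClasses p B := by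
  have hmain := main_identity hT B ⟨hB.1, hB.2.1⟩
  have hX : (Nat.card X : ℚ) ≠ 0 := by
    exact_mod_cast (Nat.card_pos (α := X)).ne'
  unfold numWeightClasses
  have h0 : (∑ᶠ (Q : Subgroup X) (_ : IsPGroup p Q),
      (weightsAt Q B : ℚ) * Nat.card (Subgroup.normalizer (Q : Set X)) / Nat.card X) =
      ∑ᶠ (Q : Subgroup X) (_ : Q ∈ {Q : Subgroup X | IsPGroup p Q}),
      (weightsAt Q B : ℚ) * Nat.card (Subgroup.normalizer (Q : Set X)) / Nat.card X := rfl
  rw [h0, finsum_mem_eq_finite_toFinset_sum _ (Set.toFinite {Q : Subgroup X | IsPGroup p Q})]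
  have h2 : ∀ Q ∈ (Set.toFinite {Q : Subgroup X | IsPGroup p Q}).toFinset,
      (weightsAt Q B : ℚ) * Nat.card (Subgroup.normalizer (Q : Set X)) / Nat.card X =
      ((Nat.card (Subgroup.normalizer (Q : Set X)) * zCount (barE Q B) : ℕ) : ℚ) / Nat.card X := by
    intro Q hQ
    have hQ' : IsPGroup p Q := by simpa using hQ
    rw [weightsAt_eq_zCount B hB Q hQ']
    push_cast
    ring
  rw [Finset.sum_congr rfl h2, ← Finset.sum_div, ← Nat.cast_sum]
  have h3 : (Set.toFinite {Q : Subgroup X | IsPGroup p Q}).toFinset =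
      fs {Q : Subgroup X | IsPGroup p Q} := rfl
  rw [h3, ← hmain]
  push_cast
  field_simp

end Claimed.Agent.R280.A
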