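import Claimed.Agent.R280.A.Basic

/-!
# Row 280, part A, package PSum: orbit cancellation for `p`-groups

All "coefficients are constant on the orbits, nontrivial orbits have size divisible by `p`"
arguments of the paper are instances of `sum_eq_sum_fixed`.
-/

namespace Claimed.Agent.R280.A

variable {p : ℕ} [Fact p.Prime]

/-- **Orbit cancellation.**  A `p`-group `P` acts on a finite set `S`, `f` is an invariant function
with values in a group killed by `p`.  Then `∑ f` is the sum over the fixed points. -/
theorem sum_eq_sum_fixedPoints {P : Type*} [Group P] (hP : IsPGroup p P) {S : Type*} [Finite S]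
    [MulAction P S] {M : Type*} [AddCommGroup M] (hM : ∀ m : M, p • m = 0) (f : S → M)
    (hf : ∀ (g : P) (s : S), f (g • s) = f s) :
    ∑ s ∈ fs (Set.univ : Set S), f s = ∑ s ∈ fs (MulAction.fixedPoints P S), f s := by
  classical
  have := Fintype.ofFinite S
  -- the sum over an orbit of a point that is not fixed vanishes
  have key : ∀ x : S, x ∉ MulAction.fixedPoints P S →
      ∑ y ∈ fs (MulAction.orbit P x), f y = 0 := by
    intro x hx
    have h1 : ∀ y ∈ fs (MulAction.orbit P x), f y = f x := by
      intro y hy
      obtain ⟨g, rfl⟩ : y ∈ MulAction.orbit P x := by simpa using hy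
      exact hf g x
    rw [Finset.sum_congr rfl h1, Finset.sum_const]
    obtain ⟨n, hn⟩ := hP.card_orbit x
    have hcard : (fs (MulAction.orbit P x)).card = Nat.card (MulAction.orbit P x) := by
      rw [Nat.card_eq_card_toFinset]
      congr 1
      ext y; simp
    rw [hcard, hn]
    cases n with
    | zero =>
      exfalso
      apply hx
      rw [MulAction.mem_fixedPoints_iff_card_orbit_eq_one, ← Nat.card_eq_fintype_card, hn, pow_zero]
    | succ n => rw [pow_succ, mul_smul, hM, smul_zero]
  have hsplit : ∑ s ∈ fs (Set.univ : Set S), f s =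
      ∑ s ∈ fs (MulAction.fixedPoints P S), f s +
        ∑ s ∈ fs ((MulAction.fixedPoints P S)ᶜ), f s := by
    rw [← Finset.sum_union]
    · apply Finset.sum_congr _ (fun _ _ => rfl)
      ext s
      simp only [mem_fs, Set.mem_univ, Finset.mem_union, Set.mem_compl_iff, true_iff]
      exact em _
    · rw [Finset.disjoint_left]
      intro s hs hs'
      simp only [mem_fs, Set.mem_compl_iff] at hs hs'
      exact hs' hs
  rw [hsplit, add_eq_left,
    Finset.sum_partition (MulAction.orbitRel P S) (s := fs ((MulAction.fixedPoints P S)ᶜ))]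
  apply Finset.sum_eq_zero
  intro xbar hx
  obtain ⟨x, hx2, rfl⟩ := Finset.mem_image.1 hx
  have hx' : x ∉ MulAction.fixedPoints P S := by
    rw [mem_fs] at hx2; exact hx2
  rw [← key x hx']
  apply Finset.sum_congr _ (fun _ _ => rfl)
  ext y
  simp only [Finset.mem_filter, mem_fs, Set.mem_compl_iff]
  constructor
  · rintro ⟨_, h⟩
    exact (MulAction.orbitRel_apply).1 (Quotient.exact h)
  · intro h
    refine ⟨?_, Quotient.sound ((MulAction.orbitRel_apply).2 h)⟩
    intro hy
    apply hx'
    obtain ⟨g, rfl⟩ := h
    intro g'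
    have h2 := hy (g * g' * g⁻¹)
    simp only [mul_smul, inv_smul_smul] at h2
    exact smul_left_cancel g h2

/-- The same for an action given by a homomorphism to the permutations. -/
theorem sum_eq_sum_fixed {P : Type*} [Group P] (hP : IsPGroup p P) {S : Type*} [Finite S]
    (ρ : P →* Equiv.Perm S) {M : Type*} [AddCommGroup M] (hM : ∀ m : M, p • m = 0) (f : S → M)
    (hf : ∀ (g : P) (s : S), f (ρ g s) = f s) :
    ∑ s ∈ fs (Set.univ : Set S), f s = ∑ s ∈ fs {s : S | ∀ g : P, ρ g s = s}, f s := by
  let _ : MulAction P S := MulAction.compHom S ρ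
  exact sum_eq_sum_fixedPoints hP hM f hf

/-- Conjugation version: `P ≤ X` a `p`-subgroup, `f : X → M` invariant under conjugation by `P`. -/
theorem sum_conj_eq_sum_centralizer {X : Type} [Group X] [Finite X] (P : Subgroup X)
    (hP : IsPGroup p P) {M : Type*} [AddCommGroup M] (hM : ∀ m : M, p • m = 0) (f : X → M)
    (hf : ∀ x ∈ P, ∀ g : X, f (x * g * x⁻¹) = f g) :
    ∑ g ∈ fs (Set.univ : Set X), f g =
      ∑ g ∈ fs (Subgroup.centralizer (P : Set X) : Set X), f g := by
  rw [sum_eq_sum_fixed hP (((MulAut.toPerm X).comp MulAut.conj).comp P.subtype) hM f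
    (fun x g => hf x.1 x.2 g)]
  apply Finset.sum_congr _ (fun _ _ => rfl)
  ext g
  simp only [mem_fs, Set.mem_ofPred_eq, SetLike.mem_coe, Subgroup.mem_centralizer_iff]
  constructor
  · intro h x hx
    have := h ⟨x, hx⟩
    simp only [MonoidHom.coe_comp, Function.comp_apply, Subgroup.subtype_apply] at this
    have h2 : x * g * x⁻¹ = g := this
    calc x * g = x * g * x⁻¹ * x := by group
      _ = g * x := by rw [h2]
  · intro h x
    have := h x.1 x.2
    show (x : X) * g * (x : X)⁻¹ = g
    rw [this]; group

end Claimed.Agent.R280.A
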