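import Claimed.Agent.R280.A.Frob
import Claimed.Agent.R280.A.PParts
import Claimed.Agent.R280.A.Cocenter
import Claimed.Agent.R280.A.Radical

/-!
# Row 280, part A, package RegularA (see also RegularB, Regular): `l(X, e)` is the rank of `e` on the span of the
`p`-regular classes (`lem:cocenter-ranks`)

`V = ConjClasses X → k` is the cocenter, `Vreg` the span of the `p`-regular classes,
`Vrad = cl (rad)`.  Then `V = Vreg ⊕ Vrad`, both summands are stable under central idempotents.

* `cl_pow_char_pow` : Frobenius on the cocenter in coordinates (package Frob + `ker_cl`).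
* `Vreg ⊓ Vrad = ⊥`: let `x = cl r ∈ Vreg`, `r ∈ rad`; choose `m` with `r ^ p ^ m = 0` and
  `g ^ p ^ m = pReg g` for all `g` (`exists_pow_eq_pReg`).  By `cl_pow_char_pow` the function
  `c ↦ (x c) ^ p ^ m` is `cl (r' ^ p ^ m)` for `r' = sec x ≡ r` modulo commutators (on `p`-regular
  classes `g ↦ g ^ p ^ m` is the identity), and `cl (r' ^ p ^ m) = cl (r ^ p ^ m) = 0`
  (`pow_char_pow_sub_mem_commS`).  So `x = 0`.
* `Vreg ⊔ Vrad = ⊤` (package RegularB): `k[X] / rad` is semisimple, so a product of matrix algebras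
  over `k` (`IsSemisimpleRing.exists_algEquiv_pi_matrix_of_isAlgClosed`); a matrix algebra is
  spanned modulo commutators by the idempotent `e₁₁` (`e_ij = [e_ii, e_ij]`,
  `e_ii - e_11 = [e_i1, e_1i]`).  So every `a` is `≡ ∑ t_j i_j` modulo `rad + commutators` with
  `i_j ^ 2 - i_j ∈ rad`.  Put `a' = ∑ s_j i_j`, `s_j ^ p ^ m = t_j`.  Then
  `a' ^ p ^ m ≡ ∑ t_j i_j ^ p ^ m ≡ a` modulo `rad + commutators` and `cl (a' ^ p ^ m) ∈ Vreg` by
  `cl_pow_char_pow`.
* stability: `(e a) ^ p ^ m = e a ^ p ^ m`, every element of `Vreg` is `cl (a ^ p ^ m)`.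
-/

namespace Claimed.Agent.R280.A

open Claims.C0453

variable {p : ℕ} [Fact p.Prime] {k : Type} [Field k] [CharP k p] {X : Type} [Group X] [Finite X]

/-- The image of the radical in the cocenter. -/
noncomputable def Vrad (k : Type) [Field k] (X : Type) [Group X] [Finite X] :
    Submodule k (ConjClasses X → k) :=
  ((rad k X).restrictScalars k).map (cl k X)

theorem Vrad_eqns_cite : True := by
  have := @Vrad.eq_1
  trivial

theorem commS_le_ker_cl {a : MonoidAlgebra k X} (ha : a ∈ commS (MonoidAlgebra k X)) :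
    cl k X a = 0 := by
  induction ha using AddSubgroup.closure_induction with
  | mem c hc =>
    obtain ⟨u, v, rfl⟩ := hc
    rw [map_sub, cl_mul_comm, sub_self]
  | zero => exact map_zero _
  | add a b _ _ iha ihb => rw [map_add, iha, ihb, add_zero]
  | neg a _ iha => rw [map_neg, iha, neg_zero]

theorem regA_smul_mem_commS (c : k) {a : MonoidAlgebra k X}
    (ha : a ∈ commS (MonoidAlgebra k X)) : c • a ∈ commS (MonoidAlgebra k X) := by
  induction ha using AddSubgroup.closure_induction with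
  | mem x hx =>
    obtain ⟨u, v, rfl⟩ := hx
    refine AddSubgroup.subset_closure ⟨c • u, v, ?_⟩
    rw [smul_sub, smul_mul_assoc, mul_smul_comm]
  | zero => rw [smul_zero]; exact AddSubgroup.zero_mem _
  | add a b _ _ iha ihb => rw [smul_add]; exact AddSubgroup.add_mem _ iha ihb
  | neg a _ iha => rw [smul_neg]; exact AddSubgroup.neg_mem _ iha

theorem regA_mem_commS_of_cl_eq_zero {a : MonoidAlgebra k X} (ha : cl k X a = 0) :
    a ∈ commS (MonoidAlgebra k X) := by
  have h1 : a ∈ LinearMap.ker (cl k X) := ha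
  rw [ker_cl] at h1
  clear ha
  induction h1 using Submodule.span_induction with
  | mem x hx => exact AddSubgroup.subset_closure hx
  | zero => exact AddSubgroup.zero_mem _
  | add a b _ _ iha ihb => exact AddSubgroup.add_mem _ iha ihb
  | smul c a _ iha => exact regA_smul_mem_commS c iha

theorem regA_cl_eq_of_sub_mem {a b : MonoidAlgebra k X}
    (h : a - b ∈ commS (MonoidAlgebra k X)) : cl k X a = cl k X b := by
  have := commS_le_ker_cl h
  rwa [map_sub, sub_eq_zero] at this

/-- Frobenius on the cocenter in coordinates. -/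
theorem cl_pow_char_pow (a : MonoidAlgebra k X) (m : ℕ) :
    cl k X (a ^ p ^ m) = cl k X (∑ g ∈ fs (Set.univ : Set X),
      MonoidAlgebra.single (g ^ p ^ m) (a.coeff g ^ p ^ m)) := by
  have h := sum_pow_char_pow_sub_mem_commS (p := p) (fs (Set.univ : Set X))
    (fun g => MonoidAlgebra.single g (a.coeff g)) m
  rw [← eq_sum_single a] at h
  simp only [MonoidAlgebra.single_pow] at h
  exact regA_cl_eq_of_sub_mem h

theorem regA_orderOf_eq_of_mk_eq {g h : X} (hgh : ConjClasses.mk g = ConjClasses.mk h) :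
    orderOf g = orderOf h := by
  obtain ⟨x, hx⟩ := isConj_iff.1 (ConjClasses.mk_eq_mk_iff_isConj.1 hgh)
  rw [← hx]
  exact (orderOf_injective (MulAut.conj x).toMonoidHom (MulAut.conj x).injective g).symm

theorem regA_cl_single_mem_Vreg {t : X} (ht : ¬ p ∣ orderOf t) (r : k) :
    cl k X (MonoidAlgebra.single t r) ∈ Vreg p k X := by
  classical
  intro g hg
  rw [cl_single, Pi.single_eq_of_ne]
  intro h
  exact ht (regA_orderOf_eq_of_mk_eq h ▸ hg)

theorem cl_pow_mem_Vreg {m : ℕ} (hm : ∀ g : X, g ^ p ^ m = pReg p g) (a : MonoidAlgebra k X) :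
    cl k X (a ^ p ^ m) ∈ Vreg p k X := by
  rw [cl_pow_char_pow, map_sum]
  apply Submodule.sum_mem
  intro g _
  rw [hm]
  exact regA_cl_single_mem_Vreg (not_dvd_orderOf_pReg g) _

theorem regA_cl_sec_pow {m : ℕ} (hm : ∀ g : X, g ^ p ^ m = pReg p g)
    {s : ConjClasses X → k} (hs : s ∈ Vreg p k X) :
    cl k X ((sec k X s) ^ p ^ m) = fun c => s c ^ p ^ m := by
  have hp : p.Prime := Fact.out
  have h0 : sec k X s = ∑ c ∈ fs (Set.univ : Set (ConjClasses X)),
      MonoidAlgebra.single (Quotient.out c) (s c) := rfl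
  have h := sum_pow_char_pow_sub_mem_commS (p := p) (fs (Set.univ : Set (ConjClasses X)))
    (fun c => MonoidAlgebra.single (Quotient.out c) (s c)) m
  rw [← h0] at h
  simp only [MonoidAlgebra.single_pow] at h
  rw [regA_cl_eq_of_sub_mem h]
  have h1 : ∑ c ∈ fs (Set.univ : Set (ConjClasses X)),
      MonoidAlgebra.single ((Quotient.out c) ^ p ^ m) (s c ^ p ^ m) =
      sec k X (fun c => s c ^ p ^ m) := by
    have h2 : sec k X (fun c => s c ^ p ^ m) = ∑ c ∈ fs (Set.univ : Set (ConjClasses X)),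
      MonoidAlgebra.single (Quotient.out c) (s c ^ p ^ m) := rfl
    rw [h2]
    apply Finset.sum_congr rfl
    intro c _
    by_cases hc : p ∣ orderOf (Quotient.out c)
    · have h3 : s c = 0 := by
        have := hs (Quotient.out c) hc
        have h4 : ConjClasses.mk (Quotient.out c) = c := Quotient.out_eq c
        rwa [h4] at this
      rw [h3, zero_pow (pow_pos hp.pos m).ne']
      simp
    · have h3 : pReg p (Quotient.out c) = Quotient.out c := by
        have h4 := pPart_mul_pReg (p := p) (Quotient.out c)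
        rwa [(pPart_eq_one_iff (p := p) (Quotient.out c)).2 hc, one_mul] at h4
      rw [hm, h3]
  rw [h1, cl_sec]

/-- Every element of `Vreg` is a `p ^ m`-th power in the cocenter (`k` perfect). -/
theorem exists_cl_pow_eq [PerfectRing k p] {m : ℕ} (hm : ∀ g : X, g ^ p ^ m = pReg p g)
    {f : ConjClasses X → k} (hf : f ∈ Vreg p k X) :
    ∃ a : MonoidAlgebra k X, cl k X (a ^ p ^ m) = f := by
  have hroot : ∀ t : k, ((iterateFrobeniusEquiv k p m).symm t) ^ p ^ m = t := by
    intro t
    rw [← iterateFrobeniusEquiv_def, RingEquiv.apply_symm_apply]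
  refine ⟨sec k X (fun c => (iterateFrobeniusEquiv k p m).symm (f c)), ?_⟩
  rw [regA_cl_sec_pow hm]
  · funext c
    exact hroot (f c)
  · intro g hg
    show (iterateFrobeniusEquiv k p m).symm (f (ConjClasses.mk g)) = 0
    rw [hf g hg, map_zero]

theorem Vreg_inf_Vrad : Vreg p k X ⊓ Vrad k X = ⊥ := by
  have hp : p.Prime := Fact.out
  rw [eq_bot_iff]
  rintro x ⟨hx1, r, hr, rfl⟩
  have hr' : r ∈ rad k X := hr
  obtain ⟨n, hn⟩ := isNilpotent_of_mem_rad hr'
  obtain ⟨m, hnm, hm⟩ := exists_pow_eq_pReg (p := p) (X := X) n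
  have hr0 : r ^ p ^ m = 0 := by
    apply pow_eq_zero_of_le _ hn
    exact hnm.trans (Nat.lt_pow_self hp.one_lt).le
  have h1 : sec k X (cl k X r) - r ∈ commS (MonoidAlgebra k X) := by
    apply regA_mem_commS_of_cl_eq_zero
    rw [map_sub, cl_sec, sub_self]
  have h2 := regA_cl_eq_of_sub_mem (pow_char_pow_sub_mem_commS (p := p) h1 m)
  rw [regA_cl_sec_pow hm hx1, hr0, map_zero] at h2
  rw [Submodule.mem_bot]
  funext c
  have h3 := congrFun h2 c
  exact pow_eq_zero_iff (pow_pos hp.pos m).ne' |>.1 h3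

theorem map_cmul_Vreg_le [PerfectRing k p] {e : MonoidAlgebra k X} (he : IsCI e) :
    (Vreg p k X).map (cmul e) ≤ Vreg p k X := by
  have hp : p.Prime := Fact.out
  rintro _ ⟨f, hf, rfl⟩
  obtain ⟨m, _, hm⟩ := exists_pow_eq_pReg (p := p) (X := X) 0
  obtain ⟨a, rfl⟩ := exists_cl_pow_eq hm hf
  rw [← cl_central_mul e he.1]
  have hc : Commute e a := (Semigroup.mem_center_iff.1 he.1 a).symm
  have h1 : e * a ^ p ^ m = (e * a) ^ p ^ m := by
    rw [hc.mul_pow, he.2.pow_eq (pow_pos hp.pos m).ne']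
  rw [h1]
  exact cl_pow_mem_Vreg hm _

theorem map_cmul_Vrad_le {e : MonoidAlgebra k X} (he : e ∈ Set.center (MonoidAlgebra k X)) :
    (Vrad k X).map (cmul e) ≤ Vrad k X := by
  rintro _ ⟨_, ⟨r, hr, rfl⟩, rfl⟩
  rw [← cl_central_mul e he]
  have hr' : r ∈ rad k X := hr
  exact ⟨e * r, (rad k X).mul_mem_left e hr', rfl⟩

end Claimed.Agent.R280.A
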