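import Claimed.Agent.R280.A.RegularA

/-!
# Row 280, part A, package RegularB: `Vreg ⊔ Vrad = ⊤` (Wedderburn–Artin part of
`lem:cocenter-ranks`); plan in the header of `RegularA.lean`
-/

namespace Claimed.Agent.R280.A

open Claims.C0453

variable {p : ℕ} [Fact p.Prime] {k : Type} [Field k] [CharP k p] {X : Type} [Group X] [Finite X]

/-- A product of matrix algebras is spanned by idempotents and commutators. -/
theorem regB_span_pi_matrix {n : ℕ} (d : Fin n → ℕ) :
    Submodule.span k ({x : (Π i, Matrix (Fin (d i)) (Fin (d i)) k) | IsIdempotentElem x} ∪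
      {x | ∃ u v : (Π i, Matrix (Fin (d i)) (Fin (d i)) k), x = u * v - v * u}) = ⊤ := by
  classical
  rw [eq_top_iff]
  intro b _
  rw [← Finset.univ_sum_single b]
  apply Submodule.sum_mem
  intro j _
  rw [Matrix.matrix_eq_sum_single (b j)]
  have hadd : ∀ (s : Finset (Fin (d j))) (f : Fin (d j) → Matrix (Fin (d j)) (Fin (d j)) k),
      (Pi.single j (∑ i ∈ s, f i) : Π i, Matrix (Fin (d i)) (Fin (d i)) k) =
        ∑ i ∈ s, Pi.single j (f i) := by
    intro s f
    exact map_sum (AddMonoidHom.single (fun i => Matrix (Fin (d i)) (Fin (d i)) k) j) f s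
  rw [hadd]
  apply Submodule.sum_mem
  intro i _
  rw [hadd]
  apply Submodule.sum_mem
  intro i' _
  have hsm : (Pi.single j (Matrix.single i i' (b j i i')) :
      Π i, Matrix (Fin (d i)) (Fin (d i)) k) =
      (b j i i') • Pi.single j (Matrix.single i i' (1 : k)) := by
    rw [← Pi.single_smul]
    congr 1
    rw [Matrix.smul_single, smul_eq_mul, mul_one]
  rw [hsm]
  apply Submodule.smul_mem
  apply Submodule.subset_span
  by_cases hii : i = i'
  · subst hii
    left
    show (Pi.single j (Matrix.single i i (1 : k)) : Π i, Matrix (Fin (d i)) (Fin (d i)) k) *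
      Pi.single j (Matrix.single i i (1 : k)) = Pi.single j (Matrix.single i i (1 : k))
    rw [← Pi.single_mul]
    congr 1
    simp
  · right
    refine ⟨Pi.single j (Matrix.single i i (1 : k)), Pi.single j (Matrix.single i i' (1 : k)), ?_⟩
    rw [← Pi.single_mul, ← Pi.single_mul, ← Pi.single_sub]
    congr 1
    rw [Matrix.single_mul_single_same, Matrix.single_mul_single_of_ne _ _ _ _ (Ne.symm hii)]
    simp

/-- Package RegularB (Wedderburn–Artin). -/
theorem Vreg_sup_Vrad [IsAlgClosed k] : Vreg p k X ⊔ Vrad k X = ⊤ := by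
  have hp : p.Prime := Fact.out
  obtain ⟨n, d, _, ⟨φ⟩⟩ := IsSemisimpleRing.exists_algEquiv_pi_matrix_of_isAlgClosed k
    (MonoidAlgebra k X ⧸ Ring.jacobson (MonoidAlgebra k X))
  let π : MonoidAlgebra k X →ₐ[k] (Π i, Matrix (Fin (d i)) (Fin (d i)) k) :=
    φ.toAlgHom.comp (Ideal.Quotient.mkₐ k (Ring.jacobson (MonoidAlgebra k X)))
  have hπs : Function.Surjective π :=
    φ.surjective.comp (Ideal.Quotient.mkₐ_surjective k _)
  have hπk : ∀ a, π a = 0 → a ∈ rad k X := by
    intro a ha
    have h1 : φ (Ideal.Quotient.mk (Ring.jacobson (MonoidAlgebra k X)) a) = 0 := ha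
    rw [map_eq_zero_iff φ φ.injective, Ideal.Quotient.eq_zero_iff_mem] at h1
    rw [rad, Ideal.jacobson_bot]
    exact h1
  obtain ⟨m, _, hm⟩ := exists_pow_eq_pReg (p := p) (X := X) 0
  -- the submodule of the good elements
  let W : Submodule k (MonoidAlgebra k X) := (Vreg p k X ⊔ Vrad k X).comap (cl k X)
  have hWrad : ∀ r ∈ rad k X, r ∈ W := by
    intro r hr
    exact Submodule.mem_sup_right ⟨r, hr, rfl⟩
  have hWidem : ∀ i : MonoidAlgebra k X, IsIdempotentElem (π i) → i ∈ W := by
    intro i hi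
    have h1 : i - i ^ p ^ m ∈ rad k X := by
      apply hπk
      rw [map_sub, map_pow, hi.pow_eq (pow_pos hp.pos m).ne', sub_self]
    have h2 : i = i ^ p ^ m + (i - i ^ p ^ m) := by abel
    rw [h2]
    apply W.add_mem _ (hWrad _ h1)
    exact Submodule.mem_sup_left (cl_pow_mem_Vreg hm i)
  have hWcomm : ∀ u v : MonoidAlgebra k X, u * v - v * u ∈ W := by
    intro u v
    show cl k X (u * v - v * u) ∈ Vreg p k X ⊔ Vrad k X
    rw [map_sub, cl_mul_comm, sub_self]
    exact Submodule.zero_mem _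
  have hmap : W.map π.toLinearMap = ⊤ := by
    rw [eq_top_iff, ← regB_span_pi_matrix d, Submodule.span_le]
    rintro x (hx | ⟨u, v, rfl⟩)
    · obtain ⟨i, rfl⟩ := hπs x
      exact ⟨i, hWidem i hx, rfl⟩
    · obtain ⟨u, rfl⟩ := hπs u
      obtain ⟨v, rfl⟩ := hπs v
      exact ⟨u * v - v * u, hWcomm u v, by simp⟩
  rw [eq_top_iff]
  intro f _
  obtain ⟨a, rfl⟩ := cl_surjective (R := k) (X := X) f
  have h1 : π a ∈ W.map π.toLinearMap := by rw [hmap]; trivial
  obtain ⟨w, hw, hwa⟩ := h1
  have h2 : a - w ∈ W := by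
    apply hWrad
    apply hπk
    rw [map_sub, sub_eq_zero]
    exact hwa.symm
  have h3 : a ∈ W := by
    have := W.add_mem h2 hw
    rwa [sub_add_cancel] at this
  exact h3

end Claimed.Agent.R280.A
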