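import Claimed.Agent.R280.A.SubsectionB
import Claimed.Agent.R280.A.Transport

/-!
# Row 280, part A: the weighted subsection formula, absolute and relative form (glue)
-/

namespace Claimed.Agent.R280.A

open Claims.C0453

variable {p : ℕ} [Fact p.Prime] {k : Type} [Field k] [IsAlgClosed k] [CharP k p]
  {X : Type} [Group X] [Finite X]

/-- **The weighted subsection formula.** -/
theorem subsection_abs {H : Type} [Group H] [Finite H] {e : MonoidAlgebra k H} (he : IsCI e) :
    Nat.card H * kap e = ∑ u ∈ fs {u : H | IsPElt p u},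
      Nat.card (Subgroup.centralizer ({u} : Set H)) *
        numSimplesInBlock (resA (Subgroup.centralizer {u}) (brX (Subgroup.zpowers u) e)) := by
  rw [card_mul_kap_eq_sum_Vsec (p := p) he]
  apply Finset.sum_congr rfl
  intro u hu
  rw [finrank_map_cmul_Vsec he (by simpa using hu)]

/-- The relative form used in the chain sums. -/
theorem subsection_rel (E : MonoidAlgebra k X) (hE : IsCI E) (H P : Subgroup X)
    (hP : IsPGroup p P) (h1 : Subgroup.centralizer (P : Set X) ≤ H)
    (h2 : H ≤ Subgroup.normalizer (P : Set X)) :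
    kT E H P = ∑ u ∈ fs {u : X | IsPElt p u ∧ u ∈ H},
      lT E (H ⊓ Subgroup.centralizer {u}) (P ⊔ Subgroup.zpowers u) := by
  unfold kT
  rw [subsection_abs (p := p) (resA_brX_isCI P H hP h1 h2 hE)]
  apply Finset.sum_bij (fun (u : H) _ => (u : X))
  · intro u hu
    obtain ⟨n, hn⟩ : IsPElt p u := by simpa using hu
    simp only [mem_fs, Set.mem_ofPred_eq]
    exact ⟨⟨n, by simpa using congrArg Subtype.val hn⟩, u.2⟩
  · intro u _ v _ h
    exact Subtype.ext h
  · intro u hu
    obtain ⟨⟨n, hn⟩, huH⟩ : IsPElt p u ∧ u ∈ H := by simpa using hu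
    refine ⟨⟨u, huH⟩, ?_, rfl⟩
    simp only [mem_fs, Set.mem_ofPred_eq]
    exact ⟨n, Subtype.ext (by simpa using hn)⟩
  · intro u _
    unfold lT
    rw [card_of_map_subtype H _ _ (centralizer_map_subtype H u), brX_resA, zpowers_map_subtype,
      brX_brX, numSimples_resA_resA H _ _ (centralizer_map_subtype H u), sup_comm]

end Claimed.Agent.R280.A
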