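import Claimed.Agent.R280.A.TupleGen

/-!
# Row 280, part A: the alternating sum of the tuple counts tends to zero (glue)
-/

namespace Claimed.Agent.R280.A

variable {p : ℕ} [Fact p.Prime] {X : Type} [Group X] [Finite X]

theorem tau_chain_sum_dvd (hT : TupleDiv p) {O : Type} [CommRing O] (α : X → O)
    (hαc : ∀ x g, α (x * g * x⁻¹) = α g) (hα0 : ∀ g, ¬ p ∣ orderOf g → α g = 0) (h : ℕ) :
    ∃ s₀ : ℕ, ∀ s : ℕ, s₀ ≤ s → (p : O) ^ h ∣
      ∑ C ∈ fs {C : Finset (Subgroup X) | IsPChain p C},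
        (-1 : ℤ) ^ C.card • tau α (p ^ s) (stab C) := by
  classical
  have key : ∀ J : Subgroup X, ∃ s₀ : ℕ, ∀ s : ℕ, s₀ ≤ s → (p : O) ^ h ∣ aX p J •
      ∑ t ∈ fs {t : X × X × (Fin (p ^ s) → X) | t ∈ tupS (p ^ s) (⊤ : Subgroup X) ∧ gen t = J},
        ∏ i, α (t.2.2 i) := by
    intro J
    by_cases hJ : ∀ N : Subgroup J, N.Normal → IsPGroup p N → N = ⊥
    · obtain ⟨s₀, hs₀⟩ := gen_sum_dvd hT α hαc hα0 J hJ h
      refine ⟨s₀, fun s hs => ?_⟩
      rw [zsmul_eq_mul]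
      exact Dvd.dvd.mul_left (hs₀ s hs) _
    · push Not at hJ
      obtain ⟨N, hN, hNp, hN1⟩ := hJ
      refine ⟨0, fun s _ => ?_⟩
      rw [aX_eq_zero J (N.map J.subtype) (hNp.map _) ?_ ?_ ?_, zero_smul]
      · exact dvd_zero _
      · intro h0
        exact hN1 ((Subgroup.map_eq_bot_iff_of_injective N J.subtype_injective).1 h0)
      · exact Subgroup.map_subtype_le N
      · intro g hg
        rw [Subgroup.mem_normalizer_iff]
        intro x
        constructor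
        · rintro ⟨y, hy, rfl⟩
          exact ⟨⟨g, hg⟩ * y * ⟨g, hg⟩⁻¹, hN.conj_mem y hy _, rfl⟩
        · rintro ⟨y, hy, hyx⟩
          refine ⟨⟨g, hg⟩⁻¹ * y * ⟨g, hg⟩, ?_, ?_⟩
          · have := hN.conj_mem y hy (⟨g, hg⟩⁻¹)
            simpa using this
          · simp only [Subgroup.subtype_apply, Subgroup.coe_mul, Subgroup.coe_inv] at hyx ⊢
            rw [hyx]; group
  choose s₀ hs₀ using key
  refine ⟨(fs (Set.univ : Set (Subgroup X))).sup s₀, fun s hs => ?_⟩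
  rw [sum_chain_tau_eq]
  rw [← Finset.sum_fiberwise_of_maps_to (s := tupS (p ^ s) (⊤ : Subgroup X))
    (t := fs (Set.univ : Set (Subgroup X))) (g := fun t => gen t) (fun _ _ => by simp)]
  apply Finset.dvd_sum
  intro J hJ
  have h1 := hs₀ J s (le_trans (Finset.le_sup (f := s₀) hJ) hs)
  rw [Finset.smul_sum] at h1
  convert h1 using 1
  apply Finset.sum_congr
  · ext t; simp
  · intro t ht
    simp only [mem_fs, Set.mem_ofPred_eq] at ht
    rw [ht.2]

end Claimed.Agent.R280.A
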