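import Claimed.Agent.R280.A.Basic

/-!
# Row 280, part A: the Witt vectors are a lifting ring
-/

namespace Claimed.Agent.R280.A

/-- The Witt vectors of a perfect field of characteristic `p` are a lifting ring. -/
noncomputable def wittLiftData (p : ℕ) [Fact p.Prime] (k : Type) [Field k] [CharP k p]
    [PerfectRing k p] : LiftData p k where
  O := WittVector p k
  π := WittVector.constantCoeff
  surj := WittVector.constantCoeff_surjective p
  ker := by
    intro x
    rw [← Ideal.mem_span_singleton, WittVector.mem_span_p_iff_coeff_zero_eq_zero]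
    rfl
  sep := by
    intro m hm
    have h0 : ((m : ℤ) : WittVector p k) = 0 := by
      ext n
      have h1 := hm (n + 1)
      rw [← Ideal.mem_span_singleton, WittVector.mem_span_p_pow_iff_le_coeff_eq_zero] at h1
      simpa using h1 n (Nat.lt_succ_self n)
    by_contra hm0
    have hfin : FiniteMultiplicity (p : ℤ) m :=
      Int.finiteMultiplicity_iff.2 ⟨by simpa using (Fact.out : p.Prime).ne_one, hm0⟩
    obtain ⟨c, hc, hnd⟩ := hfin.exists_eq_pow_mul_and_not_dvd
    rw [hc] at h0
    push_cast at h0
    rcases mul_eq_zero.1 h0 with h1 | h1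
    · exact WittVector.p_nonzero p k (eq_zero_of_pow_eq_zero h1)
    · have h2 : ((c : ℤ) : k) = 0 := by
        have := congrArg (WittVector.constantCoeff (p := p) (R := k)) h1
        simpa using this
      exact hnd ((CharP.intCast_eq_zero_iff k p c).1 h2)

theorem exists_liftData (p : ℕ) [Fact p.Prime] (k : Type) [Field k] [IsAlgClosed k] [CharP k p] :
    Nonempty (LiftData p k) :=
  ⟨wittLiftData p k⟩

end Claimed.Agent.R280.A
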