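import Claimed.Agent.R280.A.ToggleN
import Claimed.Agent.R280.A.TupleSum
import Claimed.Agent.R280.A.Subsection
import Claimed.Agent.R280.A.Limit
import Claimed.Agent.R280.A.Witt

/-!
# Row 280, part A: the chain identity `(*)` (glue, sorry free)

`|X| z(X, E) = ∑_{C normal chain} (-1)^{|C|} |H_C| l(H_C, Br_{top C} E)` for every finite group `X` and
every central idempotent `E`, from `TupleDiv p`.
-/

set_option maxHeartbeats 400000

namespace Claimed.Agent.R280.A

open Claims.C0453

variable {p : ℕ} [Fact p.Prime] {k : Type} [Field k] [IsAlgClosed k] [CharP k p]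
  {X : Type} [Group X] [Finite X]

theorem sum_chains_eq_sum_normal {M : Type*} [AddCommGroup M] (g : Subgroup X → Subgroup X → M) :
    ∑ C ∈ fs {C : Finset (Subgroup X) | IsPChain p C}, (-1 : ℤ) ^ C.card • g (stab C) (top C) =
    ∑ C ∈ fs {C : Finset (Subgroup X) | IsPChain p C ∧ IsNormalChain C},
      (-1 : ℤ) ^ C.card • g (stab C) (top C) := by
  classical
  rw [← Finset.sum_filter_add_sum_filter_not (fs {C : Finset (Subgroup X) | IsPChain p C})
    (fun C => IsNormalChain C)]
  have h1 : (fs {C : Finset (Subgroup X) | IsPChain p C}).filter (fun C => IsNormalChain C) =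
      fs {C : Finset (Subgroup X) | IsPChain p C ∧ IsNormalChain C} := by
    ext C; simp
  have h2 : (fs {C : Finset (Subgroup X) | IsPChain p C}).filter (fun C => ¬ IsNormalChain C) =
      fs {C : Finset (Subgroup X) | IsPChain p C ∧ ¬ IsNormalChain C} := by
    ext C; simp
  rw [h1, h2, toggleN (p := p) g, add_zero]

theorem sum_kT_eq_sum_lT (E : MonoidAlgebra k X) (hE : IsCI E) :
    ∑ C ∈ fs {C : Finset (Subgroup X) | IsPChain p C},
      (-1 : ℤ) ^ C.card * (kT E (stab C) (top C) : ℤ) =
    ∑ C ∈ fs {C : Finset (Subgroup X) | IsPChain p C},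
      (-1 : ℤ) ^ C.card * (lT E (stab C) (top C) : ℤ) := by
  classical
  have step1 : ∀ C ∈ fs {C : Finset (Subgroup X) | IsPChain p C},
      (-1 : ℤ) ^ C.card * (kT E (stab C) (top C) : ℤ) =
      ∑ u ∈ fs {u : X | IsPElt p u ∧ u ∈ stab C}, (-1 : ℤ) ^ C.card *
        (lT E (stab C ⊓ Subgroup.centralizer {u}) (top C ⊔ Subgroup.zpowers u) : ℤ) := by
    intro C hC
    have hC' : IsPChain p C := by simpa using hC
    rw [subsection_rel (p := p) E hE (stab C) (top C) (isPGroup_top hC')
      (centralizer_top_le_stab C) (stab_le_normalizer_top hC')]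
    push_cast
    rw [Finset.mul_sum]
  rw [Finset.sum_congr rfl step1]
  rw [Finset.sum_comm' (t' := fs {u : X | IsPElt p u})
    (s' := fun u => fs {C : Finset (Subgroup X) | IsPChain p C ∧ Subgroup.zpowers u ≤ stab C})]
  · rw [Finset.sum_eq_single (1 : X)]
    · apply Finset.sum_congr
      · ext C; simp
      · intro C _
        have h1 : Subgroup.centralizer ({1} : Set X) = ⊤ := by
          ext x; simp [Subgroup.mem_centralizer_iff]
        simp [h1]
    · intro u hu hu1
      have hu' : IsPElt p u := by simpa using hu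
      have hP : IsPGroup p (Subgroup.zpowers u) := by
        obtain ⟨n, hn⟩ := hu'
        rintro ⟨y, hy⟩
        obtain ⟨m, rfl⟩ := Subgroup.mem_zpowers_iff.1 hy
        refine ⟨n, ?_⟩
        ext
        simp only [Subgroup.coe_pow, Subgroup.coe_one]
        rw [← zpow_natCast, ← zpow_mul, mul_comm, zpow_mul, zpow_natCast, hn, one_zpow]
      have hP1 : Subgroup.zpowers u ≠ ⊥ := by
        simpa [Subgroup.zpowers_eq_bot] using hu1
      have := toggleP (p := p) (Subgroup.zpowers u) hP hP1
        (fun H P => (lT E (H ⊓ Subgroup.centralizer {u}) P : ℤ))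
      simp only [smul_eq_mul] at this
      rw [← this]
      apply Finset.sum_congr rfl
      intro C _
      have hle : Subgroup.centralizer ({u} : Set X) ≤
          Subgroup.normalizer (Subgroup.zpowers u : Set X) := by
        rw [← Subgroup.centralizer_closure, ← Subgroup.zpowers_eq_closure]
        exact Subgroup.centralizer_le_normalizer _
      rw [inf_assoc, inf_eq_right.2 hle]
    · intro h
      exact absurd (by simp [IsPElt] : (1 : X) ∈ fs {u : X | IsPElt p u}) h
  · intro C u
    simp only [mem_fs, Set.mem_ofPred_eq, Subgroup.zpowers_le]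
    tauto

theorem exists_lift (L : LiftData p k) (E : MonoidAlgebra k X) (hE : IsCI E) :
    ∃ α : X → L.O, (∀ g, L.π (α g) = (E * (1 - cX p k X)).coeff g) ∧
      (∀ x g, α (x * g * x⁻¹) = α g) ∧ (∀ g, ¬ p ∣ orderOf g → α g = 0) := by
  classical
  choose σ hσ using L.surj
  refine ⟨fun g => if (E * (1 - cX p k X)).coeff g = 0 then 0 else
    σ ((E * (1 - cX p k X)).coeff g), ?_, ?_, ?_⟩
  · intro g
    by_cases h : (E * (1 - cX p k X)).coeff g = 0
    · simp [h]
    · simp [h, hσ]
  · intro x g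
    simp only [central_v E hE x g]
  · intro g hg
    simp [support_v E hE g hg]

/-- **The chain identity** `(*)`. -/
theorem star (hT : TupleDiv p) (E : MonoidAlgebra k X) (hE : IsCI E) :
    ((Nat.card X * zCount E : ℕ) : ℤ) =
    ∑ C ∈ fs {C : Finset (Subgroup X) | IsPChain p C ∧ IsNormalChain C},
      (-1 : ℤ) ^ C.card * (lT E (stab C) (top C) : ℤ) := by
  classical
  obtain ⟨L⟩ := exists_liftData p k
  obtain ⟨α, hα, hαc, hα0⟩ := exists_lift L E hE
  set 𝒩 := fs {C : Finset (Subgroup X) | IsPChain p C ∧ IsNormalChain C} with h𝒩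
  -- the constants
  let c : Finset (Subgroup X) → ℤ := fun C =>
    (kT E (stab C) (top C) : ℤ) - if C = ∅ then ((Nat.card X * zCount E : ℕ) : ℤ) else 0
  have hlim : ∀ C ∈ 𝒩, ∃ r : ℕ, ∀ j : ℕ,
      (p : L.O) ^ (j + 1) ∣ tau α (p ^ (r + j)) (stab C) - ((c C : ℤ) : L.O) := by
    intro C hC
    have hC' : IsPChain p C ∧ IsNormalChain C := by simpa [h𝒩] using hC
    by_cases h0 : C = ∅
    · subst h0
      obtain ⟨r, hr⟩ := limit_zero L E hE α hα hαc
      refine ⟨r, fun j => ?_⟩
      have := hr j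
      simpa [c, stab, top] using this
    · obtain ⟨r, hr⟩ := limit_pos L E hE α hα hαc (stab C) (top C) (isPGroup_top hC'.1)
        (top_ne_bot hC'.1 h0) hC'.2 (stab_le_normalizer_top hC'.1) (centralizer_top_le_stab C)
      refine ⟨r, fun j => ?_⟩
      have := hr j
      simpa [c, h0] using this
  choose! r hr using hlim
  have key : ∑ C ∈ 𝒩, (-1 : ℤ) ^ C.card * c C = 0 := by
    apply L.sep
    intro h
    obtain ⟨s₀, hs₀⟩ := tau_chain_sum_dvd hT α hαc hα0 h
    set s := max s₀ (𝒩.sup r + h) with hs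
    have h1 := hs₀ s (le_max_left _ _)
    rw [sum_chains_eq_sum_normal (p := p) (fun H _ => tau α (p ^ s) H)] at h1
    have h2 : (p : L.O) ^ h ∣ ∑ C ∈ 𝒩, (-1 : ℤ) ^ C.card •
        (tau α (p ^ s) (stab C) - ((c C : ℤ) : L.O)) := by
      apply Finset.dvd_sum
      intro C hC
      rw [zsmul_eq_mul]
      apply Dvd.dvd.mul_left
      have hle : r C + h ≤ s :=
        le_trans (Nat.add_le_add_right (Finset.le_sup (f := r) hC) h) (le_max_right _ _)
      obtain ⟨j, hj⟩ := Nat.exists_eq_add_of_le hle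
      have h3 := hr C hC (h + j)
      rw [← add_assoc, ← hj] at h3
      exact dvd_trans (pow_dvd_pow _ (by omega)) h3
    have h3 := dvd_sub h1 h2
    rw [← Finset.sum_sub_distrib] at h3
    have h4 : ∑ C ∈ 𝒩, ((-1 : ℤ) ^ C.card • tau α (p ^ s) (stab C) -
        (-1 : ℤ) ^ C.card • (tau α (p ^ s) (stab C) - ((c C : ℤ) : L.O))) =
        ((∑ C ∈ 𝒩, (-1 : ℤ) ^ C.card * c C : ℤ) : L.O) := by
      push_cast
      apply Finset.sum_congr rfl
      intro C _
      rw [smul_sub, sub_sub_cancel, zsmul_eq_mul]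
      push_cast
      ring
    rwa [h4] at h3
  have hempty : (∅ : Finset (Subgroup X)) ∈ 𝒩 := by
    simp [h𝒩, IsPChain, IsNormalChain, top]
  have key2 : ∑ C ∈ 𝒩, (-1 : ℤ) ^ C.card * c C =
      ∑ C ∈ 𝒩, (-1 : ℤ) ^ C.card * (kT E (stab C) (top C) : ℤ) -
        ((Nat.card X * zCount E : ℕ) : ℤ) := by
    simp only [c, mul_sub, Finset.sum_sub_distrib]
    congr 1
    rw [Finset.sum_eq_single (∅ : Finset (Subgroup X))]
    · simp
    · intro C _ hC
      simp [hC]
    · intro h; exact absurd hempty h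
  have e1 := sum_chains_eq_sum_normal (p := p) (X := X) (fun H P => (kT E H P : ℤ))
  have e2 := sum_chains_eq_sum_normal (p := p) (X := X) (fun H P => (lT E H P : ℤ))
  simp only [smul_eq_mul] at e1 e2
  rw [← e2, ← sum_kT_eq_sum_lT E hE, e1]
  linarith

end Claimed.Agent.R280.A
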