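import Claimed.Agent.R280.A.Regular
import Claimed.Agent.R280.A.Brauer

/-!
# Row 280, part A, package SubsectionA (see also SubsectionB, Subsection): the weighted subsection formula
(`lem:subsections`)

`|H| κ(H, e) = ∑_{u ∈ H a p-element} |C_H(u)| l(C_H(u), Br_u e)`.

For a `p`-element `u` let `Vsec u ⊆ V = ConjClasses H → k` be the functions supported on the classes
of the elements whose `p`-part is conjugate to `u`.
* (SubsectionA) `finrank_map_cmul_Vsec`: with `C = C_H(u)` the linear map
  `φ : k[C] → k[H], a ↦ u * a` maps commutators to commutators, so it induces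
  `φ̄ : V(C) → V(H)`; it maps the basis vector of the `p`-regular class of `t` to the basis vector of
  the class of `u t`; this is injective on `p`-regular classes (uniqueness of the `p`-part:
  a conjugating element centralises `u`) with image the classes of the section of `u`.  For
  `p`-regular `t ∈ C`:  `cl (e * u t) = cl (Br_u e * u t)` (`sum_conj_eq_sum_centralizer` for
  `P = ⟨u⟩` and `g ↦ e_g • cl (g u t)`), so `φ̄ ∘ cmul (Br_u e) = cmul e ∘ φ̄` on `Vreg(C)`.  Then use
  `numSimples_eq_finrank` in `C`.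
* (SubsectionB) `V = ⨁ Vsec` over the classes of `p`-elements, each summand is `cmul e`-stable, so
  `kap e = ∑_{classes} finrank (cmul e (Vsec))`; a class `c` of `u` has `|H| / |C_H(u)|` elements.
-/

namespace Claimed.Agent.R280.A

open Claims.C0453

variable {p : ℕ} [Fact p.Prime] {k : Type} [Field k] [IsAlgClosed k] [CharP k p]
  {X : Type} [Group X] [Finite X]

/-- The span of the classes in the section of `u`. -/
def Vsec (p : ℕ) [Fact p.Prime] (k : Type) [Field k] {H : Type} [Group H] [Finite H] (u : H) :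
    Submodule k (ConjClasses H → k) where
  carrier := {f | ∀ g : H, ¬ IsConj (pPart p g) u → f (ConjClasses.mk g) = 0}
  add_mem' := by
    intro a b ha hb g hg
    simp [ha g hg, hb g hg]
  zero_mem' := by
    intro g _
    rfl
  smul_mem' := by
    intro c a ha g hg
    simp [ha g hg]

/-- push forward of functions along a map of finite types -/
noncomputable def ssaPush (k : Type) [Field k] {A B : Type} [Finite A] (σ : A → B) :
    (A → k) →ₗ[k] (B → k) where
  toFun f b := ∑ a ∈ fs {a | σ a = b}, f a
  map_add' f g := by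
    funext b
    simp [Finset.sum_add_distrib]
  map_smul' r f := by
    funext b
    simp [Finset.mul_sum]

theorem ssaPush_apply {k : Type} [Field k] {A B : Type} [Finite A] (σ : A → B) (f : A → k) (b : B) :
    ssaPush k σ f b = ∑ a ∈ fs {a | σ a = b}, f a := rfl

theorem ssaPush_single {k : Type} [Field k] {A B : Type} [Finite A] [DecidableEq A] [DecidableEq B]
    (σ : A → B) (a : A) (r : k) :
    ssaPush k σ (Pi.single a r) = Pi.single (σ a) r := by
  funext b
  rw [ssaPush_apply]
  by_cases hb : σ a = b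
  · subst hb
    rw [Pi.single_eq_same, Finset.sum_eq_single a]
    · simp
    · intro a' _ ha'
      rw [Pi.single_eq_of_ne ha']
    · intro h; simp at h
  · rw [Pi.single_eq_of_ne (Ne.symm hb)]
    apply Finset.sum_eq_zero
    intro a' ha'
    have h1 : σ a' = b := by simpa using ha'
    have : a' ≠ a := fun h => hb (h ▸ h1)
    rw [Pi.single_eq_of_ne this]

/-- two linear maps on the cocenter agree if they agree on the classes of the group elements -/
theorem ssa_ext {k : Type} [Field k] {X : Type} [Group X] [Finite X] {M : Type*} [AddCommMonoid M]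
    [Module k M] (L1 L2 : (ConjClasses X → k) →ₗ[k] M)
    (h : ∀ t : X, L1 (cl k X (MonoidAlgebra.single t 1)) = L2 (cl k X (MonoidAlgebra.single t 1))) :
    L1 = L2 := by
  apply LinearMap.ext
  intro f
  obtain ⟨a, rfl⟩ := cl_surjective f
  rw [eq_sum_single a]
  simp only [map_sum]
  apply Finset.sum_congr rfl
  intro t _
  have : MonoidAlgebra.single t (a.coeff t) = a.coeff t • MonoidAlgebra.single t (1 : k) := by
    rw [MonoidAlgebra.smul_single, smul_eq_mul, mul_one]
  rw [this, map_smul, map_smul, map_smul, h t]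

section
variable {H : Type} [Group H] [Finite H]

/-- the map `class of t ↦ class of u t` -/
noncomputable def ssaSig (u : H) (d : ConjClasses (Subgroup.centralizer ({u} : Set H))) :
    ConjClasses H :=
  ConjClasses.mk (u * ((Quotient.out d : Subgroup.centralizer ({u} : Set H)) : H))

omit [Finite H] in
theorem ssa_comm (u : H) (t : Subgroup.centralizer ({u} : Set H)) : u * (t : H) = (t : H) * u :=
  (Subgroup.mem_centralizer_iff.1 t.2) u rfl

omit [Finite H] in
theorem ssaSig_mk (u : H) (t : Subgroup.centralizer ({u} : Set H)) :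
    ssaSig u (ConjClasses.mk t) = ConjClasses.mk (u * (t : H)) := by
  unfold ssaSig
  have hconj : IsConj t (Quotient.out (ConjClasses.mk t)) :=
    ConjClasses.mk_eq_mk_iff_isConj.1 (Quotient.out_eq (ConjClasses.mk t)).symm
  obtain ⟨x, hx⟩ := isConj_iff.1 hconj
  rw [← hx]
  apply ConjClasses.mk_eq_mk_iff_isConj.2
  apply IsConj.symm
  apply isConj_iff.2
  refine ⟨(x : H), ?_⟩
  have h1 := ssa_comm u x
  push_cast
  calc (x : H) * (u * t) * (x : H)⁻¹ = ((x : H) * u) * t * (x : H)⁻¹ := by group
    _ = (u * x) * t * (x : H)⁻¹ := by rw [h1]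
    _ = u * (x * t * (x : H)⁻¹) := by group


/-- the parts of `u t` -/
theorem ssa_parts {p : ℕ} [Fact p.Prime] {u : H} (hu : IsPElt p u)
    (t : Subgroup.centralizer ({u} : Set H)) (ht : ¬ p ∣ orderOf t) :
    pPart p (u * (t : H)) = u ∧ pReg p (u * (t : H)) = t := by
  apply pParts_unique (ssa_comm u t) hu
  rwa [Subgroup.orderOf_coe]

/-- injectivity of `t ↦ u t` on the `p`-regular classes -/
theorem ssa_inj {p : ℕ} [Fact p.Prime] {u : H} (hu : IsPElt p u)
    (s t : Subgroup.centralizer ({u} : Set H)) (hs : ¬ p ∣ orderOf s) (ht : ¬ p ∣ orderOf t)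
    (h : (ConjClasses.mk (u * (s : H)) : ConjClasses H) = ConjClasses.mk (u * (t : H))) :
    (ConjClasses.mk s : ConjClasses (Subgroup.centralizer ({u} : Set H))) = ConjClasses.mk t := by
  obtain ⟨x, hx⟩ := isConj_iff.1 (ConjClasses.mk_eq_mk_iff_isConj.1 h)
  have h1 := pPart_conj (p := p) x (u * (s : H))
  have h2 := pReg_conj (p := p) x (u * (s : H))
  rw [hx, (ssa_parts hu t ht).1, (ssa_parts hu s hs).1] at h1
  rw [hx, (ssa_parts hu t ht).2, (ssa_parts hu s hs).2] at h2
  have hxC : x ∈ Subgroup.centralizer ({u} : Set H) := by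
    rw [Subgroup.mem_centralizer_iff]
    intro y hy
    rw [Set.mem_singleton_iff.1 hy]
    calc u * x = x * u * x⁻¹ * x := by rw [← h1]
      _ = x * u := by group
  apply ConjClasses.mk_eq_mk_iff_isConj.2
  apply isConj_iff.2
  refine ⟨⟨x, hxC⟩, ?_⟩
  apply Subtype.ext
  push_cast
  exact h2.symm

theorem ssa_out_mk {X : Type} [Group X] (d : ConjClasses X) :
    ConjClasses.mk (Quotient.out d) = d := Quotient.out_eq d

/-- values of the push forward of a function on the `p`-regular classes -/
theorem ssaPush_val {p : ℕ} [Fact p.Prime] {k : Type} [Field k] {u : H} (hu : IsPElt p u)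
    {f : ConjClasses (Subgroup.centralizer ({u} : Set H)) → k}
    (hf : f ∈ Vreg p k (Subgroup.centralizer ({u} : Set H)))
    (t : Subgroup.centralizer ({u} : Set H)) (ht : ¬ p ∣ orderOf t) :
    ssaPush k (ssaSig u) f (ConjClasses.mk (u * (t : H))) = f (ConjClasses.mk t) := by
  rw [ssaPush_apply, Finset.sum_eq_single (ConjClasses.mk t)]
  · intro d hd hne
    have hd' : ssaSig u d = ConjClasses.mk (u * (t : H)) := by simpa using hd
    by_cases hs : p ∣ orderOf (Quotient.out d)
    · have := hf _ hs
      rwa [ssa_out_mk] at this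
    · exfalso
      apply hne
      rw [← ssa_out_mk d] at hd' ⊢
      rw [ssaSig_mk] at hd'
      exact ssa_inj hu _ _ hs ht hd'
  · intro h
    exfalso
    apply h
    simp [ssaSig_mk]

theorem ssaPush_mem_Vsec {p : ℕ} [Fact p.Prime] {k : Type} [Field k] {u : H} (hu : IsPElt p u)
    {f : ConjClasses (Subgroup.centralizer ({u} : Set H)) → k}
    (hf : f ∈ Vreg p k (Subgroup.centralizer ({u} : Set H))) :
    ssaPush k (ssaSig u) f ∈ Vsec p k u := by
  intro g hg
  rw [ssaPush_apply]
  apply Finset.sum_eq_zero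
  intro d hd
  have hd' : ssaSig u d = ConjClasses.mk g := by simpa using hd
  by_cases hs : p ∣ orderOf (Quotient.out d)
  · have := hf _ hs
    rwa [ssa_out_mk] at this
  · exfalso
    apply hg
    rw [← ssa_out_mk d, ssaSig_mk] at hd'
    obtain ⟨x, hx⟩ := isConj_iff.1 (ConjClasses.mk_eq_mk_iff_isConj.1 hd')
    have h1 := pPart_conj (p := p) x (u * ((Quotient.out d : Subgroup.centralizer ({u} : Set H)) : H))
    rw [hx, (ssa_parts hu _ hs).1] at h1
    rw [h1]
    exact (isConj_iff.2 ⟨x, rfl⟩).symm

/-- every element of the section of `u` is conjugate to some `u t` -/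
theorem ssa_exists {p : ℕ} [Fact p.Prime] {u : H} (g : H) (hg : IsConj (pPart p g) u) :
    ∃ t : Subgroup.centralizer ({u} : Set H), ¬ p ∣ orderOf t ∧
      (ConjClasses.mk g : ConjClasses H) = ConjClasses.mk (u * (t : H)) := by
  obtain ⟨x, hx⟩ := isConj_iff.1 hg
  have h1 := pPart_conj (p := p) x g
  rw [hx] at h1
  have h2 := pPart_mul_pReg (p := p) (x * g * x⁻¹)
  rw [h1] at h2
  have hcomm : Commute (pPart p (x * g * x⁻¹)) (pReg p (x * g * x⁻¹)) :=
    ((Commute.refl (x * g * x⁻¹)).pow_left _).pow_right _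
  rw [h1] at hcomm
  have hC : pReg p (x * g * x⁻¹) ∈ Subgroup.centralizer ({u} : Set H) := by
    rw [Subgroup.mem_centralizer_iff]
    intro y hy
    rw [Set.mem_singleton_iff.1 hy]
    exact hcomm.eq
  refine ⟨⟨_, hC⟩, ?_, ?_⟩
  · rw [← Subgroup.orderOf_coe]
    exact not_dvd_orderOf_pReg _
  · show _ = ConjClasses.mk (u * pReg p (x * g * x⁻¹))
    rw [h2]
    exact ConjClasses.mk_eq_mk_iff_isConj.2 (isConj_iff.2 ⟨x, rfl⟩)

open Classical in
theorem ssaPush_map_Vreg {p : ℕ} [Fact p.Prime] {k : Type} [Field k] {u : H} (hu : IsPElt p u) :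
    (Vreg p k (Subgroup.centralizer ({u} : Set H))).map (ssaPush k (ssaSig u)) = Vsec p k u := by
  apply le_antisymm
  · rintro _ ⟨f, hf, rfl⟩
    exact ssaPush_mem_Vsec hu hf
  · intro F hF
    have hf : (fun d : ConjClasses (Subgroup.centralizer ({u} : Set H)) =>
        if p ∣ orderOf (Quotient.out d) then 0 else F (ssaSig u d)) ∈
        Vreg p k (Subgroup.centralizer ({u} : Set H)) := by
      intro g hg
      have hconj : IsConj g (Quotient.out (ConjClasses.mk g)) :=
        ConjClasses.mk_eq_mk_iff_isConj.1 (Quotient.out_eq (ConjClasses.mk g)).symm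
      obtain ⟨x, hx⟩ := isConj_iff.1 hconj
      have ho : orderOf (Quotient.out (ConjClasses.mk g)) = orderOf g := by
        rw [← hx]
        exact orderOf_injective (MulAut.conj x).toMonoidHom (MulAut.conj x).injective g
      show (if p ∣ orderOf (Quotient.out (ConjClasses.mk g)) then 0 else _) = (0 : k)
      rw [ho, if_pos hg]
    refine ⟨_, hf, ?_⟩
    funext c
    obtain ⟨g, rfl⟩ := ConjClasses.mk_surjective c
    by_cases hg : IsConj (pPart p g) u
    · obtain ⟨t, ht, hgt⟩ := ssa_exists g hg
      rw [hgt, ssaPush_val hu hf t ht]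
      have hconj : IsConj t (Quotient.out (ConjClasses.mk t)) :=
        ConjClasses.mk_eq_mk_iff_isConj.1 (Quotient.out_eq (ConjClasses.mk t)).symm
      obtain ⟨x, hx⟩ := isConj_iff.1 hconj
      have ho : orderOf (Quotient.out (ConjClasses.mk t)) = orderOf t := by
        rw [← hx]
        exact orderOf_injective (MulAut.conj x).toMonoidHom (MulAut.conj x).injective t
      show (if p ∣ orderOf (Quotient.out (ConjClasses.mk t)) then 0 else _) = _
      rw [ho, if_neg ht, ssaSig_mk]
    · rw [ssaPush_mem_Vsec hu hf g hg, hF g hg]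

theorem ssaPush_injOn {p : ℕ} [Fact p.Prime] {k : Type} [Field k] {u : H} (hu : IsPElt p u)
    {f : ConjClasses (Subgroup.centralizer ({u} : Set H)) → k}
    (hf : f ∈ Vreg p k (Subgroup.centralizer ({u} : Set H)))
    (h0 : ssaPush k (ssaSig u) f = 0) : f = 0 := by
  funext c
  obtain ⟨t, rfl⟩ := ConjClasses.mk_surjective c
  by_cases ht : p ∣ orderOf t
  · exact hf t ht
  · rw [← ssaPush_val hu hf t ht, h0]
    rfl


omit [Finite H] in
theorem ssa_centralizer_zpowers (u : H) :
    Subgroup.centralizer ((Subgroup.zpowers u : Subgroup H) : Set H) =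
      Subgroup.centralizer ({u} : Set H) := by
  apply le_antisymm
  · apply Subgroup.centralizer_le
    intro y hy
    rw [Set.mem_singleton_iff.1 hy]
    exact Subgroup.mem_zpowers u
  · intro g hg
    rw [Subgroup.mem_centralizer_iff] at hg ⊢
    intro y hy
    obtain ⟨i, rfl⟩ := Subgroup.mem_zpowers_iff.1 hy
    have : Commute u g := hg u rfl
    exact (this.zpow_left i).eq

omit [Finite H] in
theorem ssa_isPGroup {p : ℕ} {u : H} (hu : IsPElt p u) : IsPGroup p (Subgroup.zpowers u) := by
  obtain ⟨n, hn⟩ := hu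
  rintro ⟨y, hy⟩
  obtain ⟨i, rfl⟩ := Subgroup.mem_zpowers_iff.1 hy
  refine ⟨n, ?_⟩
  apply Subtype.ext
  push_cast
  rw [← zpow_natCast, ← zpow_mul, mul_comm, zpow_mul, zpow_natCast, hn, one_zpow]

theorem ssa_isCI {p : ℕ} [Fact p.Prime] {k : Type} [Field k] [CharP k p] {e : MonoidAlgebra k H}
    (he : IsCI e) {u : H} (hu : IsPElt p u) :
    IsCI (resA (Subgroup.centralizer ({u} : Set H)) (brX (Subgroup.zpowers u) e)) := by
  apply resA_brX_isCI (p := p) _ _ (ssa_isPGroup hu) _ _ he
  · rw [ssa_centralizer_zpowers]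
  · rw [← ssa_centralizer_zpowers]
    exact Subgroup.centralizer_le_normalizer _

open Classical in
theorem ssa_cl_mul_single {k : Type} [Field k] {X : Type} [Group X] [Finite X]
    (a : MonoidAlgebra k X) (t : X) :
    cl k X (a * MonoidAlgebra.single t 1) =
      ∑ g ∈ fs (Set.univ : Set X), Pi.single (ConjClasses.mk (g * t)) (a.coeff g) := by
  conv_lhs => rw [eq_sum_single a]
  rw [Finset.sum_mul, map_sum]
  apply Finset.sum_congr rfl
  intro g _
  rw [MonoidAlgebra.single_mul_single, mul_one, cl_single]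

/-- the push forward intertwines `Br_u e` and `e` -/
theorem ssaPush_comm {p : ℕ} [Fact p.Prime] {k : Type} [Field k] [CharP k p]
    {e : MonoidAlgebra k H} (he : IsCI e) {u : H} (hu : IsPElt p u) :
    ssaPush k (ssaSig u) ∘ₗ
        cmul (resA (Subgroup.centralizer ({u} : Set H)) (brX (Subgroup.zpowers u) e)) =
      cmul e ∘ₗ ssaPush k (ssaSig u) := by
  classical
  apply ssa_ext
  intro t
  rw [LinearMap.comp_apply, LinearMap.comp_apply, ← cl_central_mul _ (ssa_isCI he hu).1,
    ssa_cl_mul_single, map_sum, cl_single, ssaPush_single, ssaSig_mk, ← cl_single,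
    ← cl_central_mul _ he.1, ssa_cl_mul_single]
  have hM : ∀ m : ConjClasses H → k, p • m = 0 := by
    intro m
    funext c
    simp
  rw [sum_conj_eq_sum_centralizer (Subgroup.zpowers u) (ssa_isPGroup hu) hM]
  · apply Finset.sum_bij (fun (c : Subgroup.centralizer ({u} : Set H)) _ => (c : H))
    · intro c _
      rw [mem_fs, ssa_centralizer_zpowers]
      exact c.2
    · intro c _ c' _ h
      exact Subtype.ext h
    · intro g hg
      rw [mem_fs, ssa_centralizer_zpowers] at hg
      exact ⟨⟨g, hg⟩, by simp, rfl⟩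
    · intro c _
      rw [ssaPush_single, ssaSig_mk, coeff_resA, coeff_brX_of_mem]
      · congr 2
        push_cast
        rw [← mul_assoc, ssa_comm u c, mul_assoc]
      · rw [ssa_centralizer_zpowers]
        exact c.2
  · intro x hx g
    obtain ⟨i, rfl⟩ := Subgroup.mem_zpowers_iff.1 hx
    rw [(mem_center_iff e).1 he.1]
    congr 1
    have h1 : Commute u (u * (t : H)) := (Commute.refl u).mul_right (ssa_comm u t)
    have h2 : (u ^ i)⁻¹ * (u * (t : H)) = (u * (t : H)) * (u ^ i)⁻¹ := ((h1.zpow_left i).inv_left).eq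
    apply ConjClasses.mk_eq_mk_iff_isConj.2
    apply IsConj.symm
    apply isConj_iff.2
    refine ⟨u ^ i, ?_⟩
    rw [mul_assoc (u ^ i * g), h2]
    group

end

omit [IsAlgClosed k] in
/-- Package SubsectionA: the common part. -/
theorem ssa_map_eq {H : Type} [Group H] [Finite H] {e : MonoidAlgebra k H}
    (he : IsCI e) {u : H} (hu : IsPElt p u) :
    (Vsec p k u).map (cmul e) =
      ((Vreg p k (Subgroup.centralizer ({u} : Set H))).map
        (cmul (resA (Subgroup.centralizer ({u} : Set H)) (brX (Subgroup.zpowers u) e)))).map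
        (ssaPush k (ssaSig u)) := by
  rw [← ssaPush_map_Vreg hu, ← Submodule.map_comp, ← Submodule.map_comp, ssaPush_comm he hu]

/-- Package SubsectionA. -/
theorem finrank_map_cmul_Vsec {H : Type} [Group H] [Finite H] {e : MonoidAlgebra k H}
    (he : IsCI e) {u : H} (hu : IsPElt p u) :
    Module.finrank k ((Vsec p k u).map (cmul e)) =
      numSimplesInBlock (resA (Subgroup.centralizer {u}) (brX (Subgroup.zpowers u) e)) := by
  rw [numSimples_eq_finrank (p := p) (ssa_isCI he hu), ssa_map_eq he hu,
    ← LinearMap.range_domRestrict]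
  apply LinearMap.finrank_range_of_inj
  rw [← LinearMap.ker_eq_bot, LinearMap.ker_eq_bot']
  rintro ⟨f, hf⟩ h0
  apply Subtype.ext
  exact ssaPush_injOn hu (map_cmul_Vreg_le (ssa_isCI he hu) hf) h0

/-- Part of package SubsectionA: the sections are stable. -/
theorem map_cmul_Vsec_le {H : Type} [Group H] [Finite H] {e : MonoidAlgebra k H}
    (he : IsCI e) {u : H} (hu : IsPElt p u) :
    (Vsec p k u).map (cmul e) ≤ Vsec p k u := by
  rw [ssa_map_eq he hu]
  conv_rhs => rw [← ssaPush_map_Vreg hu]
  exact Submodule.map_mono (map_cmul_Vreg_le (ssa_isCI he hu))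

end Claimed.Agent.R280.A
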