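import Claimed.Agent.R280.A.SubsectionA

/-!
# Row 280, part A, package SubsectionB: the section decomposition of the cocenter; plan in the
header of `SubsectionA.lean`
-/

namespace Claimed.Agent.R280.A

open Claims.C0453

variable {p : ℕ} [Fact p.Prime] {k : Type} [Field k] [IsAlgClosed k] [CharP k p]
  {X : Type} [Group X] [Finite X]

section ssb

variable {H : Type} [Group H] [Finite H]

/-- the class of the `p`-part of a class -/
noncomputable def ssbSec (p : ℕ) [Fact p.Prime] (c : ConjClasses H) : ConjClasses H :=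
  ConjClasses.mk (pPart p (Quotient.out c))

theorem ssbSec_mk (g : H) : ssbSec p (ConjClasses.mk g) = ConjClasses.mk (pPart p g) := by
  unfold ssbSec
  have hconj : IsConj g (Quotient.out (ConjClasses.mk g)) :=
    ConjClasses.mk_eq_mk_iff_isConj.1 (Quotient.out_eq (ConjClasses.mk g)).symm
  obtain ⟨x, hx⟩ := isConj_iff.1 hconj
  rw [← hx, pPart_conj]
  exact ConjClasses.mk_eq_mk_iff_isConj.2 (isConj_iff.2 ⟨x, rfl⟩).symm

/-- the functions supported on the sections belonging to `S` -/
def ssbW (p : ℕ) [Fact p.Prime] (k : Type) [Field k] (S : Finset (ConjClasses H)) :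
    Submodule k (ConjClasses H → k) where
  carrier := {f | ∀ c, ssbSec p c ∉ S → f c = 0}
  add_mem' := by
    intro a b ha hb c hc
    simp [ha c hc, hb c hc]
  zero_mem' := by
    intro c _
    rfl
  smul_mem' := by
    intro r a ha c hc
    simp [ha c hc]

omit [IsAlgClosed k] [CharP k p] in
theorem ssbW_singleton (u : H) : ssbW p k {ConjClasses.mk u} = Vsec p k u := by
  ext f
  constructor
  · intro hf g hg
    apply hf
    rw [ssbSec_mk, Finset.mem_singleton, ConjClasses.mk_eq_mk_iff_isConj]
    exact hg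
  · intro hf c hc
    obtain ⟨g, rfl⟩ := ConjClasses.mk_surjective c
    apply hf
    rw [ssbSec_mk, Finset.mem_singleton, ConjClasses.mk_eq_mk_iff_isConj] at hc
    exact hc

omit [IsAlgClosed k] [CharP k p] in
open Classical in
theorem ssbW_insert (γ : ConjClasses H) (S : Finset (ConjClasses H)) :
    ssbW p k (insert γ S) = ssbW p k {γ} ⊔ ssbW p k S := by
  apply le_antisymm
  · intro f hf
    rw [Submodule.mem_sup]
    refine ⟨fun c => if ssbSec p c = γ then f c else 0, ?_,
      fun c => if ssbSec p c = γ then 0 else f c, ?_, ?_⟩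
    · intro c hc
      rw [Finset.mem_singleton] at hc
      exact if_neg hc
    · intro c hc
      by_cases h : ssbSec p c = γ
      · exact if_pos h
      · show (if ssbSec p c = γ then 0 else f c) = 0
        rw [if_neg h]
        apply hf
        rw [Finset.mem_insert]
        rintro (h' | h')
        · exact h h'
        · exact hc h'
    · funext c
      by_cases h : ssbSec p c = γ
      · simp [h]
      · simp [h]
  · apply sup_le
    · intro f hf c hc
      exact hf c fun h => hc (Finset.mem_insert.2 (Or.inl (Finset.mem_singleton.1 h)))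
    · intro f hf c hc
      exact hf c fun h => hc (Finset.mem_insert_of_mem h)

omit [IsAlgClosed k] [CharP k p] in
theorem ssbW_inf (γ : ConjClasses H) (S : Finset (ConjClasses H)) (hγ : γ ∉ S) :
    ssbW p k {γ} ⊓ ssbW p k S = ⊥ := by
  rw [eq_bot_iff]
  rintro f ⟨h1, h2⟩
  rw [Submodule.mem_bot]
  funext c
  by_cases h : ssbSec p c = γ
  · exact h2 c (h ▸ hγ)
  · exact h1 c (fun h' => h (Finset.mem_singleton.1 h'))

omit [IsAlgClosed k] [CharP k p] in
theorem ssbW_empty : ssbW p k (∅ : Finset (ConjClasses H)) = ⊥ := by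
  rw [eq_bot_iff]
  intro f hf
  rw [Submodule.mem_bot]
  funext c
  exact hf c (Finset.notMem_empty _)

/-- the classes of the `p`-elements -/
noncomputable def ssbS (p : ℕ) (H : Type) [Group H] [Finite H] : Finset (ConjClasses H) :=
  fs {γ | ∃ u : H, IsPElt p u ∧ ConjClasses.mk u = γ}

omit [IsAlgClosed k] [CharP k p] in
theorem ssbW_top : ssbW p k (ssbS p H) = ⊤ := by
  rw [eq_top_iff]
  intro f _ c hc
  exfalso
  apply hc
  unfold ssbS
  rw [mem_fs]
  exact ⟨pPart p (Quotient.out c), isPElt_pPart _, rfl⟩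

open Classical in
/-- additivity of the rank over the sections -/
theorem ssb_finrank {e : MonoidAlgebra k H} (he : IsCI e) (S : Finset (ConjClasses H)) :
    S ⊆ ssbS p H → (ssbW p k S).map (cmul e) ≤ ssbW p k S ∧
      Module.finrank k ((ssbW p k S).map (cmul e)) =
        ∑ γ ∈ S, Module.finrank k ((ssbW p k {γ}).map (cmul e)) := by
  induction S using Finset.induction_on with
  | empty =>
    intro _
    rw [ssbW_empty, Submodule.map_bot]
    simp
  | insert γ S hγ ih =>
    intro hS
    obtain ⟨ih1, ih2⟩ := ih fun c hc => hS (Finset.mem_insert_of_mem hc)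
    have hγS : γ ∈ ssbS p H := hS (Finset.mem_insert_self γ S)
    unfold ssbS at hγS
    rw [mem_fs] at hγS
    obtain ⟨u, hu, rfl⟩ := hγS
    have h1 : (ssbW p k {ConjClasses.mk u}).map (cmul e) ≤ ssbW p k {ConjClasses.mk u} := by
      rw [ssbW_singleton]
      exact map_cmul_Vsec_le he hu
    rw [ssbW_insert, Submodule.map_sup]
    refine ⟨sup_le_sup h1 ih1, ?_⟩
    have h2 := Submodule.finrank_sup_add_finrank_inf_eq
      ((ssbW p k {ConjClasses.mk u}).map (cmul e)) ((ssbW p k S).map (cmul e))
    have h3 : (ssbW p k {ConjClasses.mk u}).map (cmul e) ⊓ (ssbW p k S).map (cmul e) = ⊥ := by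
      rw [eq_bot_iff, ← ssbW_inf (p := p) (k := k) (ConjClasses.mk u) S hγ]
      exact inf_le_inf h1 ih1
    rw [h3, finrank_bot, add_zero] at h2
    rw [h2, Finset.sum_insert hγ, ih2]

omit [Finite H] [Fact p.Prime] in
theorem ssb_isPElt_conj {u v : H} (hu : IsPElt p u) (h : IsConj u v) : IsPElt p v := by
  obtain ⟨n, hn⟩ := hu
  obtain ⟨x, hx⟩ := isConj_iff.1 h
  refine ⟨n, ?_⟩
  rw [← hx, conj_pow, hn]
  group

/-- orbit-stabiliser for the conjugation action -/
theorem ssb_card (u : H) :
    (fs {v : H | ConjClasses.mk v = ConjClasses.mk u}).card *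
      Nat.card (Subgroup.centralizer ({u} : Set H)) = Nat.card H := by
  have h1 := Subgroup.card_mul_index (MulAction.stabilizer (ConjAct H) u)
  rw [MulAction.index_stabilizer, ← Subgroup.nat_card_centralizer_nat_card_stabilizer] at h1
  have h2 : MulAction.orbit (ConjAct H) u = ↑(fs {v : H | ConjClasses.mk v = ConjClasses.mk u}) := by
    ext v
    rw [ConjAct.mem_orbit_conjAct, Finset.mem_coe, mem_fs, Set.mem_ofPred_eq,
      ConjClasses.mk_eq_mk_iff_isConj]
  rw [h2, Set.ncard_coe_finset] at h1
  rw [mul_comm]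
  exact h1

end ssb

/-- Package SubsectionB. -/
theorem card_mul_kap_eq_sum_Vsec {H : Type} [Group H] [Finite H] {e : MonoidAlgebra k H}
    (he : IsCI e) :
    Nat.card H * kap e = ∑ u ∈ fs {u : H | IsPElt p u},
      Nat.card (Subgroup.centralizer ({u} : Set H)) *
        Module.finrank k ((Vsec p k u).map (cmul e)) := by
  classical
  have hk : kap e = ∑ γ ∈ ssbS p H, Module.finrank k ((ssbW p k {γ}).map (cmul e)) := by
    unfold kap
    rw [← (ssb_finrank (p := p) he (ssbS p H) (Finset.Subset.refl _)).2, ssbW_top,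
      Submodule.map_top]
  have hmaps : ∀ u ∈ fs {u : H | IsPElt p u}, ConjClasses.mk u ∈ ssbS p H := by
    intro u hu
    unfold ssbS
    rw [mem_fs] at hu ⊢
    exact ⟨u, hu, rfl⟩
  rw [hk, Finset.mul_sum, ← Finset.sum_fiberwise_of_maps_to hmaps]
  refine Finset.sum_congr rfl fun γ hγ => ?_
  unfold ssbS at hγ
  rw [mem_fs] at hγ
  obtain ⟨u, hu, rfl⟩ := hγ
  have hfil : (fs {u : H | IsPElt p u}).filter (fun v => ConjClasses.mk v = ConjClasses.mk u)
      = fs {v : H | ConjClasses.mk v = ConjClasses.mk u} := by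
    ext v
    rw [Finset.mem_filter, mem_fs, mem_fs]
    constructor
    · exact fun h => h.2
    · intro h
      exact ⟨ssb_isPElt_conj hu (ConjClasses.mk_eq_mk_iff_isConj.1 h).symm, h⟩
  rw [hfil]
  have hpos : 0 < (fs {v : H | ConjClasses.mk v = ConjClasses.mk u}).card :=
    Finset.card_pos.2 ⟨u, by rw [mem_fs]; rfl⟩
  have hterm : ∀ v ∈ fs {v : H | ConjClasses.mk v = ConjClasses.mk u},
      Nat.card (Subgroup.centralizer ({v} : Set H)) * Module.finrank k ((Vsec p k v).map (cmul e))
        = Nat.card (Subgroup.centralizer ({u} : Set H)) *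
          Module.finrank k ((ssbW p k {ConjClasses.mk u}).map (cmul e)) := by
    intro v hv
    rw [mem_fs] at hv
    have hv' : ConjClasses.mk v = ConjClasses.mk u := hv
    have h1 := ssb_card v
    rw [hv', ← ssb_card u] at h1
    rw [Nat.eq_of_mul_eq_mul_left hpos h1, ← ssbW_singleton, hv']
  rw [Finset.sum_congr rfl hterm, Finset.sum_const, smul_eq_mul, ← mul_assoc, ssb_card]

end Claimed.Agent.R280.A
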