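import Claimed.Agent.R280.A.Chains

/-!
# Row 280, part A, package Telescope: the finite chain inversion (`lem:chain-transform`) as one
telescoping identity
-/

namespace Claimed.Agent.R280.A

variable {p : ℕ} [Fact p.Prime] {X : Type} [Group X] [Finite X]

/-- The normal chains strictly above `Q` inside `N(Q)`. -/
def chainsAbove (p : ℕ) (Q : Subgroup X) : Set (Finset (Subgroup X)) :=
  {D | IsPChain p D ∧ IsNormalChain D ∧ (∀ P ∈ D, Q < P) ∧
    top D ≤ Subgroup.normalizer (Q : Set X)}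

omit [Fact p.Prime] [Finite X] in
theorem tele_stab_insert [DecidableEq (Subgroup X)] (Q : Subgroup X) (D : Finset (Subgroup X)) :
    stab (insert Q D) = stab D ⊓ Subgroup.normalizer (Q : Set X) := by
  ext g
  simp only [mem_stab, Subgroup.mem_inf, Finset.mem_insert, forall_eq_or_imp]
  exact and_comm

omit [Fact p.Prime] [Finite X] in
theorem tele_top_insert [DecidableEq (Subgroup X)] (Q : Subgroup X) (D : Finset (Subgroup X)) :
    top (insert Q D) = top D ⊔ Q := by
  simp only [top, Finset.sup_insert, id]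
  exact sup_comm _ _

omit [Fact p.Prime] [Finite X] in
theorem tele_top_mono {D E : Finset (Subgroup X)} (h : D ⊆ E) : top D ≤ top E :=
  Finset.sup_mono h

omit [Fact p.Prime] [Finite X] in
theorem tele_stab_anti {D E : Finset (Subgroup X)} (h : D ⊆ E) : stab E ≤ stab D := by
  rw [le_stab]
  intro Q hQ
  exact le_stab.1 le_rfl Q (h hQ)

omit [Fact p.Prime] [Finite X] in
theorem tele_exists_least {D : Finset (Subgroup X)} (hD : IsPChain p D) (hne : D ≠ ∅) :
    ∃ Q ∈ D, ∀ P ∈ D, Q ≤ P := by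
  obtain ⟨Q, hQ, hmin⟩ := Finset.exists_minimal (s := D) (Finset.nonempty_iff_ne_empty.2 hne)
  refine ⟨Q, hQ, fun P hP => ?_⟩
  rcases hD.2.total (Finset.mem_coe.2 hQ) (Finset.mem_coe.2 hP) with h | h
  · exact h
  · exact hmin hP h

omit [Fact p.Prime] [Finite X] in
/-- `insert Q D` is a nonempty normal chain. -/
theorem tele_insert_mem [DecidableEq (Subgroup X)] {Q : Subgroup X} {D : Finset (Subgroup X)}
    (hQ : IsPGroup p Q) (hQ1 : Q ≠ ⊥) (hD : D ∈ chainsAbove p Q) :
    IsPChain p (insert Q D) ∧ IsNormalChain (insert Q D) := by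
  obtain ⟨hc, hn, hlt, htop⟩ := hD
  refine ⟨⟨?_, ?_⟩, ?_⟩
  · intro P hP
    rcases Finset.mem_insert.1 hP with rfl | hP
    · exact ⟨hQ, hQ1⟩
    · exact hc.1 P hP
  · rw [Finset.coe_insert]
    refine hc.2.insert ?_
    intro P hP _
    exact Or.inl (hlt P (Finset.mem_coe.1 hP)).le
  · unfold IsNormalChain
    rw [tele_stab_insert, tele_top_insert]
    refine sup_le (le_inf hn htop) (le_inf ?_ Subgroup.le_normalizer)
    rw [le_stab]
    intro P hP
    exact (hlt P hP).le.trans Subgroup.le_normalizer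

/-- **Package Telescope.**  `(Q, D) ↦ insert Q D` is a bijection from the pairs with `Q ≠ ⊥`,
`D ∈ chainsAbove p Q` onto the nonempty normal chains (inverse: `D' ↦ (min D', D'.erase (min D'))`),
with `stab (insert Q D) = stab D ⊓ N(Q)`, `top (insert Q D) = top D ⊔ Q`, and the length grows by
one; the pairs with `Q = ⊥` are all normal chains.  The two families cancel except for the empty
chain. -/
theorem telescope (T : Subgroup X → Subgroup X → ℤ) :
    ∑ Q ∈ fs {Q : Subgroup X | IsPGroup p Q}, ∑ D ∈ fs (chainsAbove p Q),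
      (-1 : ℤ) ^ D.card * T (stab D ⊓ Subgroup.normalizer (Q : Set X)) (top D ⊔ Q) = T ⊤ ⊥ := by
  classical
  set 𝒩 := fs {D : Finset (Subgroup X) | IsPChain p D ∧ IsNormalChain D} with h𝒩
  have hbot : (⊥ : Subgroup X) ∈ fs {Q : Subgroup X | IsPGroup p Q} := by
    rw [mem_fs]; exact IsPGroup.of_bot
  have hemp : (∅ : Finset (Subgroup X)) ∈ 𝒩 := by
    rw [h𝒩, mem_fs]
    refine ⟨⟨by simp, by simp⟩, ?_⟩
    unfold IsNormalChain
    simp
  rw [← Finset.add_sum_erase _ _ hbot]
  have h1 : ∑ D ∈ fs (chainsAbove p (⊥ : Subgroup X)), (-1 : ℤ) ^ D.card *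
      T (stab D ⊓ Subgroup.normalizer ((⊥ : Subgroup X) : Set X)) (top D ⊔ ⊥) =
      ∑ D ∈ 𝒩, (-1 : ℤ) ^ D.card * T (stab D) (top D) := by
    apply Finset.sum_congr
    · ext D
      rw [h𝒩, mem_fs, mem_fs]
      constructor
      · rintro ⟨a, b, -, -⟩; exact ⟨a, b⟩
      · rintro ⟨a, b⟩
        refine ⟨a, b, fun P hP => bot_lt_iff_ne_bot.2 (a.1 P hP).2, ?_⟩
        rw [Subgroup.normalizer_eq_top]; exact le_top
    · intro D _
      rw [Subgroup.normalizer_eq_top, inf_top_eq, sup_bot_eq]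
  have h2 : ∑ Q ∈ (fs {Q : Subgroup X | IsPGroup p Q}).erase ⊥, ∑ D ∈ fs (chainsAbove p Q),
      (-1 : ℤ) ^ D.card * T (stab D ⊓ Subgroup.normalizer (Q : Set X)) (top D ⊔ Q) =
      ∑ D ∈ 𝒩.erase ∅, -((-1 : ℤ) ^ D.card * T (stab D) (top D)) := by
    rw [Finset.sum_sigma']
    refine Finset.sum_bij (fun x _ => insert x.1 x.2) ?_ ?_ ?_ ?_
    · rintro ⟨Q, D⟩ hx
      simp only [Finset.mem_sigma, Finset.mem_erase, mem_fs, Set.mem_ofPred_eq] at hx
      rw [Finset.mem_erase, h𝒩, mem_fs]
      exact ⟨Finset.insert_ne_empty _ _, tele_insert_mem hx.1.2 hx.1.1 hx.2⟩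
    · rintro ⟨Q, D⟩ hx ⟨Q', D'⟩ hx' heq
      simp only [Finset.mem_sigma, Finset.mem_erase, mem_fs, Set.mem_ofPred_eq] at hx hx'
      simp only at heq
      have hlt := hx.2.2.2.1
      have hlt' := hx'.2.2.2.1
      have hQQ : Q = Q' := by
        have a1 : Q ∈ insert Q' D' := heq ▸ Finset.mem_insert_self Q D
        have a2 : Q' ∈ insert Q D := heq ▸ Finset.mem_insert_self Q' D'
        rcases Finset.mem_insert.1 a1 with h | h
        · exact h
        · rcases Finset.mem_insert.1 a2 with h' | h'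
          · exact h'.symm
          · exact absurd (hlt Q' h') (not_lt_of_gt (hlt' Q h))
      subst hQQ
      have n1 : Q ∉ D := fun h => lt_irrefl _ (hlt Q h)
      have n2 : Q ∉ D' := fun h => lt_irrefl _ (hlt' Q h)
      have : D = D' := by
        rw [← Finset.erase_insert n1, heq, Finset.erase_insert n2]
      subst this
      rfl
    · intro E hE
      rw [Finset.mem_erase, h𝒩, mem_fs] at hE
      obtain ⟨hne, hc, hn⟩ := hE
      obtain ⟨Q, hQ, hmin⟩ := tele_exists_least hc hne
      refine ⟨⟨Q, E.erase Q⟩, ?_, Finset.insert_erase hQ⟩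
      simp only [Finset.mem_sigma, Finset.mem_erase, mem_fs, Set.mem_ofPred_eq]
      refine ⟨⟨(hc.1 Q hQ).2, (hc.1 Q hQ).1⟩, ⟨?_, ?_⟩, ?_, ?_, ?_⟩
      · intro P hP
        exact hc.1 P (Finset.mem_of_mem_erase hP)
      · exact hc.2.mono (Finset.coe_subset.2 (Finset.erase_subset _ _))
      · exact (tele_top_mono (Finset.erase_subset _ _)).trans
          (le_trans hn (tele_stab_anti (Finset.erase_subset _ _)))
      · intro P hP
        exact lt_of_le_of_ne (hmin P (Finset.mem_of_mem_erase hP)) (Finset.ne_of_mem_erase hP).symm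
      · exact (tele_top_mono (Finset.erase_subset _ _)).trans
          (le_trans hn (le_stab.1 le_rfl Q hQ))
    · rintro ⟨Q, D⟩ hx
      simp only [Finset.mem_sigma, Finset.mem_erase, mem_fs, Set.mem_ofPred_eq] at hx
      have n1 : Q ∉ D := fun h => lt_irrefl _ (hx.2.2.2.1 Q h)
      simp only
      rw [tele_stab_insert, tele_top_insert, Finset.card_insert_of_notMem n1, pow_succ]
      ring
  rw [h1, h2, ← Finset.add_sum_erase 𝒩 _ hemp, Finset.sum_neg_distrib]
  simp

end Claimed.Agent.R280.A
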