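import Claimed.Agent.R280.A.ToggleP

/-!
# Row 280, part A, package ToggleN: removal of the chains that are not normal
(`lem:nonnormal-cancellation`)
-/

namespace Claimed.Agent.R280.A

variable {p : ℕ} [Fact p.Prime] {X : Type} [Group X] [Finite X]

section Closure

omit [Fact p.Prime] [Finite X]

/-- The smallest subgroup containing `A` that is normalised by `T`. -/
private def tgnCl (T A : Subgroup X) : Subgroup X :=
  sInf {Q : Subgroup X | A ≤ Q ∧ T ≤ Subgroup.normalizer (Q : Set X)}

private theorem tgn_le_cl (T A : Subgroup X) : A ≤ tgnCl T A :=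
  le_sInf fun _ hQ => hQ.1

private theorem tgn_cl_le {T A Q : Subgroup X} (h1 : A ≤ Q)
    (h2 : T ≤ Subgroup.normalizer (Q : Set X)) : tgnCl T A ≤ Q :=
  sInf_le ⟨h1, h2⟩

private theorem tgn_conj_mem_cl {T A : Subgroup X} {g : X}
    (hT : g ∈ Subgroup.normalizer (T : Set X)) (hA : g ∈ Subgroup.normalizer (A : Set X))
    {h : X} (hh : h ∈ tgnCl T A) : g * h * g⁻¹ ∈ tgnCl T A := by
  rw [tgnCl, Subgroup.mem_sInf] at hh ⊢
  rintro Q ⟨hQ1, hQ2⟩
  have key := hh (Q.comap (MulAut.conj g).toMonoidHom) ⟨?_, ?_⟩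
  · simpa using key
  · intro a ha
    have := (Subgroup.mem_normalizer_iff.1 hA a).1 ha
    simpa using hQ1 this
  · intro t ht
    rw [Subgroup.mem_normalizer_iff]
    intro y
    have ht' : g * t * g⁻¹ ∈ T := (Subgroup.mem_normalizer_iff.1 hT t).1 ht
    have := Subgroup.mem_normalizer_iff.1 (hQ2 ht') (g * y * g⁻¹)
    simp only [Subgroup.mem_comap, MulEquiv.coe_toMonoidHom, MulAut.conj_apply]
    rw [this]
    have e : g * t * g⁻¹ * (g * y * g⁻¹) * (g * t * g⁻¹)⁻¹ = g * (t * y * t⁻¹) * g⁻¹ := by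
      group
    rw [e]

private theorem tgn_mem_normalizer_cl {T A : Subgroup X} {g : X}
    (hT : g ∈ Subgroup.normalizer (T : Set X)) (hA : g ∈ Subgroup.normalizer (A : Set X)) :
    g ∈ Subgroup.normalizer (tgnCl T A : Set X) := by
  rw [Subgroup.mem_normalizer_iff]
  intro h
  refine ⟨fun hh => tgn_conj_mem_cl hT hA hh, fun hh => ?_⟩
  have := tgn_conj_mem_cl (inv_mem hT) (inv_mem hA) hh
  have e : g⁻¹ * (g * h * g⁻¹) * g⁻¹⁻¹ = h := by group
  rwa [e] at this

private theorem tgn_le_normalizer_cl (T A : Subgroup X) :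
    T ≤ Subgroup.normalizer (tgnCl T A : Set X) := by
  intro t ht
  rw [Subgroup.mem_normalizer_iff]
  intro h
  rw [tgnCl, Subgroup.mem_sInf, Subgroup.mem_sInf]
  refine forall_congr' fun Q => forall_congr' fun hQ => ?_
  exact Subgroup.mem_normalizer_iff.1 (hQ.2 ht) h

end Closure

/-- The normal closure of a proper subgroup of a finite `p`-group is proper. -/
private theorem tgn_cl_ne {T A : Subgroup X} (hT : IsPGroup p T) (hA : A ≤ T) (hne : A ≠ T) :
    tgnCl T A ≠ T := by
  have hnil : Group.IsNilpotent T := hT.isNilpotent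
  have hne' : A.subgroupOf T ≠ ⊤ := by
    intro h
    rw [Subgroup.subgroupOf_eq_top] at h
    exact hne (le_antisymm hA h)
  obtain ⟨M, hM, hAM⟩ := (eq_top_or_exists_le_coatom (A.subgroupOf T)).resolve_left hne'
  have hMn : M.Normal :=
    Subgroup.NormalizerCondition.normal_of_coatom M Group.normalizerCondition_of_isNilpotent hM
  have hQT : M.map T.subtype ≤ T := Subgroup.map_subtype_le M
  have hQM : (M.map T.subtype).subgroupOf T = M :=
    Subgroup.comap_map_eq_self_of_injective T.subtype_injective M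
  have h1 : A ≤ M.map T.subtype := by
    intro a ha
    exact ⟨⟨a, hA ha⟩, hAM (Subgroup.mem_subgroupOf.2 ha), rfl⟩
  have h2 : T ≤ Subgroup.normalizer (M.map T.subtype : Set X) := by
    rw [← Subgroup.normal_subgroupOf_iff_le_normalizer hQT, hQM]
    exact hMn
  intro h
  have h3 : T ≤ M.map T.subtype := le_trans h.ge (tgn_cl_le h1 h2)
  apply hM.1
  rw [← hQM, Subgroup.subgroupOf_eq_top]
  exact h3

open Classical in
/-- The members that are not normalised by the largest member. -/
private noncomputable def tgnBad (C : Finset (Subgroup X)) : Finset (Subgroup X) :=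
  C.filter fun Q => ¬ top C ≤ Subgroup.normalizer (Q : Set X)

/-- The subgroup that is toggled. -/
private noncomputable def tgnR (C : Finset (Subgroup X)) : Subgroup X :=
  tgnCl (top C) (top (tgnBad C))

/-- Everything that is needed about the toggled subgroup. -/
private structure TgnData (p : ℕ) (C : Finset (Subgroup X)) (T A R : Subgroup X) : Prop where
  chain : IsPChain p C
  hT : top C = T
  hA : top (tgnBad C) = A
  hR : tgnCl T A = R
  memT : T ∈ C
  memA : A ∈ C
  notA : ¬ T ≤ Subgroup.normalizer (A : Set X)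

omit [Fact p.Prime] [Finite X] in
private theorem tgn_data {C : Finset (Subgroup X)} (hC : IsPChain p C) (hn : ¬ IsNormalChain C) :
    TgnData p C (top C) (top (tgnBad C)) (tgnR C) := by
  classical
  have hbad : ∃ Q ∈ C, ¬ top C ≤ Subgroup.normalizer (Q : Set X) := by
    by_contra h
    push Not at h
    exact hn (le_stab.2 h)
  obtain ⟨Q, hQ, hQn⟩ := hbad
  have hQb : Q ∈ tgnBad C := Finset.mem_filter.2 ⟨hQ, hQn⟩
  have hsub : tgnBad C ⊆ C := Finset.filter_subset _ _
  have hCb : IsPChain p (tgnBad C) :=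
    ⟨fun Q hQ => hC.1 Q (hsub hQ), hC.2.mono (Finset.coe_subset.2 hsub)⟩
  have hAb : top (tgnBad C) ∈ tgnBad C := top_mem hCb (Finset.ne_empty_of_mem hQb)
  exact ⟨hC, rfl, rfl, rfl, top_mem hC (Finset.ne_empty_of_mem hQ), hsub hAb,
    (Finset.mem_filter.1 hAb).2⟩

private theorem tgn_step {C : Finset (Subgroup X)} {T A R : Subgroup X} (h : TgnData p C T A R) :
    haveI := Classical.decEq (Subgroup X)
    TgnData p (symmDiff C {R}) T A R ∧ stab (symmDiff C {R}) = stab C := by
  classical
  obtain ⟨hC, hT, hA, hR, memT, memA, notA⟩ := h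
  have hpT : IsPGroup p T := (hC.1 T memT).1
  have hAT : A ≤ T := hT ▸ le_top_of_mem memA
  have hAneT : A ≠ T := by
    rintro rfl
    exact notA Subgroup.le_normalizer
  have hAR : A ≤ R := hR ▸ tgn_le_cl T A
  have hRT : R ≤ T := hR ▸ tgn_cl_le hAT Subgroup.le_normalizer
  have hRneT : R ≠ T := hR ▸ tgn_cl_ne hpT hAT hAneT
  have hTR : T ≤ Subgroup.normalizer (R : Set X) := hR ▸ tgn_le_normalizer_cl T A
  have hAneR : A ≠ R := by
    rintro rfl
    exact notA hTR
  have hmem : ∀ Q, Q ∈ symmDiff C {R} ↔ (Q ∈ C ∧ Q ≠ R) ∨ (Q = R ∧ R ∉ C) := by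
    intro Q
    rw [Finset.mem_symmDiff, Finset.mem_singleton]
    constructor
    · rintro (h | ⟨rfl, h⟩)
      · exact Or.inl h
      · exact Or.inr ⟨rfl, h⟩
    · rintro (h | ⟨rfl, h⟩)
      · exact Or.inl h
      · exact Or.inr ⟨rfl, h⟩
  have memT' : T ∈ symmDiff C {R} := (hmem T).2 (Or.inl ⟨memT, hRneT.symm⟩)
  have memA' : A ∈ symmDiff C {R} := (hmem A).2 (Or.inl ⟨memA, hAneR⟩)
  -- comparability
  have hcomp : ∀ Q ∈ C, Q ≤ R ∨ R ≤ Q := by
    intro Q hQ
    by_cases hQn : T ≤ Subgroup.normalizer (Q : Set X)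
    · rcases hC.2.total hQ memA with h | h
      · exact Or.inl (h.trans hAR)
      · exact Or.inr (hR ▸ tgn_cl_le h hQn)
    · have : Q ∈ tgnBad C := Finset.mem_filter.2 ⟨hQ, hT.symm ▸ hQn⟩
      exact Or.inl ((hA ▸ le_top_of_mem this).trans hAR)
  have hC' : IsPChain p (symmDiff C {R}) := by
    refine ⟨?_, ?_⟩
    · intro Q hQ
      rcases (hmem Q).1 hQ with h | ⟨rfl, -⟩
      · exact hC.1 Q h.1
      · refine ⟨hpT.to_le hRT, ?_⟩
        rintro rfl
        exact (hC.1 A memA).2 (le_bot_iff.1 hAR)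
    · have hins : IsChain (· ≤ ·) (insert R (C : Set (Subgroup X))) :=
        hC.2.insert fun Q hQ _ => (hcomp Q hQ).symm
      refine hins.mono ?_
      intro Q hQ
      rcases (hmem Q).1 (Finset.mem_coe.1 hQ) with h | ⟨rfl, -⟩
      · exact Or.inr (Finset.mem_coe.2 h.1)
      · exact Or.inl rfl
  have hT' : top (symmDiff C {R}) = T := by
    refine le_antisymm (Finset.sup_le ?_) (le_top_of_mem memT')
    intro Q hQ
    rcases (hmem Q).1 hQ with h | ⟨rfl, -⟩
    · exact hT ▸ le_top_of_mem h.1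
    · exact hRT
  have hbad' : tgnBad (symmDiff C {R}) = tgnBad C := by
    ext Q
    rw [tgnBad, tgnBad, Finset.mem_filter, Finset.mem_filter, hT', hT, hmem]
    constructor
    · rintro ⟨h | ⟨rfl, -⟩, h2⟩
      · exact ⟨h.1, h2⟩
      · exact absurd hTR h2
    · rintro ⟨h1, h2⟩
      refine ⟨Or.inl ⟨h1, ?_⟩, h2⟩
      rintro rfl
      exact h2 hTR
  refine ⟨⟨hC', hT', by rw [hbad', hA], hR, memT', memA', notA⟩, ?_⟩
  ext g
  rw [mem_stab, mem_stab]
  constructor
  · intro h Q hQ
    by_cases hQR : Q = R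
    · subst hQR
      exact hR ▸ tgn_mem_normalizer_cl (h T memT') (h A memA')
    · exact h Q ((hmem Q).2 (Or.inl ⟨hQ, hQR⟩))
  · intro h Q hQ
    rcases (hmem Q).1 hQ with h' | ⟨rfl, -⟩
    · exact h Q h'.1
    · exact hR ▸ tgn_mem_normalizer_cl (h T memT) (h A memA)

omit [Fact p.Prime] [Finite X] in
private theorem tgn_not_normal {C : Finset (Subgroup X)} {T A R : Subgroup X}
    (h : TgnData p C T A R) : ¬ IsNormalChain C := by
  intro hn
  exact h.notA (h.hT ▸ le_stab.1 hn A h.memA)

/-- **Package ToggleN.**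
For a chain that is not normal let `T = top C`, `A` the largest member that is not normalised by
`T` and `R` the normal closure of `A` in `T` (`⨆ x ∈ T, x A x⁻¹`).  Then `A < R < T` (a proper
subgroup of a finite `p`-group lies in a normal maximal subgroup / normaliser growth), `R` is
contained in all members above `A` (they are normal in `T`), `R` is normal in `T`.  Toggle `R`
(`sum_toggle_eq_zero`): `T` and `A` do not change; an element normalising `A` and `T` normalises `R`,
so `stab C` does not change. -/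
theorem toggleN {M : Type*} [AddCommGroup M] (g : Subgroup X → Subgroup X → M) :
    ∑ C ∈ fs {C : Finset (Subgroup X) | IsPChain p C ∧ ¬ IsNormalChain C},
      (-1 : ℤ) ^ C.card • g (stab C) (top C) = 0 := by
  classical
  refine sum_toggle_eq_zero _ tgnR (fun C => g (stab C) (top C)) ?_ ?_ ?_
  · intro C hC
    rw [mem_fs] at hC ⊢
    have h := (tgn_step (tgn_data hC.1 hC.2)).1
    exact ⟨by convert h.chain, by convert tgn_not_normal h⟩
  · intro C hC
    rw [mem_fs] at hC
    have h := (tgn_step (tgn_data hC.1 hC.2)).1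
    have h1 := h.hT
    have h2 := h.hA
    show tgnCl (top (symmDiff C {tgnR C})) (top (tgnBad (symmDiff C {tgnR C}))) =
      tgnCl (top C) (top (tgnBad C))
    convert congrArg₂ tgnCl h1 h2 using 2
  · intro C hC
    rw [mem_fs] at hC
    have h := tgn_step (tgn_data hC.1 hC.2)
    have h1 := h.1.hT
    have h2 := h.2
    show g (stab (symmDiff C {tgnR C})) (top (symmDiff C {tgnR C})) = g (stab C) (top C)
    convert congrArg₂ g h2 h1 using 2

end Claimed.Agent.R280.A
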