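import Claimed.Agent.R280.A.Chains

/-!
# Row 280, part A, package ToggleP: toggling `A ⊔ P` (`lem:alternating-subsections`,
`lem:pcore-cancellation`)
-/

namespace Claimed.Agent.R280.A

variable {p : ℕ} [Fact p.Prime] {X : Type} [Group X] [Finite X]

theorem togP_symmDiff_of_mem {α : Type*} [DecidableEq α] {C : Finset α} {a : α} (h : a ∈ C) :
    symmDiff C {a} = C.erase a := by
  ext x
  simp only [Finset.mem_symmDiff, Finset.mem_singleton, Finset.mem_erase]
  constructor
  · rintro (⟨h1, h2⟩ | ⟨h1, h2⟩)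
    · exact ⟨h2, h1⟩
    · exact absurd (h1 ▸ h) h2
  · rintro ⟨h1, h2⟩
    exact Or.inl ⟨h2, h1⟩

theorem togP_symmDiff_of_notMem {α : Type*} [DecidableEq α] {C : Finset α} {a : α} (h : a ∉ C) :
    symmDiff C {a} = insert a C := by
  ext x
  simp only [Finset.mem_symmDiff, Finset.mem_singleton, Finset.mem_insert]
  constructor
  · rintro (⟨h1, h2⟩ | ⟨h1, h2⟩)
    · exact Or.inr h1
    · exact Or.inl h1
  · rintro (h1 | h1)
    · exact Or.inr ⟨h1, h1 ▸ h⟩
    · exact Or.inl ⟨h1, fun h2 => h (h2 ▸ h1)⟩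

/-- An abstract toggle lemma: `R C` is toggled in `C`. -/
theorem sum_toggle_eq_zero {α : Type*} [DecidableEq α] {M : Type*} [AddCommGroup M]
    (𝒞 : Finset (Finset α)) (R : Finset α → α) (F : Finset α → M)
    (h1 : ∀ C ∈ 𝒞, symmDiff C {R C} ∈ 𝒞) (h2 : ∀ C ∈ 𝒞, R (symmDiff C {R C}) = R C)
    (h3 : ∀ C ∈ 𝒞, F (symmDiff C {R C}) = F C) :
    ∑ C ∈ 𝒞, (-1 : ℤ) ^ C.card • F C = 0 := by
  refine Finset.sum_involution (fun C _ => symmDiff C {R C}) ?_ ?_ ?_ ?_
  · intro C hC
    rw [h3 C hC]
    by_cases h : R C ∈ C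
    · rw [togP_symmDiff_of_mem h]
      have hc : C.card = (C.erase (R C)).card + 1 := (Finset.card_erase_add_one h).symm
      rw [hc, pow_succ, ← add_smul]
      simp
    · rw [togP_symmDiff_of_notMem h, Finset.card_insert_of_notMem h, pow_succ, ← add_smul]
      simp
  · intro C _ _ h
    rw [symmDiff_eq_left] at h
    exact Finset.singleton_ne_empty _ h
  · intro C hC
    exact h1 C hC
  · intro C hC
    rw [h2 C hC, symmDiff_symmDiff_cancel_right]

omit [Fact p.Prime] [Finite X] in
theorem togP_isPChain_mono {C D : Finset (Subgroup X)} (hC : IsPChain p C) (h : D ⊆ C) :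
    IsPChain p D :=
  ⟨fun Q hQ => hC.1 Q (h hQ), hC.2.mono (Finset.coe_subset.2 h)⟩

omit [Fact p.Prime] [Finite X] in
theorem togP_stab_insert [DecidableEq (Subgroup X)] (Q : Subgroup X) (D : Finset (Subgroup X)) :
    stab (insert Q D) = stab D ⊓ Subgroup.normalizer (Q : Set X) := by
  ext g
  simp only [mem_stab, Subgroup.mem_inf, Finset.mem_insert, forall_eq_or_imp]
  exact and_comm

omit [Fact p.Prime] [Finite X] in
theorem togP_top_insert [DecidableEq (Subgroup X)] (Q : Subgroup X) (D : Finset (Subgroup X)) :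
    top (insert Q D) = top D ⊔ Q := by
  simp only [top, Finset.sup_insert, id]
  exact sup_comm _ _

section

variable (P : Subgroup X) [DecidablePred fun Q : Subgroup X => ¬ P ≤ Q]

omit [Fact p.Prime] [Finite X] in
/-- `A` is trivial or a member not containing `P`. -/
theorem togP_A_cases {C : Finset (Subgroup X)} (hC : IsPChain p C) :
    top (C.filter fun Q => ¬ P ≤ Q) = ⊥ ∨
      (top (C.filter fun Q => ¬ P ≤ Q) ∈ C ∧ ¬ P ≤ top (C.filter fun Q => ¬ P ≤ Q)) := by
  by_cases h : (C.filter fun Q => ¬ P ≤ Q) = ∅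
  · left; rw [h, top_empty]
  · right
    have := top_mem (togP_isPChain_mono hC (Finset.filter_subset _ _)) h
    exact Finset.mem_filter.1 this

omit [Fact p.Prime] [Finite X] in
/-- Anything that normalises the members normalises `A`. -/
theorem togP_stab_le_A {C : Finset (Subgroup X)} (hC : IsPChain p C) :
    stab C ≤ Subgroup.normalizer (top (C.filter fun Q => ¬ P ≤ Q) : Set X) := by
  rcases togP_A_cases P hC with h | h
  · rw [h, Subgroup.normalizer_eq_top]; exact le_top
  · exact le_stab.1 le_rfl _ h.1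

omit [Fact p.Prime] [Finite X] in
theorem togP_A_le_top (C : Finset (Subgroup X)) : top (C.filter fun Q => ¬ P ≤ Q) ≤ top C :=
  Finset.sup_mono (Finset.filter_subset _ _)

omit [Fact p.Prime] [Finite X] in
/-- `R` is comparable with all members. -/
theorem togP_R_comparable {C : Finset (Subgroup X)} (hC : IsPChain p C) {Q : Subgroup X}
    (hQ : Q ∈ C) :
    top (C.filter fun Q => ¬ P ≤ Q) ⊔ P ≤ Q ∨ Q ≤ top (C.filter fun Q => ¬ P ≤ Q) ⊔ P := by
  by_cases hPQ : P ≤ Q
  · left
    refine sup_le ?_ hPQ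
    rcases togP_A_cases P hC with h | h
    · rw [h]; exact bot_le
    · rcases hC.2.total (Finset.mem_coe.2 h.1) (Finset.mem_coe.2 hQ) with h' | h'
      · exact h'
      · exact absurd (hPQ.trans h') h.2
  · right
    exact (le_top_of_mem (Finset.mem_filter.2 ⟨hQ, hPQ⟩)).trans le_sup_left

omit [Fact p.Prime] [Finite X] in
/-- Inserting `R` does not change the two arguments of `g`. -/
theorem togP_insert_inv [DecidableEq (Subgroup X)] {C : Finset (Subgroup X)} (hC : IsPChain p C) :
    stab (insert (top (C.filter fun Q => ¬ P ≤ Q) ⊔ P) C) ⊓ Subgroup.normalizer (P : Set X) =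
        stab C ⊓ Subgroup.normalizer (P : Set X) ∧
      top (insert (top (C.filter fun Q => ¬ P ≤ Q) ⊔ P) C) ⊔ P = top C ⊔ P := by
  constructor
  · rw [togP_stab_insert]
    apply le_antisymm
    · exact le_inf (inf_le_left.trans inf_le_left) inf_le_right
    · refine le_inf (le_inf inf_le_left ?_) inf_le_right
      exact le_trans (inf_le_inf_right _ (togP_stab_le_A P hC))
        (Subgroup.normalizer_inf_normalizer_le_normalizer_sup _ _)
  · rw [togP_top_insert]
    apply le_antisymm
    · exact sup_le (sup_le le_sup_left (sup_le ((togP_A_le_top P C).trans le_sup_left)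
        le_sup_right)) le_sup_right
    · exact sup_le (le_sup_left.trans le_sup_left) le_sup_right

omit [Fact p.Prime] [Finite X] in
/-- Toggling a subgroup containing `P` does not change `A`. -/
theorem togP_filter_symmDiff [DecidableEq (Subgroup X)] (C : Finset (Subgroup X))
    {R : Subgroup X} (hR : P ≤ R) :
    ((symmDiff C {R}).filter fun Q => ¬ P ≤ Q) = C.filter fun Q => ¬ P ≤ Q := by
  ext Q
  simp only [Finset.mem_filter, Finset.mem_symmDiff, Finset.mem_singleton]
  constructor
  · rintro ⟨⟨h1, -⟩ | ⟨h1, -⟩, h2⟩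
    · exact ⟨h1, h2⟩
    · exact absurd (h1 ▸ hR) h2
  · rintro ⟨h1, h2⟩
    exact ⟨Or.inl ⟨h1, fun h => h2 (h ▸ hR)⟩, h2⟩

end

/-- **Package ToggleP.**
Let `P ≠ 1` be a `p`-subgroup.  On the chains normalised by `P` toggle `R = A ⊔ P`, where `A` is the
supremum of the members not containing `P` (the largest such member, or `⊥`).
`A ⊔ P = A P` is a `p`-group as `P` normalises `A`; it contains `P ≠ 1`; the members not containing
`P` are `≤ A ≤ R`, the members containing `P` contain `A` (chain) hence `R`; `R` contains `P`, so `A`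
does not change.  An element normalising `P` and `A` normalises `R`: `stab C ⊓ N(P)` does not
change, and `P ≤ stab C` is preserved.  `top C ⊔ P` does not change. -/
theorem toggleP (P : Subgroup X) (hP : IsPGroup p P) (hP1 : P ≠ ⊥) {M : Type*} [AddCommGroup M]
    (g : Subgroup X → Subgroup X → M) :
    ∑ C ∈ fs {C : Finset (Subgroup X) | IsPChain p C ∧ P ≤ stab C},
      (-1 : ℤ) ^ C.card • g (stab C ⊓ Subgroup.normalizer (P : Set X)) (top C ⊔ P) = 0 := by
  classical
  have hA : ∀ C : Finset (Subgroup X),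
      top ((symmDiff C {top (C.filter fun Q => ¬ P ≤ Q) ⊔ P}).filter fun Q => ¬ P ≤ Q) =
        top (C.filter fun Q => ¬ P ≤ Q) := by
    intro C
    rw [togP_filter_symmDiff P C le_sup_right]
  refine sum_toggle_eq_zero _ (fun C => top (C.filter fun Q => ¬ P ≤ Q) ⊔ P)
    (fun C => g (stab C ⊓ Subgroup.normalizer (P : Set X)) (top C ⊔ P)) ?_ ?_ ?_
  · intro C hC
    rw [mem_fs] at hC ⊢
    obtain ⟨hc, hs⟩ := hC
    have hRp : IsPGroup p (top (C.filter fun Q => ¬ P ≤ Q) ⊔ P : Subgroup X) :=
      IsPGroup.to_sup_of_normal_left'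
        (isPGroup_top (togP_isPChain_mono hc (Finset.filter_subset _ _))) hP
        (hs.trans (togP_stab_le_A P hc))
    have hR1 : (top (C.filter fun Q => ¬ P ≤ Q) ⊔ P : Subgroup X) ≠ ⊥ := by
      intro h
      exact hP1 (le_bot_iff.1 (h ▸ le_sup_right))
    have hins : IsPChain p (insert (top (C.filter fun Q => ¬ P ≤ Q) ⊔ P) C) := by
      refine ⟨?_, ?_⟩
      · intro Q hQ
        rcases Finset.mem_insert.1 hQ with rfl | hQ
        · exact ⟨hRp, hR1⟩
        · exact hc.1 Q hQ
      · rw [Finset.coe_insert]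
        refine hc.2.insert ?_
        intro Q hQ _
        exact togP_R_comparable P hc (Finset.mem_coe.1 hQ)
    have hsub : symmDiff C {top (C.filter fun Q => ¬ P ≤ Q) ⊔ P} ⊆
        insert (top (C.filter fun Q => ¬ P ≤ Q) ⊔ P) C := by
      intro Q hQ
      rw [Finset.mem_symmDiff] at hQ
      rcases hQ with h | h
      · exact Finset.mem_insert_of_mem h.1
      · rw [Finset.mem_singleton.1 h.1]; exact Finset.mem_insert_self _ _
    refine ⟨togP_isPChain_mono hins hsub, ?_⟩
    rw [le_stab]
    intro Q hQ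
    rcases Finset.mem_insert.1 (hsub hQ) with rfl | hQ
    · exact le_sup_right.trans Subgroup.le_normalizer
    · exact le_stab.1 hs Q hQ
  · intro C _
    rw [hA C]
  · intro C hC
    rw [mem_fs] at hC
    obtain ⟨hc, hs⟩ := hC
    by_cases h : top (C.filter fun Q => ¬ P ≤ Q) ⊔ P ∈ C
    · have h0 := hA C
      rw [togP_symmDiff_of_mem h] at h0 ⊢
      have := togP_insert_inv P (togP_isPChain_mono hc
        (Finset.erase_subset (top (C.filter fun Q => ¬ P ≤ Q) ⊔ P) C))
      rw [h0, Finset.insert_erase h] at this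
      rw [this.1, this.2]
    · rw [togP_symmDiff_of_notMem h]
      have := togP_insert_inv P hc
      rw [this.1, this.2]

end Claimed.Agent.R280.A
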