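import Claimed.Agent.R280.A.Telescope

/-!
# Row 280, part A, package TransferChains: chains of `N(Q)/Q` and chains of `X` above `Q`
(`lem:chain-transform`, the orbit free bookkeeping)
-/

namespace Claimed.Agent.R280.A

variable {p : ℕ} [Fact p.Prime] {X : Type} [Group X] [Finite X]

/-- The preimage in `X` of a subgroup of `N(Q)/Q`. -/
def liftS (Q : Subgroup X) (S : Subgroup (Subgroup.normalizer (Q : Set X) ⧸
    Q.subgroupOf (Subgroup.normalizer (Q : Set X)))) : Subgroup X :=
  (S.comap (QuotientGroup.mk' (Q.subgroupOf (Subgroup.normalizer (Q : Set X))))).map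
    (Subgroup.normalizer (Q : Set X)).subtype

variable (Q : Subgroup X)

theorem mem_liftS {S : Subgroup (Subgroup.normalizer (Q : Set X) ⧸
    Q.subgroupOf (Subgroup.normalizer (Q : Set X)))} {g : X} :
    g ∈ liftS Q S ↔ ∃ h : g ∈ Subgroup.normalizer (Q : Set X),
      QuotientGroup.mk' (Q.subgroupOf (Subgroup.normalizer (Q : Set X))) ⟨g, h⟩ ∈ S := by
  unfold liftS
  rw [Subgroup.mem_map]
  constructor
  · rintro ⟨n, hn, rfl⟩
    exact ⟨n.2, Subgroup.mem_comap.1 hn⟩
  · rintro ⟨h, hS⟩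
    exact ⟨⟨g, h⟩, Subgroup.mem_comap.2 hS, rfl⟩

theorem liftS_le_iff {S S' : Subgroup (Subgroup.normalizer (Q : Set X) ⧸
    Q.subgroupOf (Subgroup.normalizer (Q : Set X)))} : liftS Q S ≤ liftS Q S' ↔ S ≤ S' := by
  constructor
  · intro h s hs
    obtain ⟨n, rfl⟩ := QuotientGroup.mk'_surjective _ s
    have h1 : (n : X) ∈ liftS Q S := (mem_liftS Q).2 ⟨n.2, hs⟩
    obtain ⟨_, h2⟩ := (mem_liftS Q).1 (h h1)
    exact h2
  · intro h g hg
    obtain ⟨h1, h2⟩ := (mem_liftS Q).1 hg
    exact (mem_liftS Q).2 ⟨h1, h h2⟩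

theorem liftS_injective : Function.Injective (liftS Q) := fun S S' h =>
  le_antisymm ((liftS_le_iff Q).1 h.le) ((liftS_le_iff Q).1 h.ge)

theorem liftS_bot : liftS Q ⊥ = Q := by
  ext g
  rw [mem_liftS]
  constructor
  · rintro ⟨h, h1⟩
    rw [Subgroup.mem_bot, QuotientGroup.mk'_apply, QuotientGroup.eq_one_iff] at h1
    exact Subgroup.mem_subgroupOf.1 h1
  · intro hg
    refine ⟨Subgroup.le_normalizer hg, ?_⟩
    rw [Subgroup.mem_bot, QuotientGroup.mk'_apply, QuotientGroup.eq_one_iff]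
    exact Subgroup.mem_subgroupOf.2 hg

theorem liftS_top : liftS Q ⊤ = Subgroup.normalizer (Q : Set X) := by
  ext g
  rw [mem_liftS]
  exact ⟨fun ⟨h, _⟩ => h, fun h => ⟨h, Subgroup.mem_top _⟩⟩

theorem tc_le_liftS (S : Subgroup (Subgroup.normalizer (Q : Set X) ⧸
    Q.subgroupOf (Subgroup.normalizer (Q : Set X)))) : Q ≤ liftS Q S := by
  have h : liftS Q ⊥ ≤ liftS Q S := (liftS_le_iff Q).2 bot_le
  rwa [liftS_bot] at h

theorem tc_liftS_le (S : Subgroup (Subgroup.normalizer (Q : Set X) ⧸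
    Q.subgroupOf (Subgroup.normalizer (Q : Set X)))) :
    liftS Q S ≤ Subgroup.normalizer (Q : Set X) := by
  have h : liftS Q S ≤ liftS Q ⊤ := (liftS_le_iff Q).2 le_top
  rwa [liftS_top] at h

theorem tc_lt_liftS_iff {S : Subgroup (Subgroup.normalizer (Q : Set X) ⧸
    Q.subgroupOf (Subgroup.normalizer (Q : Set X)))} : Q < liftS Q S ↔ S ≠ ⊥ := by
  constructor
  · rintro h rfl
    rw [liftS_bot] at h
    exact lt_irrefl _ h
  · intro h
    refine lt_of_le_of_ne (tc_le_liftS Q S) fun h' => h ?_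
    apply liftS_injective Q
    rw [liftS_bot, ← h']

theorem exists_liftS_eq {P : Subgroup X} (h1 : Q ≤ P) (h2 : P ≤ Subgroup.normalizer (Q : Set X)) :
    ∃ S, liftS Q S = P := by
  refine ⟨(P.subgroupOf (Subgroup.normalizer (Q : Set X))).map
    (QuotientGroup.mk' (Q.subgroupOf (Subgroup.normalizer (Q : Set X)))), ?_⟩
  ext g
  rw [mem_liftS]
  constructor
  · rintro ⟨h, hg⟩
    obtain ⟨n, hn, he⟩ := Subgroup.mem_map.1 hg
    rw [QuotientGroup.mk'_apply, QuotientGroup.mk'_apply, QuotientGroup.eq] at he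
    have h3 : (n : X)⁻¹ * g ∈ Q := Subgroup.mem_subgroupOf.1 he
    have h4 : (n : X) ∈ P := Subgroup.mem_subgroupOf.1 hn
    have h5 := P.mul_mem h4 (h1 h3)
    rwa [mul_inv_cancel_left] at h5
  · intro hg
    exact ⟨h2 hg, Subgroup.mem_map.2 ⟨⟨g, h2 hg⟩, Subgroup.mem_subgroupOf.2 hg, rfl⟩⟩

theorem tc_card_liftS (S : Subgroup (Subgroup.normalizer (Q : Set X) ⧸
    Q.subgroupOf (Subgroup.normalizer (Q : Set X)))) :
    Nat.card (liftS Q S) = Nat.card Q * Nat.card S := by
  unfold liftS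
  rw [Subgroup.card_map_of_injective (Subgroup.subtype_injective _)]
  set π := QuotientGroup.mk' (Q.subgroupOf (Subgroup.normalizer (Q : Set X))) with hπ
  set T := S.comap π with hT
  have hker : π.ker = Q.subgroupOf (Subgroup.normalizer (Q : Set X)) := QuotientGroup.ker_mk' _
  have hle : π.ker ≤ T := by
    intro n hn
    rw [hT, Subgroup.mem_comap, MonoidHom.mem_ker.1 hn]
    exact S.one_mem
  have h1 : π.ker.relIndex T = Nat.card S := by
    rw [Subgroup.relIndex_ker, hT,
      Subgroup.map_comap_eq_self_of_surjective (QuotientGroup.mk'_surjective _)]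
  have h2 := Subgroup.card_mul_index (π.ker.subgroupOf T)
  have h3 : Nat.card (π.ker.subgroupOf T) = Nat.card π.ker :=
    Nat.card_congr (Subgroup.subgroupOfEquivOfLe hle).toEquiv
  have h4 : Nat.card π.ker = Nat.card Q := by
    rw [hker]
    exact Nat.card_congr (Subgroup.subgroupOfEquivOfLe Subgroup.le_normalizer).toEquiv
  have h5 : (π.ker.subgroupOf T).index = Nat.card S := h1
  rw [← h2, h3, h4, h5]

theorem isPGroup_liftS_iff (hQ : IsPGroup p Q) {S : Subgroup (Subgroup.normalizer (Q : Set X) ⧸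
    Q.subgroupOf (Subgroup.normalizer (Q : Set X)))} : IsPGroup p (liftS Q S) ↔ IsPGroup p S := by
  have hp : p.Prime := Fact.out
  obtain ⟨a, ha⟩ := IsPGroup.iff_card.1 hQ
  rw [IsPGroup.iff_card, IsPGroup.iff_card, tc_card_liftS, ha]
  constructor
  · rintro ⟨n, hn⟩
    have hd : Nat.card S ∣ p ^ n := ⟨p ^ a, by rw [← hn, mul_comm]⟩
    obtain ⟨m, _, hm⟩ := (Nat.dvd_prime_pow hp).1 hd
    exact ⟨m, hm⟩
  · rintro ⟨m, hm⟩
    exact ⟨a + m, by rw [hm, pow_add]⟩

theorem liftS_normalizer (S : Subgroup (Subgroup.normalizer (Q : Set X) ⧸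
    Q.subgroupOf (Subgroup.normalizer (Q : Set X)))) :
    liftS Q (Subgroup.normalizer (S : Set _)) =
      Subgroup.normalizer (liftS Q S : Set X) ⊓ Subgroup.normalizer (Q : Set X) := by
  ext g
  rw [mem_liftS, Subgroup.mem_inf]
  constructor
  · rintro ⟨hg, hn⟩
    refine ⟨?_, hg⟩
    rw [Subgroup.mem_normalizer_iff] at hn ⊢
    intro h
    rw [mem_liftS, mem_liftS]
    constructor
    · rintro ⟨hh, hS⟩
      have hc : g * h * g⁻¹ ∈ Subgroup.normalizer (Q : Set X) :=
        mul_mem (mul_mem hg hh) (inv_mem hg)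
      refine ⟨hc, ?_⟩
      have := (hn _).1 hS
      rw [← map_inv, ← map_mul, ← map_mul] at this
      exact this
    · rintro ⟨hc, hS⟩
      have hh : h ∈ Subgroup.normalizer (Q : Set X) := by
        have := mul_mem (mul_mem (inv_mem hg) hc) hg
        simpa [mul_assoc] using this
      refine ⟨hh, (hn _).2 ?_⟩
      rw [← map_inv, ← map_mul, ← map_mul]
      exact hS
  · rintro ⟨hn, hg⟩
    refine ⟨hg, ?_⟩
    rw [Subgroup.mem_normalizer_iff] at hn ⊢
    intro s
    obtain ⟨h, rfl⟩ := QuotientGroup.mk'_surjective _ s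
    rw [← map_inv, ← map_mul, ← map_mul]
    have h1 := hn (h : X)
    rw [mem_liftS, mem_liftS] at h1
    constructor
    · intro hS
      obtain ⟨_, h2⟩ := h1.1 ⟨h.2, hS⟩
      exact h2
    · intro hS
      obtain ⟨_, h2⟩ := h1.2 ⟨mul_mem (mul_mem hg h.2) (inv_mem hg), hS⟩
      exact h2

theorem card_liftS (S : Subgroup (Subgroup.normalizer (Q : Set X) ⧸
    Q.subgroupOf (Subgroup.normalizer (Q : Set X)))) :
    Nat.card (liftS Q S) = Nat.card Q * Nat.card S := tc_card_liftS Q S

open Classical in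
theorem liftS_stab (C : Finset (Subgroup (Subgroup.normalizer (Q : Set X) ⧸
    Q.subgroupOf (Subgroup.normalizer (Q : Set X))))) :
    liftS Q (stab C) = stab (C.image (liftS Q)) ⊓ Subgroup.normalizer (Q : Set X) := by
  ext g
  rw [mem_liftS, Subgroup.mem_inf, mem_stab]
  constructor
  · rintro ⟨hg, hs⟩
    refine ⟨?_, hg⟩
    intro P hP
    obtain ⟨S, hS, rfl⟩ := Finset.mem_image.1 hP
    have h1 : g ∈ liftS Q (Subgroup.normalizer (S : Set _)) :=
      (mem_liftS Q).2 ⟨hg, mem_stab.1 hs S hS⟩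
    rw [liftS_normalizer] at h1
    exact h1.1
  · rintro ⟨hs, hg⟩
    refine ⟨hg, mem_stab.2 fun S hS => ?_⟩
    have h1 : g ∈ liftS Q (Subgroup.normalizer (S : Set _)) := by
      rw [liftS_normalizer]
      exact ⟨hs _ (Finset.mem_image_of_mem _ hS), hg⟩
    obtain ⟨_, h2⟩ := (mem_liftS Q).1 h1
    exact h2

open Classical in
theorem tc_top_image {C : Finset (Subgroup (Subgroup.normalizer (Q : Set X) ⧸
    Q.subgroupOf (Subgroup.normalizer (Q : Set X))))} (hC : IsPChain p C) (hne : C ≠ ∅) :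
    top (C.image (liftS Q)) = liftS Q (top C) := by
  refine le_antisymm ?_ ?_
  · refine Finset.sup_le fun P hP => ?_
    obtain ⟨S, hS, rfl⟩ := Finset.mem_image.1 hP
    exact (liftS_le_iff Q).2 (le_top_of_mem hS)
  · exact le_top_of_mem (Finset.mem_image_of_mem _ (top_mem hC hne))

open Classical in
theorem liftS_top_chain {C : Finset (Subgroup (Subgroup.normalizer (Q : Set X) ⧸
    Q.subgroupOf (Subgroup.normalizer (Q : Set X))))} (hC : IsPChain p C) :
    liftS Q (top C) = top (C.image (liftS Q)) ⊔ Q := by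
  by_cases hne : C = ∅
  · subst hne
    rw [top_empty, liftS_bot, Finset.image_empty, top_empty, bot_sup_eq]
  · rw [tc_top_image Q hC hne, sup_eq_left.2 (tc_le_liftS Q _)]

/-- **Package TransferChains**: `C ↦ C.image (liftS Q)` is a length preserving bijection from the
normal `p`-chains of `N(Q)/Q` onto `chainsAbove p Q`. -/
theorem sum_chains_quotient (hQ : IsPGroup p Q) (F : Subgroup X → Subgroup X → ℤ) :
    ∑ C ∈ fs {C : Finset (Subgroup (Subgroup.normalizer (Q : Set X) ⧸
        Q.subgroupOf (Subgroup.normalizer (Q : Set X)))) | IsPChain p C ∧ IsNormalChain C},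
      (-1 : ℤ) ^ C.card * F (liftS Q (stab C)) (liftS Q (top C)) =
    ∑ D ∈ fs (chainsAbove p Q), (-1 : ℤ) ^ D.card *
      F (stab D ⊓ Subgroup.normalizer (Q : Set X)) (top D ⊔ Q) := by
  classical
  refine Finset.sum_bij (fun C _ => C.image (liftS Q)) ?_ ?_ ?_ ?_
  · -- maps to
    intro C hC
    rw [mem_fs] at hC ⊢
    obtain ⟨hC1, hC2⟩ := hC
    have hD1 : IsPChain p (C.image (liftS Q)) := by
      refine ⟨?_, ?_⟩
      · intro P hP
        obtain ⟨S, hS, rfl⟩ := Finset.mem_image.1 hP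
        refine ⟨(isPGroup_liftS_iff Q hQ).2 (hC1.1 S hS).1, ?_⟩
        have := (tc_lt_liftS_iff Q).2 (hC1.1 S hS).2
        exact (lt_of_le_of_lt bot_le this).ne'
      · intro P hP P' hP' _
        rw [Finset.mem_coe] at hP hP'
        obtain ⟨S, hS, rfl⟩ := Finset.mem_image.1 hP
        obtain ⟨S', hS', rfl⟩ := Finset.mem_image.1 hP'
        rcases hC1.2.total hS hS' with h | h
        · exact Or.inl ((liftS_le_iff Q).2 h)
        · exact Or.inr ((liftS_le_iff Q).2 h)
    refine ⟨hD1, ?_, ?_, ?_⟩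
    · by_cases hne : C = ∅
      · subst hne
        unfold IsNormalChain
        rw [Finset.image_empty, top_empty]
        exact bot_le
      · unfold IsNormalChain
        rw [tc_top_image Q hC1 hne]
        have h1 : liftS Q (top C) ≤ liftS Q (stab C) := (liftS_le_iff Q).2 hC2
        rw [liftS_stab] at h1
        exact h1.trans inf_le_left
    · intro P hP
      obtain ⟨S, hS, rfl⟩ := Finset.mem_image.1 hP
      exact (tc_lt_liftS_iff Q).2 (hC1.1 S hS).2
    · refine Finset.sup_le fun P hP => ?_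
      obtain ⟨S, hS, rfl⟩ := Finset.mem_image.1 hP
      exact tc_liftS_le Q S
  · -- injective
    intro C _ C' _ h
    exact Finset.image_injective (liftS_injective Q) h
  · -- surjective
    intro D hD
    rw [mem_fs] at hD
    obtain ⟨hD1, hD2, hD3, hD4⟩ := hD
    set C : Finset (Subgroup (Subgroup.normalizer (Q : Set X) ⧸
      Q.subgroupOf (Subgroup.normalizer (Q : Set X)))) := fs {S | liftS Q S ∈ D} with hCdef
    have hmem : ∀ S, S ∈ C ↔ liftS Q S ∈ D := by
      intro S
      rw [hCdef, mem_fs]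
      rfl
    have himg : C.image (liftS Q) = D := by
      ext P
      rw [Finset.mem_image]
      constructor
      · rintro ⟨S, hS, rfl⟩
        exact (hmem S).1 hS
      · intro hP
        obtain ⟨S, hS⟩ := exists_liftS_eq Q (hD3 P hP).le ((le_top_of_mem hP).trans hD4)
        exact ⟨S, (hmem S).2 (by rw [hS]; exact hP), hS⟩
    have hC1 : IsPChain p C := by
      refine ⟨?_, ?_⟩
      · intro S hS
        have hS' := (hmem S).1 hS
        exact ⟨(isPGroup_liftS_iff Q hQ).1 (hD1.1 _ hS').1, (tc_lt_liftS_iff Q).1 (hD3 _ hS')⟩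
      · intro S hS S' hS' _
        rw [Finset.mem_coe] at hS hS'
        rcases hD1.2.total ((hmem S).1 hS) ((hmem S').1 hS') with h | h
        · exact Or.inl ((liftS_le_iff Q).1 h)
        · exact Or.inr ((liftS_le_iff Q).1 h)
    have hC2 : IsNormalChain C := by
      unfold IsNormalChain
      rw [← liftS_le_iff Q, liftS_stab, liftS_top_chain Q hC1, himg]
      refine sup_le (le_inf hD2 hD4) (le_inf ?_ Subgroup.le_normalizer)
      rw [le_stab]
      intro P hP
      exact (hD3 P hP).le.trans Subgroup.le_normalizer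
    exact ⟨C, mem_fs.2 ⟨hC1, hC2⟩, himg⟩
  · -- values
    intro C hC
    rw [mem_fs] at hC
    rw [Finset.card_image_of_injective _ (liftS_injective Q), liftS_stab, liftS_top_chain Q hC.1]

end Claimed.Agent.R280.A
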