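import Claimed.Agent.R280.A.TupleSwap

/-!
# Row 280, part A, package TupleGen: the tuples generating a fixed subgroup; the only consumer of
`TupleDiv` (`prop:group-reduction`, second half)
-/

namespace Claimed.Agent.R280.A

variable {p : ℕ} [Fact p.Prime] {X : Type} [Group X] [Finite X]

/-- The inclusion of the tuples of `↥J` into the tuples of `X`. -/
def tgCoe (J : Subgroup X) {n : ℕ} (t : J × J × (Fin n → J)) : X × X × (Fin n → X) :=
  ((t.1 : X), (t.2.1 : X), fun i => (t.2.2 i : X))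

omit [Finite X] in
theorem tgCoe_injective (J : Subgroup X) {n : ℕ} : Function.Injective (tgCoe J (n := n)) := by
  rintro ⟨a, b, u⟩ ⟨a', b', u'⟩ h
  have h1 : (a : X) = a' := (Prod.mk.inj h).1
  have h2 : (b : X) = b' := (Prod.mk.inj (Prod.mk.inj h).2).1
  have h3 : (fun i => (u i : X)) = fun i => (u' i : X) := (Prod.mk.inj (Prod.mk.inj h).2).2
  have e1 : a = a' := Subtype.ext h1
  have e2 : b = b' := Subtype.ext h2
  have e3 : u = u' := funext fun i => Subtype.ext (congrFun h3 i)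
  rw [e1, e2, e3]

omit [Finite X] in
/-- The relation `[x, y] u₁ ⋯ uₙ = 1` can be tested in `X`. -/
theorem tgCoe_rel (J : Subgroup X) {n : ℕ} (t : J × J × (Fin n → J)) :
    (tgCoe J t).1 * (tgCoe J t).2.1 * (tgCoe J t).1⁻¹ * (tgCoe J t).2.1⁻¹ *
        (List.ofFn (tgCoe J t).2.2).prod = 1 ↔
      t.1 * t.2.1 * t.1⁻¹ * t.2.1⁻¹ * (List.ofFn t.2.2).prod = 1 := by
  have h : ((t.1 * t.2.1 * t.1⁻¹ * t.2.1⁻¹ * (List.ofFn t.2.2).prod : J) : X) =
      (tgCoe J t).1 * (tgCoe J t).2.1 * (tgCoe J t).1⁻¹ * (tgCoe J t).2.1⁻¹ *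
        (List.ofFn (tgCoe J t).2.2).prod := by
    have h2 : (((List.ofFn t.2.2).prod : J) : X) = (List.ofFn (tgCoe J t).2.2).prod := by
      have := map_list_prod J.subtype (List.ofFn t.2.2)
      rw [List.map_ofFn] at this
      exact this
    rw [Subgroup.coe_mul, Subgroup.coe_mul, Subgroup.coe_mul, Subgroup.coe_mul, Subgroup.coe_inv,
      Subgroup.coe_inv, h2]
    rfl
  rw [← h]
  exact ⟨fun e => Subtype.ext e, fun e => congrArg Subtype.val e⟩

omit [Finite X] in
/-- A tuple of `↥J` generates `↥J` iff its image generates `J`. -/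
theorem tgCoe_gen (J : Subgroup X) {n : ℕ} (t : J × J × (Fin n → J)) :
    gen (tgCoe J t) = J ↔ Subgroup.closure ({t.1, t.2.1} ∪ Set.range t.2.2) = ⊤ := by
  have h1 : ({(tgCoe J t).1, (tgCoe J t).2.1} ∪ Set.range (tgCoe J t).2.2 : Set X) =
      J.subtype '' ({t.1, t.2.1} ∪ Set.range t.2.2) := by
    rw [Set.image_union, Set.image_pair, ← Set.range_comp]
    rfl
  have h2 : gen (tgCoe J t) = (Subgroup.closure ({t.1, t.2.1} ∪ Set.range t.2.2)).map J.subtype := by
    unfold gen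
    rw [h1, MonoidHom.map_closure]
  have h3 : (⊤ : Subgroup J).map J.subtype = J := by
    rw [← MonoidHom.range_eq_map, Subgroup.range_subtype]
  rw [h2]
  constructor
  · intro e
    exact Subgroup.map_injective J.subtype_injective (e.trans h3.symm)
  · intro e
    rw [e, h3]

omit [Finite X] in
/-- Every tuple generating `J` comes from `↥J`. -/
theorem tgCoe_surj (J : Subgroup X) {n : ℕ} (t : X × X × (Fin n → X)) (ht : gen t = J) :
    ∃ t' : J × J × (Fin n → J), tgCoe J t' = t := by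
  have hsub : ({t.1, t.2.1} ∪ Set.range t.2.2 : Set X) ⊆ J := by
    rw [← ht]
    exact Subgroup.subset_closure
  refine ⟨(⟨t.1, hsub (Or.inl (Or.inl rfl))⟩, ⟨t.2.1, hsub (Or.inl (Or.inr rfl))⟩,
    fun i => ⟨t.2.2 i, hsub (Or.inr ⟨i, rfl⟩)⟩), rfl⟩

/-- The generating tuples of `↥J` satisfying the relation. -/
def tgSet (J : Subgroup X) (n : ℕ) : Set (J × J × (Fin n → J)) :=
  {t | t.1 * t.2.1 * t.1⁻¹ * t.2.1⁻¹ * (List.ofFn t.2.2).prod = 1 ∧
    Subgroup.closure ({t.1, t.2.1} ∪ Set.range t.2.2) = ⊤}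

/-- The multiset of the classes of the puncture entries. -/
def tgCls (J : Subgroup X) {n : ℕ} (t : J × J × (Fin n → J)) : Multiset (ConjClasses J) :=
  Finset.univ.val.map fun i => ConjClasses.mk (t.2.2 i)

/-- Transport of the sum to `↥J`. -/
theorem tg_sum_eq {O : Type} [CommRing O] (J : Subgroup X) (n : ℕ)
    (w : X × X × (Fin n → X) → O) :
    ∑ t ∈ fs {t : X × X × (Fin n → X) | t ∈ tupS n (⊤ : Subgroup X) ∧ gen t = J}, w t =
      ∑ t ∈ fs (tgSet J n), w (tgCoe J t) := by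
  symm
  refine Finset.sum_nbij (tgCoe J) ?_ ?_ ?_ fun _ _ => rfl
  · intro t ht
    have ht' : t ∈ tgSet J n := mem_fs.1 ht
    refine mem_fs.2 ⟨?_, (tgCoe_gen J t).2 ht'.2⟩
    unfold tupS
    exact mem_fs.2 ⟨(tgCoe_rel J t).2 ht'.1, Subgroup.mem_top _, Subgroup.mem_top _,
      fun _ => Subgroup.mem_top _⟩
  · exact (tgCoe_injective J).injOn
  · intro t ht
    have ht0 : t ∈ {t : X × X × (Fin n → X) | t ∈ tupS n (⊤ : Subgroup X) ∧ gen t = J} :=
      mem_fs.1 (Finset.mem_coe.1 ht)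
    have ht' : t ∈ tupS n (⊤ : Subgroup X) ∧ gen t = J := ht0
    obtain ⟨t', rfl⟩ := tgCoe_surj J t ht'.2
    have h1 := ht'.1
    unfold tupS at h1
    have h2 := (mem_fs.1 h1).1
    exact ⟨t', Finset.mem_coe.2 (mem_fs.2 ⟨(tgCoe_rel J t').1 h2, (tgCoe_gen J t').1 ht'.2⟩), rfl⟩

omit [Finite X] in
/-- A class function of `X` induces a function on the classes of `↥J`. -/
def tgLift {O : Type} (α : X → O) (hαc : ∀ x g, α (x * g * x⁻¹) = α g) (J : Subgroup X) :
    ConjClasses J → O :=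
  Quotient.lift (s := IsConj.setoid J) (fun g : J => α (g : X)) (by
    intro a b hab
    obtain ⟨c, hc⟩ := isConj_iff.1 (show IsConj a b from hab)
    show α (a : X) = α (b : X)
    rw [← hc, Subgroup.coe_mul, Subgroup.coe_mul, Subgroup.coe_inv, hαc])

omit [Finite X] in
theorem tgLift_mk {O : Type} (α : X → O) (hαc : ∀ x g, α (x * g * x⁻¹) = α g) (J : Subgroup X)
    (g : J) : tgLift α hαc J (ConjClasses.mk g) = α (g : X) := rfl

omit [Finite X] in
/-- The weight of a tuple only depends on the multiset of classes. -/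
theorem tg_weight {O : Type} [CommRing O] (α : X → O) (hαc : ∀ x g, α (x * g * x⁻¹) = α g)
    (J : Subgroup X) {n : ℕ} (t : J × J × (Fin n → J)) :
    ∏ i, α ((tgCoe J t).2.2 i) = ((tgCls J t).map (tgLift α hαc J)).prod := by
  unfold tgCls
  rw [Multiset.map_map]
  rfl

/-- The fibres of the class map are the sets `Tup`. -/
theorem tg_card_fibre (J : Subgroup X) [DecidableEq (Multiset (ConjClasses J))] (n : ℕ)
    (M : Multiset (ConjClasses J)) :
    ((fs (tgSet J n)).filter fun t => tgCls J t = M).card = Nat.card (Tup J n M) := by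
  have h1 : (fs (tgSet J n)).filter (fun t => tgCls J t = M) = fs (Tup J n M) := by
    ext t
    rw [Finset.mem_filter, mem_fs, mem_fs]
    exact ⟨fun h => ⟨h.1.1, h.1.2, h.2⟩, fun h => ⟨⟨h.1, h.2.1⟩, h.2.2⟩⟩
  rw [h1, Nat.card_coe_set_eq, Set.ncard_eq_toFinset_card _ (Set.toFinite _)]
  rfl

/-- Package TupleGen: the tuples generating a fixed subgroup `J` with trivial `p`-core.  Transport
them to `↥J` (`Tup ↥J n M`), sort them by the multiset `M` of `J`-classes of the `uᵢ`; the weight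
`∏ α (uᵢ)` only depends on `M`, and vanishes unless all classes in `M` are `p`-singular. -/
theorem gen_sum_dvd (hT : TupleDiv p) {O : Type} [CommRing O] (α : X → O)
    (hαc : ∀ x g, α (x * g * x⁻¹) = α g) (hα0 : ∀ g, ¬ p ∣ orderOf g → α g = 0)
    (J : Subgroup X) (hJ : ∀ N : Subgroup J, N.Normal → IsPGroup p N → N = ⊥) (h : ℕ) :
    ∃ s₀ : ℕ, ∀ s : ℕ, s₀ ≤ s → (p : O) ^ h ∣
      ∑ t ∈ fs {t : X × X × (Fin (p ^ s) → X) | t ∈ tupS (p ^ s) (⊤ : Subgroup X) ∧ gen t = J},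
        ∏ i, α (t.2.2 i) := by
  classical
  obtain ⟨s₀, hs₀⟩ := hT J hJ h
  refine ⟨s₀, fun s hs => ?_⟩
  rw [tg_sum_eq J (p ^ s) fun t => ∏ i, α (t.2.2 i)]
  rw [← Finset.sum_fiberwise_of_maps_to (g := tgCls J) (t := (fs (tgSet J (p ^ s))).image (tgCls J))
    fun x hx => Finset.mem_image_of_mem _ hx]
  refine Finset.dvd_sum fun M _ => ?_
  have hw : ∀ t ∈ (fs (tgSet J (p ^ s))).filter (fun t => tgCls J t = M),
      ∏ i, α ((tgCoe J t).2.2 i) = (M.map (tgLift α hαc J)).prod := by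
    intro t ht
    rw [tg_weight α hαc J t, (Finset.mem_filter.1 ht).2]
  rw [Finset.sum_congr rfl hw, Finset.sum_const, tg_card_fibre, nsmul_eq_mul]
  by_cases hM : ∀ c ∈ M, ∀ g : J, ConjClasses.mk g = c → p ∣ orderOf g
  · have h1 := hs₀ s hs M hM
    have h2 : ((p ^ h : ℕ) : O) ∣ ((Nat.card (Tup J (p ^ s) M) : ℕ) : O) := Nat.cast_dvd_cast h1
    rw [Nat.cast_pow] at h2
    exact Dvd.dvd.mul_right h2 _
  · push Not at hM
    obtain ⟨c, hc, g, hg, hpg⟩ := hM
    have h0 : tgLift α hαc J c = 0 := by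
      rw [← hg, tgLift_mk]
      refine hα0 _ ?_
      rwa [Subgroup.orderOf_coe]
    have h1 : (M.map (tgLift α hαc J)).prod = 0 :=
      Multiset.prod_eq_zero (Multiset.mem_map.2 ⟨c, hc, h0⟩)
    rw [h1, mul_zero]
    exact dvd_zero _

end Claimed.Agent.R280.A
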