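import Claimed.Agent.R280.A.ToggleP

/-!
# Row 280, part A, package TupleSwap: the integers `a_X(J)` and the exchange of the sums over chains
and tuples (`prop:group-reduction`, first half)
-/

namespace Claimed.Agent.R280.A

variable {p : ℕ} [Fact p.Prime] {X : Type} [Group X] [Finite X]

/-- The subgroup generated by a tuple. -/
def gen {n : ℕ} (t : X × X × (Fin n → X)) : Subgroup X :=
  Subgroup.closure ({t.1, t.2.1} ∪ Set.range t.2.2)

/-- The integer `a_X(J)`. -/
noncomputable def aX (p : ℕ) (J : Subgroup X) : ℤ :=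
  ∑ C ∈ fs {C : Finset (Subgroup X) | IsPChain p C ∧ J ≤ stab C}, (-1 : ℤ) ^ C.card

/-- `lem:pcore-cancellation`. -/
theorem aX_eq_zero (J P : Subgroup X) (hP : IsPGroup p P) (hP1 : P ≠ ⊥) (hPJ : P ≤ J)
    (hJN : J ≤ Subgroup.normalizer (P : Set X)) : aX p J = 0 := by
  classical
  have h := toggleP (p := p) P hP hP1 (fun H _ => if J ≤ H then (1 : ℤ) else 0)
  unfold aX
  rw [← h]
  apply Finset.sum_subset_zero_on_sdiff
  · intro C hC
    simp only [mem_fs, Set.mem_ofPred_eq] at hC ⊢
    exact ⟨hC.1, le_trans hPJ hC.2⟩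
  · intro C hC
    simp only [Finset.mem_sdiff, mem_fs, Set.mem_ofPred_eq, not_and] at hC
    have : ¬ J ≤ stab C ⊓ Subgroup.normalizer (P : Set X) :=
      fun h => hC.2 hC.1.1 (le_trans h inf_le_left)
    simp [this]
  · intro C hC
    simp only [mem_fs, Set.mem_ofPred_eq] at hC
    have : J ≤ stab C ⊓ Subgroup.normalizer (P : Set X) := le_inf hC.2 hJN
    simp [this]

theorem mem_tupS_iff {n : ℕ} {H : Subgroup X} {t : X × X × (Fin n → X)} :
    t ∈ tupS n H ↔ t ∈ tupS n (⊤ : Subgroup X) ∧ gen t ≤ H := by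
  simp only [tupS, mem_fs, Set.mem_ofPred_eq, Subgroup.mem_top, implies_true, and_true,
    gen, Subgroup.closure_le]
  apply and_congr_right
  intro _
  constructor
  · rintro ⟨h1, h2, h3⟩ x hx
    rcases hx with hx | hx
    · rcases hx with rfl | hx
      · exact h1
      · rw [Set.mem_singleton_iff.1 hx]; exact h2
    · obtain ⟨i, rfl⟩ := hx
      exact h3 i
  · intro h
    exact ⟨h (Or.inl (Or.inl rfl)), h (Or.inl (Or.inr rfl)), fun i => h (Or.inr ⟨i, rfl⟩)⟩

/-- Exchange the sum over the chains and the sum over the tuples; a tuple lies in `stab C` iff the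
subgroup it generates does. -/
theorem sum_chain_tau_eq {O : Type} [CommRing O] (α : X → O) (n : ℕ) :
    ∑ C ∈ fs {C : Finset (Subgroup X) | IsPChain p C}, (-1 : ℤ) ^ C.card • tau α n (stab C) =
      ∑ t ∈ tupS n (⊤ : Subgroup X), aX p (gen t) • ∏ i, α (t.2.2 i) := by
  simp only [tau, Finset.smul_sum, aX, Finset.sum_smul]
  apply Finset.sum_comm'
  intro C t
  rw [mem_tupS_iff (H := stab C)]
  simp only [mem_fs, Set.mem_ofPred_eq]
  tauto

end Claimed.Agent.R280.A
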